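/-
Walsh–Fourier composition for Boolean gates (S0085 support).

`Gate f d L`: `f` balanced, degree ≤ d, singleton coefficients sum to `L`.
Composition of balanced gates: degrees multiply, level-one sums multiply.
-/
import Mathlib

set_option autoImplicit false

open Finset

namespace Crest.Agent.H1Walsh

/-- Sign of a Boolean: `true ↦ 1`, `false ↦ -1`. -/
def sg (b : Bool) : ℝ := if b then 1 else -1

@[simp] lemma sg_true : sg true = 1 := by simp [sg]
@[simp] lemma sg_false : sg false = -1 := by simp [sg]

lemma sg_mul_self (b : Bool) : sg b * sg b = 1 := by cases b <;> simp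

lemma sum_sg : ∑ b : Bool, sg b = 0 := by simp

section basic

variable {ι : Type} [Fintype ι] [DecidableEq ι]

/-- The Walsh character. -/
def chi (S : Finset ι) (x : ι → Bool) : ℝ := ∏ i ∈ S, sg (x i)

/-- Un-normalised Fourier coefficient. -/
def cf (F : (ι → Bool) → ℝ) (S : Finset ι) : ℝ := ∑ x, F x * chi S x

lemma card_cube : (Fintype.card (ι → Bool) : ℝ) = 2 ^ Fintype.card ι := by
  simp [Fintype.card_fun]

/-- Sum of a product over coordinates factorises. -/
lemma sum_prod_coord {κ : Type} [Fintype κ] [DecidableEq κ] (h : ι → κ → ℝ) :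
    ∑ x : ι → κ, ∏ i, h i (x i) = ∏ i, ∑ y, h i y := by
  rw [Finset.prod_univ_sum, Fintype.piFinset_univ]

lemma chi_eq_prod_ite (S : Finset ι) (x : ι → Bool) :
    chi S x = ∏ i, (if i ∈ S then sg (x i) else 1) := by
  unfold chi
  rw [Finset.prod_ite_mem]
  simp

/-- Characters of nonempty sets sum to zero. -/
lemma sum_chi_of_nonempty {T : Finset ι} (hT : T.Nonempty) : ∑ x, chi T x = 0 := by
  obtain ⟨j, hj⟩ := hT
  have : ∑ x, chi T x = ∏ i, ∑ b : Bool, (if i ∈ T then sg b else 1) := by
    rw [← sum_prod_coord]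
    exact Finset.sum_congr rfl (fun x _ => chi_eq_prod_ite T x)
  rw [this]
  apply Finset.prod_eq_zero (Finset.mem_univ j)
  simp [hj]

lemma sum_chi_empty : ∑ x : ι → Bool, chi (∅ : Finset ι) x = 2 ^ Fintype.card ι := by
  simp [chi, Fintype.card_fun]

/-- Fourier inversion. -/
lemma inversion (F : (ι → Bool) → ℝ) (x : ι → Bool) :
    F x = ∑ S : Finset ι, (cf F S / 2 ^ Fintype.card ι) * chi S x := by
  classical
  have key : ∀ y : ι → Bool, ∑ S : Finset ι, chi S y * chi S x
      = if y = x then 2 ^ Fintype.card ι else 0 := by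
    intro y
    have h1 : ∀ S : Finset ι, chi S y * chi S x = ∏ i ∈ S, (sg (y i) * sg (x i)) := by
      intro S; simp [chi, Finset.prod_mul_distrib]
    simp_rw [h1]
    have h2 := Finset.prod_one_add (s := (Finset.univ : Finset ι)) (f := fun i => sg (y i) * sg (x i))
    rw [Finset.powerset_univ] at h2
    rw [← h2]
    split_ifs with hxy
    · subst hxy
      simp [sg_mul_self]
      norm_num
    · obtain ⟨i, hi⟩ := Function.ne_iff.mp hxy
      apply Finset.prod_eq_zero (Finset.mem_univ i)
      revert hi
      cases y i <;> cases x i <;> simp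
  have h2pow : (2:ℝ) ^ Fintype.card ι ≠ 0 := by positivity
  calc F x = (∑ y, F y * (if y = x then (2:ℝ) ^ Fintype.card ι else 0)) / 2 ^ Fintype.card ι := by
        simp [h2pow]
    _ = (∑ y, F y * ∑ S : Finset ι, chi S y * chi S x) / 2 ^ Fintype.card ι := by
        simp_rw [key]
    _ = ∑ S : Finset ι, (cf F S / 2 ^ Fintype.card ι) * chi S x := by
        unfold cf
        simp_rw [Finset.mul_sum, Finset.sum_div]
        rw [Finset.sum_comm]
        refine Finset.sum_congr rfl (fun S _ => ?_)
        rw [Finset.sum_mul]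
        refine Finset.sum_congr rfl (fun y _ => ?_)
        ring

end basic

/-- `f` is a balanced Boolean function of degree at most `d` whose singleton
coefficients sum to `L`. -/
structure Gate {ι : Type} [Fintype ι] [DecidableEq ι] (f : (ι → Bool) → Bool) (d : ℕ) (L : ℝ) :
    Prop where
  balanced : ∑ x, sg (f x) = 0
  deg : ∀ S : Finset ι, d < S.card → ∑ x, sg (f x) * chi S x = 0
  lvl : ∑ i, (∑ x, sg (f x) * sg (x i)) / 2 ^ Fintype.card ι = L

section comp

variable {ι κ : Type} [Fintype ι] [DecidableEq ι] [Fintype κ] [DecidableEq κ]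

/-- Slices of a set of pairs. -/
def slice (U : Finset (ι × κ)) (i : ι) : Finset κ := (Finset.univ.filter fun j => (i, j) ∈ U)

lemma chi_pairs (U : Finset (ι × κ)) (x : ι × κ → Bool) :
    chi U x = ∏ i, chi (slice U i) (fun j => x (i, j)) := by
  have h1 : chi U x = ∏ p : ι × κ, (if p ∈ U then sg (x p) else 1) := chi_eq_prod_ite U x
  rw [h1, Fintype.prod_prod_type]
  refine Finset.prod_congr rfl (fun i _ => ?_)
  rw [chi_eq_prod_ite]
  refine Finset.prod_congr rfl (fun j _ => ?_)
  simp [slice]

lemma card_eq_sum_slice (U : Finset (ι × κ)) : U.card = ∑ i, (slice U i).card := by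
  classical
  have : U.card = ∑ p : ι × κ, (if p ∈ U then 1 else 0) := by
    simp [Finset.sum_ite_mem]
  rw [this, Fintype.sum_prod_type]
  refine Finset.sum_congr rfl (fun i _ => ?_)
  rw [slice, Finset.card_filter]

/-- The composed function on the product index. -/
def compF (f : (ι → Bool) → Bool) (g : (κ → Bool) → Bool) : (ι × κ → Bool) → Bool :=
  fun x => f (fun i => g (fun j => x (i, j)))

/-- Basic expansion of a coefficient of the composed function. -/
lemma comp_coeff (f : (ι → Bool) → Bool) (g : (κ → Bool) → Bool) (U : Finset (ι × κ)) :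
    ∑ x : ι × κ → Bool, sg (compF f g x) * chi U x
      = ∑ S : Finset ι, (cf (fun y => sg (f y)) S / 2 ^ Fintype.card ι) *
          ∏ i, (if i ∈ S then ∑ y : κ → Bool, sg (g y) * chi (slice U i) y
                else ∑ y : κ → Bool, chi (slice U i) y) := by
  classical
  -- move to curried variables
  have hcur : ∑ x : ι × κ → Bool, sg (compF f g x) * chi U x
      = ∑ x : ι → κ → Bool, sg (f (fun i => g (x i))) *
          ∏ i, chi (slice U i) (x i) := by
    refine Fintype.sum_equiv (Equiv.curry ι κ Bool) _ _ (fun x => ?_)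
    simp only [compF, Equiv.curry_apply]
    rw [chi_pairs]
    rfl
  rw [hcur]
  have hinv : ∀ x : ι → κ → Bool, sg (f (fun i => g (x i))) =
      ∑ S : Finset ι, (cf (fun y => sg (f y)) S / 2 ^ Fintype.card ι) *
        ∏ i, (if i ∈ S then sg (g (x i)) else 1) := by
    intro x
    have := inversion (fun y => sg (f y)) (fun i => g (x i))
    rw [this]
    refine Finset.sum_congr rfl (fun S _ => ?_)
    rw [chi_eq_prod_ite]
  simp_rw [hinv, Finset.sum_mul]
  rw [Finset.sum_comm]
  refine Finset.sum_congr rfl (fun S _ => ?_)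
  simp_rw [mul_assoc]
  rw [← Finset.mul_sum]
  congr 1
  simp_rw [← Finset.prod_mul_distrib]
  rw [sum_prod_coord (fun i (y : κ → Bool) =>
    (if i ∈ S then sg (g y) else 1) * chi (slice U i) y)]
  refine Finset.prod_congr rfl (fun i _ => ?_)
  by_cases hi : i ∈ S <;> simp [hi]

variable {f : (ι → Bool) → Bool} {g : (κ → Bool) → Bool} {d d' : ℕ} {L L' : ℝ}

lemma comp_deg (hf : Gate f d L) (hg : Gate g d' L') (U : Finset (ι × κ))
    (hU : d * d' < U.card) :
    ∑ x : ι × κ → Bool, sg (compF f g x) * chi U x = 0 := by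
  classical
  rw [comp_coeff]
  refine Finset.sum_eq_zero (fun S _ => ?_)
  by_cases hS : d < S.card
  · have : cf (fun y => sg (f y)) S = 0 := hf.deg S hS
    simp [this]
  · push Not at hS
    have : ∃ i, (if i ∈ S then ∑ y : κ → Bool, sg (g y) * chi (slice U i) y
                else ∑ y : κ → Bool, chi (slice U i) y) = 0 := by
      by_contra hne
      push Not at hne
      have h1 : ∀ i, i ∉ S → slice U i = ∅ := by
        intro i hi
        by_contra hc
        have := hne i
        rw [if_neg hi] at this
        exact this (sum_chi_of_nonempty (Finset.nonempty_iff_ne_empty.mpr hc))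
      have h2 : ∀ i, i ∈ S → (slice U i).card ≤ d' := by
        intro i hi
        by_contra hc
        push Not at hc
        have := hne i
        rw [if_pos hi] at this
        exact this (hg.deg _ hc)
      have : U.card ≤ d * d' := by
        rw [card_eq_sum_slice]
        calc ∑ i, (slice U i).card = ∑ i ∈ S, (slice U i).card := by
              symm
              apply Finset.sum_subset (Finset.subset_univ S)
              intro i _ hi
              simp [h1 i hi]
          _ ≤ ∑ i ∈ S, d' := Finset.sum_le_sum h2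
          _ = S.card * d' := by simp
          _ ≤ d * d' := Nat.mul_le_mul_right _ hS
      omega
    obtain ⟨i, hi⟩ := this
    rw [Finset.prod_eq_zero (Finset.mem_univ i) hi, mul_zero]

lemma slice_empty (i : ι) : slice (∅ : Finset (ι × κ)) i = ∅ := by
  simp [slice]

lemma comp_balanced (hf : Gate f d L) (hg : Gate g d' L') :
    ∑ x : ι × κ → Bool, sg (compF f g x) = 0 := by
  classical
  have h := comp_coeff f g (∅ : Finset (ι × κ))
  simp only [slice_empty] at h
  have h0 : ∀ x : ι × κ → Bool, chi (∅ : Finset (ι × κ)) x = 1 := by intro x; simp [chi]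
  simp only [h0, mul_one] at h
  rw [h]
  refine Finset.sum_eq_zero (fun S _ => ?_)
  by_cases hS : S = ∅
  · subst hS
    have : cf (fun y => sg (f y)) ∅ = 0 := by
      have := hf.balanced
      simpa [cf, chi] using this
    simp [this]
  · obtain ⟨i, hi⟩ := Finset.nonempty_iff_ne_empty.mpr hS
    apply mul_eq_zero_of_right
    apply Finset.prod_eq_zero (Finset.mem_univ i)
    rw [if_pos hi]
    have := hg.balanced
    simpa [chi] using this

/-- Slices of a singleton. -/
lemma slice_singleton_self (i : ι) (j : κ) : slice ({(i, j)} : Finset (ι × κ)) i = {j} := by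
  ext k; simp [slice, eq_comm]

lemma slice_singleton_ne {i i' : ι} (j : κ) (h : i' ≠ i) :
    slice ({(i, j)} : Finset (ι × κ)) i' = ∅ := by
  ext k; simp [slice, h]

lemma chi_singleton {α : Type} [Fintype α] [DecidableEq α] (a : α) (x : α → Bool) :
    chi {a} x = sg (x a) := by simp [chi]

/-- The singleton coefficient of the composition. -/
lemma comp_single (hg : Gate g d' L') (i : ι) (j : κ) :
    (∑ x : ι × κ → Bool, sg (compF f g x) * sg (x (i, j))) / 2 ^ Fintype.card (ι × κ)
      = ((∑ y, sg (f y) * sg (y i)) / 2 ^ Fintype.card ι)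
        * ((∑ y, sg (g y) * sg (y j)) / 2 ^ Fintype.card κ) := by
  classical
  have h := comp_coeff f g ({(i, j)} : Finset (ι × κ))
  simp only [chi_singleton] at h
  rw [h]
  -- only S = {i} survives
  have hval : ∀ S : Finset ι, S ≠ {i} →
      (cf (fun y => sg (f y)) S / 2 ^ Fintype.card ι) *
          ∏ i', (if i' ∈ S then ∑ y : κ → Bool, sg (g y) * chi (slice {(i, j)} i') y
                else ∑ y : κ → Bool, chi (slice {(i, j)} i') y) = 0 := by
    intro S hS
    apply mul_eq_zero_of_right
    by_cases hiS : i ∈ S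
    · -- some other element
      have : ∃ i' ∈ S, i' ≠ i := by
        by_contra hc
        push Not at hc
        apply hS
        ext a
        simp only [Finset.mem_singleton]
        exact ⟨hc a, fun h => h ▸ hiS⟩
      obtain ⟨i', hi', hne⟩ := this
      apply Finset.prod_eq_zero (Finset.mem_univ i')
      rw [if_pos hi', slice_singleton_ne j hne]
      have := hg.balanced
      simpa [chi] using this
    · apply Finset.prod_eq_zero (Finset.mem_univ i)
      rw [if_neg hiS, slice_singleton_self]
      exact sum_chi_of_nonempty (Finset.singleton_nonempty j)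
  rw [Finset.sum_eq_single ({i} : Finset ι) (fun S _ hS => hval S hS)
    (fun hc => absurd (Finset.mem_univ _) hc)]
  have hprod : ∏ i', (if i' ∈ ({i} : Finset ι)
        then ∑ y : κ → Bool, sg (g y) * chi (slice {(i, j)} i') y
        else ∑ y : κ → Bool, chi (slice {(i, j)} i') y)
      = (∑ y : κ → Bool, sg (g y) * sg (y j)) * (2 ^ Fintype.card κ) ^ (Fintype.card ι - 1) := by
    rw [← Finset.mul_prod_erase Finset.univ _ (Finset.mem_univ i)]
    congr 1
    · simp [slice_singleton_self, chi_singleton]
    · have : ∀ i' ∈ Finset.univ.erase i, (if i' ∈ ({i} : Finset ι)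
            then ∑ y : κ → Bool, sg (g y) * chi (slice {(i, j)} i') y
            else ∑ y : κ → Bool, chi (slice {(i, j)} i') y) = (2:ℝ) ^ Fintype.card κ := by
        intro i' hi'
        have hne : i' ≠ i := Finset.ne_of_mem_erase hi'
        rw [if_neg (by simpa using hne), slice_singleton_ne j hne, sum_chi_empty]
      rw [Finset.prod_congr rfl this, Finset.prod_const]
      simp [Finset.card_erase_of_mem]
  rw [hprod]
  have hcard : 0 < Fintype.card ι := Fintype.card_pos_iff.mpr ⟨i⟩
  have hcf : cf (fun y => sg (f y)) {i} = ∑ y, sg (f y) * sg (y i) := by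
    simp [cf, chi_singleton]
  rw [hcf, Fintype.card_prod]
  obtain ⟨n, hn⟩ : ∃ n, Fintype.card ι = n + 1 := ⟨Fintype.card ι - 1, by omega⟩
  rw [hn]
  simp only [Nat.add_sub_cancel]
  have h1 : (2:ℝ) ^ ((n + 1) * Fintype.card κ) = (2 ^ Fintype.card κ) ^ n * 2 ^ Fintype.card κ := by
    rw [Nat.add_mul, one_mul, pow_add, pow_mul']
  rw [h1]
  have h2 : (2:ℝ) ^ Fintype.card κ ≠ 0 := by positivity
  have h3 : ((2:ℝ) ^ Fintype.card κ) ^ n ≠ 0 := by positivity
  field_simp

/-- **Composition of balanced gates.** -/
theorem Gate.comp (hf : Gate f d L) (hg : Gate g d' L') :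
    Gate (compF f g) (d * d') (L * L') where
  balanced := comp_balanced hf hg
  deg := fun U hU => comp_deg hf hg U hU
  lvl := by
    rw [Fintype.sum_prod_type]
    simp_rw [comp_single hg]
    rw [← hf.lvl, ← hg.lvl, Finset.sum_mul]
    refine Finset.sum_congr rfl (fun i _ => ?_)
    rw [Finset.mul_sum]

end comp

section transport

variable {ι κ : Type} [Fintype ι] [DecidableEq ι] [Fintype κ] [DecidableEq κ]

/-- Transport of a gate along an equivalence of index types. -/
theorem Gate.transport {f : (ι → Bool) → Bool} {d : ℕ} {L : ℝ} (hf : Gate f d L) (e : κ ≃ ι) :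
    Gate (fun x : κ → Bool => f (x ∘ e.symm)) d L where
  balanced := by
    rw [← hf.balanced]
    exact Fintype.sum_equiv (Equiv.arrowCongr e (Equiv.refl Bool)) _ _ (fun x => by
      simp [Equiv.arrowCongr])
  deg := by
    intro S hS
    have h := hf.deg (S.map e.toEmbedding) (by simpa using hS)
    rw [← h]
    refine Fintype.sum_equiv (Equiv.arrowCongr e (Equiv.refl Bool)) _ _ (fun x => ?_)
    simp [Equiv.arrowCongr, chi, Finset.prod_map]
  lvl := by
    rw [← hf.lvl, Fintype.card_congr e]
    refine Fintype.sum_equiv e _ _ (fun i => ?_)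
    congr 1
    refine Fintype.sum_equiv (Equiv.arrowCongr e (Equiv.refl Bool)) _ _ (fun x => ?_)
    simp [Equiv.arrowCongr]

end transport

/-- A `Fin`-indexed gate of all powers. -/
theorem gate_powers {ι : Type} [Fintype ι] [DecidableEq ι] {f : (ι → Bool) → Bool} {d : ℕ} {L : ℝ}
    (hf : Gate f d L) (k : ℕ) :
    ∃ (n : ℕ) (F : (Fin n → Bool) → Bool), Gate F (d ^ (k + 1)) (L ^ (k + 1)) := by
  induction k with
  | zero =>
    have h := hf.transport (Fintype.equivFin ι).symm
    have e1 : d ^ (0 + 1) = d := by simp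
    have e2 : L ^ (0 + 1) = L := by simp
    rw [e1, e2]
    exact ⟨_, _, h⟩
  | succ k ih =>
    obtain ⟨n, F, hF⟩ := ih
    have h := (hf.comp hF).transport (Fintype.equivFin (ι × Fin n)).symm
    have e1 : d * d ^ (k + 1) = d ^ (k + 1 + 1) := by ring
    have e2 : L * L ^ (k + 1) = L ^ (k + 1 + 1) := by ring
    rw [e1, e2] at h
    exact ⟨_, _, h⟩

/-- A balanced function on a cube is non-constant. -/
lemma Gate.nonconst {ι : Type} [Fintype ι] [DecidableEq ι] {f : (ι → Bool) → Bool} {d : ℕ} {L : ℝ}
    (hf : Gate f d L) : ∃ x y, f x ≠ f y := by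
  by_contra hc
  push Not at hc
  have h0 : (Finset.univ : Finset (ι → Bool)).Nonempty := Finset.univ_nonempty
  have hb := hf.balanced
  by_cases ht : f (fun _ => true) = true
  · have : ∀ x, sg (f x) = 1 := by intro x; rw [hc x (fun _ => true), ht]; simp
    simp only [this] at hb
    simp at hb
  · have ht' : f (fun _ => true) = false := by simpa using ht
    have : ∀ x, sg (f x) = -1 := by intro x; rw [hc x (fun _ => true), ht']; simp
    simp only [this] at hb
    simp at hb

/-- **Reduction of S0085 to one gate.** -/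
theorem final_of_gate {ι : Type} [Fintype ι] [DecidableEq ι] {f : (ι → Bool) → Bool} {d : ℕ} {L : ℝ}
    (hf : Gate f d L) (hL : Real.sqrt d < L) (C : ℝ) (hC : 0 < C) :
    ∃ n : ℕ, ∃ f : (Fin n → Bool) → Bool, ∃ d : ℕ,
      (∃ x y, f x ≠ f y) ∧
      (∀ S : Finset (Fin n), d < S.card →
        ∑ x : Fin n → Bool, ((if f x then (1 : ℝ) else -1) * ∏ i ∈ S, (if x i then (1 : ℝ) else -1)) = 0) ∧
      C * Real.sqrt d <
        ∑ i : Fin n, (∑ x : Fin n → Bool, ((if f x then (1 : ℝ) else -1) * (if x i then (1 : ℝ) else -1))) / 2 ^ n := by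
  have hd : 0 < d := by
    -- degree zero gates are constant: excluded by balance
    by_contra hd0
    have hd0' : d = 0 := by omega
    subst hd0'
    obtain ⟨x, y, hxy⟩ := hf.nonconst
    have hinv := inversion (fun z => sg (f z))
    have hconst : ∀ z, sg (f z) = cf (fun y => sg (f y)) ∅ / 2 ^ Fintype.card ι := by
      intro z
      rw [hinv z]
      rw [Finset.sum_eq_single (∅ : Finset ι)]
      · simp [chi]
      · intro S _ hS
        have : cf (fun y => sg (f y)) S = 0 :=
          hf.deg S (Finset.card_pos.mpr (Finset.nonempty_iff_ne_empty.mpr hS))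
        simp [this]
      · intro hc; exact absurd (Finset.mem_univ _) hc
    have hxy' : sg (f x) = sg (f y) := by rw [hconst x, hconst y]
    apply hxy
    revert hxy'
    cases f x <;> cases f y <;> simp <;> norm_num
  have hs : 0 < Real.sqrt d := Real.sqrt_pos.mpr (by exact_mod_cast hd)
  have hr : 1 < L / Real.sqrt d := (one_lt_div hs).mpr hL
  obtain ⟨k, hk⟩ := pow_unbounded_of_one_lt C hr
  have hk' : C < (L / Real.sqrt d) ^ (k + 1) :=
    lt_of_lt_of_le hk (pow_le_pow_right₀ hr.le (Nat.le_succ k))
  obtain ⟨n, F, hF⟩ := gate_powers hf k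
  refine ⟨n, F, d ^ (k + 1), hF.nonconst, ?_, ?_⟩
  · intro S hS
    have := hF.deg S hS
    simpa [sg, chi] using this
  · have hl := hF.lvl
    have hsqrt : Real.sqrt ((d ^ (k + 1) : ℕ) : ℝ) = (Real.sqrt d) ^ (k + 1) := by
      push_cast
      rw [Real.sqrt_eq_iff_mul_self_eq (by positivity) (by positivity)]
      rw [← mul_pow, Real.mul_self_sqrt (by positivity)]
    rw [hsqrt]
    have hs' : 0 < (Real.sqrt d) ^ (k + 1) := by positivity
    have : C * (Real.sqrt d) ^ (k + 1) < L ^ (k + 1) := by
      rw [div_pow, lt_div_iff₀ hs'] at hk'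
      exact hk'
    calc C * (Real.sqrt d) ^ (k + 1) < L ^ (k + 1) := this
      _ = _ := by
        rw [← hl]
        simp [sg, Fintype.card_fin]

end Crest.Agent.H1Walsh
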