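/-
Kernel-checkable verification of a gate given by a truth table (S0085 support).
-/
import Crest.Agent.H1Walsh

set_option autoImplicit false

open Finset

namespace Crest.Agent.H1WalshChk

open Crest.Agent.H1Walsh

/-- Full binary tree of integer values, of depth `n`. -/
@[reducible] def Cube : ℕ → Type
  | 0 => ℤ
  | n + 1 => Cube n × Cube n

def Cube.add : (n : ℕ) → Cube n → Cube n → Cube n
  | 0, a, b => (a + b : ℤ)
  | n + 1, a, b => (Cube.add n a.1 b.1, Cube.add n a.2 b.2)

def Cube.sub : (n : ℕ) → Cube n → Cube n → Cube n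
  | 0, a, b => (a - b : ℤ)
  | n + 1, a, b => (Cube.sub n a.1 b.1, Cube.sub n a.2 b.2)

/-- Evaluate at a point; `x 0` selects the half. -/
def ev : (n : ℕ) → Cube n → (Fin n → Bool) → ℤ
  | 0, a, _ => a
  | n + 1, a, x => if x 0 then ev n a.2 (Fin.tail x) else ev n a.1 (Fin.tail x)

def ofNat : (n : ℕ) → ℕ → Cube n
  | 0, t => (if t % 2 = 1 then 1 else -1 : ℤ)
  | n + 1, t => (ofNat n (t % 2 ^ 2 ^ n), ofNat n (t / 2 ^ 2 ^ n))

/-- The Boolean function read off a truth table. -/
def fb : (n : ℕ) → ℕ → (Fin n → Bool) → Bool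
  | 0, t, _ => decide (t % 2 = 1)
  | n + 1, t, x => if x 0 then fb n (t / 2 ^ 2 ^ n) (Fin.tail x) else fb n (t % 2 ^ 2 ^ n) (Fin.tail x)

def sumC : (n : ℕ) → Cube n → ℤ
  | 0, a => a
  | n + 1, a => sumC n a.1 + sumC n a.2

def lvlC : (n : ℕ) → Cube n → ℤ
  | 0, _ => 0
  | n + 1, a => sumC n a.2 - sumC n a.1 + lvlC n (Cube.add n a.1 a.2)

/-- Degree check: all coefficients on sets of size at least `D` vanish. -/
def degOK : (n : ℕ) → ℕ → Cube n → Bool
  | 0, D, a => decide (0 < D) || decide (a = (0 : ℤ))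
  | n + 1, D, a => degOK n D (Cube.add n a.1 a.2) && degOK n (D - 1) (Cube.sub n a.2 a.1)

lemma ev_add (n : ℕ) (a b : Cube n) (x : Fin n → Bool) :
    ev n (Cube.add n a b) x = ev n a x + ev n b x := by
  induction n with
  | zero => rfl
  | succ n ih =>
    simp only [ev, Cube.add]
    split_ifs <;> exact ih _ _ _

lemma ev_sub (n : ℕ) (a b : Cube n) (x : Fin n → Bool) :
    ev n (Cube.sub n a b) x = ev n a x - ev n b x := by
  induction n with
  | zero => rfl
  | succ n ih =>
    simp only [ev, Cube.sub]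
    split_ifs <;> exact ih _ _ _

lemma ev_ofNat (n t : ℕ) (x : Fin n → Bool) :
    (ev n (ofNat n t) x : ℝ) = sg (fb n t x) := by
  induction n generalizing t with
  | zero =>
    simp only [ev, ofNat, fb, sg]
    by_cases h : t % 2 = 1 <;> simp [h]
  | succ n ih =>
    simp only [ev, ofNat, fb]
    split_ifs <;> exact ih _ _

/-- Splitting a sum over the cube along the first coordinate. -/
lemma sum_succ {n : ℕ} (h : (Fin (n + 1) → Bool) → ℝ) :
    ∑ x, h x = ∑ y : Fin n → Bool, (h (Fin.cons false y) + h (Fin.cons true y)) := by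
  rw [← (Fin.consEquiv (fun _ : Fin (n + 1) => Bool)).sum_comp, Fintype.sum_prod_type,
    Fintype.sum_bool, Finset.sum_add_distrib, add_comm]
  rfl

lemma ev_cons_false {n : ℕ} (a : Cube (n + 1)) (y : Fin n → Bool) :
    ev (n + 1) a (Fin.cons false y) = ev n a.1 y := by
  simp [ev, Fin.tail_cons]

lemma ev_cons_true {n : ℕ} (a : Cube (n + 1)) (y : Fin n → Bool) :
    ev (n + 1) a (Fin.cons true y) = ev n a.2 y := by
  simp [ev, Fin.tail_cons]

lemma sum_ev (n : ℕ) (a : Cube n) : ∑ x, (ev n a x : ℝ) = sumC n a := by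
  induction n with
  | zero => simp [ev, sumC]
  | succ n ih =>
    rw [sum_succ]
    simp only [ev_cons_false, ev_cons_true, Finset.sum_add_distrib, ih, sumC]
    push_cast
    ring

/-- Tail set of a set of coordinates. -/
def tailSet {n : ℕ} (S : Finset (Fin (n + 1))) : Finset (Fin n) :=
  Finset.univ.filter fun i => i.succ ∈ S

lemma chi_cons {n : ℕ} (S : Finset (Fin (n + 1))) (b : Bool) (y : Fin n → Bool) :
    chi S (Fin.cons b y) = (if (0 : Fin (n + 1)) ∈ S then sg b else 1) * chi (tailSet S) y := by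
  rw [chi_eq_prod_ite, Fin.prod_univ_succ, chi_eq_prod_ite]
  simp [tailSet]

lemma card_tailSet {n : ℕ} (S : Finset (Fin (n + 1))) :
    S.card = (tailSet S).card + (if (0 : Fin (n + 1)) ∈ S then 1 else 0) := by
  have h1 : S.card = ∑ i : Fin (n + 1), (if i ∈ S then 1 else 0) := by simp
  have h2 : (tailSet S).card = ∑ i : Fin n, (if i.succ ∈ S then 1 else 0) := by
    rw [tailSet, Finset.card_filter]
  rw [h1, h2, Fin.sum_univ_succ, add_comm]

lemma deg_of_degOK (n : ℕ) (D : ℕ) (a : Cube n) (h : degOK n D a = true)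
    (S : Finset (Fin n)) (hS : D ≤ S.card) : ∑ x, (ev n a x : ℝ) * chi S x = 0 := by
  induction n generalizing D with
  | zero =>
    have hS0 : S = ∅ := by
      ext i; exact i.elim0
    subst hS0
    have hD : D = 0 := by simpa using hS
    subst hD
    simp only [degOK] at h
    have ha : a = (0 : ℤ) := by simpa using h
    simp [ev, ha]
  | succ n ih =>
    simp only [degOK, Bool.and_eq_true] at h
    obtain ⟨h1, h2⟩ := h
    rw [sum_succ]
    simp only [ev_cons_false, ev_cons_true, chi_cons]
    by_cases h0 : (0 : Fin (n + 1)) ∈ S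
    · have hc := card_tailSet S
      simp only [h0, if_true, add_zero] at hc
      have := ih (D - 1) (Cube.sub n a.2 a.1) h2 (tailSet S) (by omega)
      rw [← this]
      refine Finset.sum_congr rfl (fun y _ => ?_)
      simp only [h0, if_true, sg_false, sg_true, ev_sub]
      push_cast
      ring
    · have hc := card_tailSet S
      simp only [h0, if_false, add_zero] at hc
      have := ih D (Cube.add n a.1 a.2) h1 (tailSet S) (by omega)
      rw [← this]
      refine Finset.sum_congr rfl (fun y _ => ?_)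
      simp only [h0, if_false, ev_add]
      push_cast
      ring

lemma lvl_ev (n : ℕ) (a : Cube n) :
    ∑ i : Fin n, ∑ x, (ev n a x : ℝ) * sg (x i) = lvlC n a := by
  induction n with
  | zero => simp [lvlC]
  | succ n ih =>
    rw [Fin.sum_univ_succ]
    have h0 : ∑ x, (ev (n + 1) a x : ℝ) * sg (x 0) = sumC n a.2 - sumC n a.1 := by
      rw [sum_succ]
      simp only [ev_cons_false, ev_cons_true, Fin.cons_zero, sg_false, sg_true]
      rw [← sum_ev, ← sum_ev, ← Finset.sum_sub_distrib]
      refine Finset.sum_congr rfl (fun y _ => ?_)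
      ring
    have h1 : ∀ i : Fin n, ∑ x, (ev (n + 1) a x : ℝ) * sg (x i.succ)
        = ∑ y, (ev n (Cube.add n a.1 a.2) y : ℝ) * sg (y i) := by
      intro i
      rw [sum_succ]
      refine Finset.sum_congr rfl (fun y _ => ?_)
      simp only [ev_cons_false, ev_cons_true, Fin.cons_succ, ev_add]
      push_cast
      ring
    rw [h0]
    simp_rw [h1]
    rw [ih]
    simp only [lvlC]
    push_cast
    ring

/-- **Gate from a truth table**, all hypotheses decidable by kernel evaluation. -/
theorem gate_of_checks (n d t : ℕ)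
    (hb : sumC n (ofNat n t) = 0)
    (hd : degOK n (d + 1) (ofNat n t) = true) :
    Gate (fb n t) d ((lvlC n (ofNat n t) : ℝ) / 2 ^ n) where
  balanced := by
    have := sum_ev n (ofNat n t)
    simp_rw [ev_ofNat] at this
    rw [this, hb]; simp
  deg := by
    intro S hS
    have := deg_of_degOK n (d + 1) _ hd S hS
    simp_rw [ev_ofNat] at this
    exact this
  lvl := by
    have := lvl_ev n (ofNat n t)
    simp_rw [ev_ofNat] at this
    rw [← this, Fintype.card_fin, Finset.sum_div]

/-! Test: majority on three bits. -/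
example : sumC 3 (ofNat 3 0xE8) = 0 := by decide +kernel
example : degOK 3 4 (ofNat 3 0xE8) = true := by decide +kernel
example : lvlC 3 (ofNat 3 0xE8) = 12 := by decide +kernel

end Crest.Agent.H1WalshChk
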