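import Crest.Prelude.Def_PolyominoGame

set_option autoImplicit false

namespace Crest.Agent.H2Snaky

open Crest.CombinatoricsR.PolyominoGame

abbrev Cell := ℤ × ℤ

/-- `WinP M Z k`: Maker holding `M` wins within `k` further claims, as long as Breaker holds no
cell of `Z`. -/
inductive WinP : Set Cell → Set Cell → ℕ → Prop
  | done {M Z : Set Cell} {k : ℕ} : ContainsCopy M → WinP M Z k
  | step {M Z : Set Cell} {k : ℕ} (c : Cell) (Z' : Cell → Set Cell) : c ∈ Z → c ∉ M →
      (∀ r : Cell, r ≠ c → r ∉ M → Z' r ⊆ Z ∧ r ∉ Z' r) →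
      (∀ r : Cell, r ≠ c → r ∉ M → WinP (insert c M) (Z' r) k) →
      WinP M Z (k + 1)

theorem containsCopy_mono {X Y : Set Cell} (h : X ⊆ Y) (hX : ContainsCopy X) : ContainsCopy Y := by
  obtain ⟨t, e1, e2, h1, h2, h3⟩ := hX
  refine ⟨t, e1, e2, h1, h2, ?_⟩
  rcases h3 with h3 | h3
  · exact Or.inl fun p hp => h (h3 p hp)
  · exact Or.inr fun p hp => h (h3 p hp)

/-- The replies so far, as a list. -/
abbrev pre (r : ℕ → Cell) (i : ℕ) : List Cell := (List.range i).map r

theorem pre_succ (r : ℕ → Cell) (i : ℕ) :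
    pre r (i + 1) = r 0 :: pre (fun j => r (j + 1)) i := by
  simp [pre, List.range_succ_eq_map, List.map_map, Function.comp_def]

/-- Total of absolute values of first coordinates. -/
def absSum (l : List Cell) : ℕ := (l.map fun c => c.1.natAbs).sum

theorem absSum_pre_succ (r : ℕ → Cell) (i : ℕ) :
    absSum (pre r (i + 1)) = absSum (pre r i) + (r i).1.natAbs := by
  simp [absSum, pre, List.range_succ, List.map_append, List.sum_append]

theorem length_pre (r : ℕ → Cell) (i : ℕ) : (pre r i).length = i := by simp [pre]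

theorem absSum_pre_mono (r : ℕ → Cell) {j i : ℕ} (h : j ≤ i) :
    absSum (pre r j) ≤ absSum (pre r i) := by
  induction i, h using Nat.le_induction with
  | base => exact le_rfl
  | succ n _ ih => rw [absSum_pre_succ]; omega

/-- A cell that is new: its first coordinate exceeds everything seen so far. -/
def fresh (B : ℕ) (l : List Cell) : Cell := (((B + l.length + absSum l : ℕ) : ℤ), 0)

theorem fresh_legal (B : ℕ) (Old : Set Cell) (hB : ∀ c ∈ Old, c.1.natAbs < B) (r : ℕ → Cell) (i : ℕ) :
    fresh B (pre r i) ∉ Old ∧ (∀ j, j < i → fresh B (pre r i) ≠ fresh B (pre r j)) ∧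
      (∀ j, j < i → fresh B (pre r i) ≠ r j) := by
  refine ⟨?_, ?_, ?_⟩
  · intro h
    have := hB _ h
    simp only [fresh] at this
    omega
  · intro j hj h
    have h1 := congrArg Prod.fst h
    simp only [fresh, length_pre] at h1
    have := absSum_pre_mono r hj.le
    omega
  · intro j hj h
    have h1 := congrArg Prod.fst h
    simp only [fresh, length_pre] at h1
    have h2 := absSum_pre_mono r (Nat.succ_le_of_lt hj)
    rw [absSum_pre_succ] at h2
    have h3 : (r j).1.natAbs = (B + i + absSum (pre r i)) := by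
      rw [← h1]; exact Int.natAbs_natCast _
    omega

theorem exists_bound (Old : Set Cell) (hOld : Old.Finite) : ∃ B : ℕ, ∀ c ∈ Old, c.1.natAbs < B := by
  classical
  obtain ⟨B, hB⟩ := (hOld.image fun c : Cell => c.1.natAbs).bddAbove
  refine ⟨B + 1, fun c hc => ?_⟩
  have := hB (Set.mem_image_of_mem (fun c : Cell => c.1.natAbs) hc)
  omega

/-- The strategy extraction. -/
theorem extract {M Z : Set Cell} {k : ℕ} (h : WinP M Z k) :
    ∀ Old : Set Cell, Old.Finite → M ⊆ Old → (∀ x ∈ Z, x ∈ Old → x ∈ M) →
      ∃ τ : List Cell → Cell, ∀ r : ℕ → Cell,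
        (∀ i, i + 1 < k → r i ∉ Old ∧ (∀ j, j ≤ i → r i ≠ τ (pre r j)) ∧ (∀ j, j < i → r i ≠ r j)) →
        (∀ i, i < k → τ (pre r i) ∉ Old ∧ (∀ j, j < i → τ (pre r i) ≠ τ (pre r j)) ∧
            (∀ j, j < i → τ (pre r i) ≠ r j)) ∧
          ContainsCopy (M ∪ {c | ∃ j, j < k ∧ c = τ (pre r j)}) := by
  induction h with
  | @done M Z k hM =>
    intro Old hOld _ _
    obtain ⟨B, hB⟩ := exists_bound Old hOld
    refine ⟨fresh B, fun r _ => ⟨fun i _ => fresh_legal B Old hB r i, ?_⟩⟩
    exact containsCopy_mono Set.subset_union_left hM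
  | @step M Z k c Z' hcZ hcM hZ' hw ih =>
    intro Old hOld hMOld hZ
    classical
    have hcOld : c ∉ Old := fun h => hcM (hZ c hcZ h)
    -- choice of continuation
    have key : ∀ r : Cell, ∃ τ' : List Cell → Cell, r ≠ c → r ∉ Old →
        ∀ r' : ℕ → Cell,
        (∀ i, i + 1 < k → r' i ∉ (Old ∪ {c, r}) ∧ (∀ j, j ≤ i → r' i ≠ τ' (pre r' j)) ∧
            (∀ j, j < i → r' i ≠ r' j)) →
        (∀ i, i < k → τ' (pre r' i) ∉ (Old ∪ {c, r}) ∧ (∀ j, j < i → τ' (pre r' i) ≠ τ' (pre r' j)) ∧
            (∀ j, j < i → τ' (pre r' i) ≠ r' j)) ∧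
          ContainsCopy (insert c M ∪ {x | ∃ j, j < k ∧ x = τ' (pre r' j)}) := by
      intro r
      by_cases hr : r ≠ c ∧ r ∉ Old
      · have hrM : r ∉ M := fun h => hr.2 (hMOld h)
        obtain ⟨τ', hτ'⟩ := ih r hr.1 hrM (Old ∪ {c, r})
          (hOld.union (by simp)) (by
            intro x hx
            rcases hx with rfl | hx
            · exact Or.inr (Or.inl rfl)
            · exact Or.inl (hMOld hx)) (by
            intro x hxZ hxOld
            rcases hxOld with hx | hx
            · exact Or.inr (hZ x ((hZ' r hr.1 hrM).1 hxZ) hx)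
            · rcases hx with rfl | hx
              · exact Or.inl rfl
              · have : x = r := hx
                subst this
                exact absurd hxZ (hZ' x hr.1 hrM).2)
        exact ⟨τ', fun _ _ => hτ'⟩
      · exact ⟨fun _ => c, fun h1 h2 => absurd ⟨h1, h2⟩ hr⟩
    choose T hT using key
    let τ : List Cell → Cell := fun l => match l with
      | [] => c
      | r :: l' => T r l'
    have τnil : τ [] = c := rfl
    have τcons : ∀ r l', τ (r :: l') = T r l' := fun _ _ => rfl
    refine ⟨τ, fun r hr => ?_⟩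
    let r' : ℕ → Cell := fun j => r (j + 1)
    have pre0 : pre r 0 = [] := rfl
    have τ0 : τ (pre r 0) = c := rfl
    have τs : ∀ i, τ (pre r (i + 1)) = T (r 0) (pre r' i) := by
      intro i; rw [pre_succ, τcons]
    by_cases hk : k = 0
    · -- last claim: no legal reply needed
      subst hk
      refine ⟨?_, ?_⟩
      · intro i hi
        have : i = 0 := by omega
        subst this
        refine ⟨by rw [τ0]; exact hcOld, fun j hj => absurd hj (Nat.not_lt_zero _),
          fun j hj => absurd hj (Nat.not_lt_zero _)⟩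
      · -- pick a legal reply
        obtain ⟨B, hB⟩ := exists_bound (Old ∪ {c}) (hOld.union (by simp))
        let r0 : Cell := ((B : ℤ), 0)
        have hr0 : r0 ∉ Old ∪ {c} := by
          intro h
          have := hB _ h
          simp [r0] at this
        have hr0c : r0 ≠ c := fun h => hr0 (Or.inr h)
        have hr0O : r0 ∉ Old := fun h => hr0 (Or.inl h)
        have := (hT r0 hr0c hr0O r (by intro i hi; omega)).2
        apply containsCopy_mono _ this
        intro x hx
        rcases hx with hx | hx
        · rcases hx with rfl | hx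
          · exact Or.inr ⟨0, Nat.succ_pos _, rfl⟩
          · exact Or.inl hx
        · obtain ⟨j, hj, _⟩ := hx
          omega
    · -- general step
      have hk1 : 0 + 1 < k + 1 := by omega
      obtain ⟨hr0O, hr0c', _⟩ := hr 0 hk1
      have hr0c : r 0 ≠ c := by
        have := hr0c' 0 le_rfl
        rwa [τ0] at this
      have hlegal : ∀ i, i + 1 < k → r' i ∉ (Old ∪ {c, r 0}) ∧
          (∀ j, j ≤ i → r' i ≠ T (r 0) (pre r' j)) ∧ (∀ j, j < i → r' i ≠ r' j) := by
        intro i hi
        obtain ⟨h1, h2, h3⟩ := hr (i + 1) (by omega)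
        refine ⟨?_, ?_, ?_⟩
        · intro hx
          rcases hx with hx | hx
          · exact h1 hx
          · rcases hx with hx | hx
            · have := h2 0 (Nat.zero_le _)
              rw [τ0] at this
              exact this hx
            · exact h3 0 (Nat.succ_pos _) hx
        · intro j hj
          have := h2 (j + 1) (by omega)
          rwa [τs] at this
        · intro j hj
          exact h3 (j + 1) (by omega)
      obtain ⟨hc1, hc2⟩ := hT (r 0) hr0c hr0O r' hlegal
      refine ⟨?_, ?_⟩
      · intro i hi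
        rcases i with _ | i
        · exact ⟨by rw [τ0]; exact hcOld, fun j hj => absurd hj (Nat.not_lt_zero _),
            fun j hj => absurd hj (Nat.not_lt_zero _)⟩
        · obtain ⟨a1, a2, a3⟩ := hc1 i (by omega)
          rw [τs]
          refine ⟨fun h => a1 (Or.inl h), ?_, ?_⟩
          · intro j hj
            rcases j with _ | j
            · rw [τ0]
              exact fun h => a1 (Or.inr (Or.inl h))
            · rw [τs]
              exact a2 j (by omega)
          · intro j hj
            rcases j with _ | j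
            · exact fun h => a1 (Or.inr (Or.inr h))
            · exact a3 j (by omega)
      · apply containsCopy_mono _ hc2
        intro x hx
        rcases hx with hx | hx
        · rcases hx with rfl | hx
          · exact Or.inr ⟨0, Nat.succ_pos _, rfl⟩
          · exact Or.inl hx
        · obtain ⟨j, hj, rfl⟩ := hx
          exact Or.inr ⟨j + 1, by omega, (τs j).symm⟩

/-- The game conclusion from a winning certificate. -/
theorem final_of_win {Z : Set Cell} (h : WinP ∅ Z 21) :
    ∃ σ : List (ℤ × ℤ) → ℤ × ℤ, ∀ b : ℕ → ℤ × ℤ,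
      (∀ k : ℕ, k < 20 →
        (∀ j : ℕ, j ≤ k → b k ≠ makerClaim σ b j) ∧
        (∀ j : ℕ, j < k → b k ≠ b j)) →
      (∀ k : ℕ, k ≤ 20 →
        (∀ j : ℕ, j < k → makerClaim σ b k ≠ makerClaim σ b j) ∧
        (∀ j : ℕ, j < k → makerClaim σ b k ≠ b j)) ∧
      ContainsCopy {c | ∃ j : ℕ, j ≤ 20 ∧ c = makerClaim σ b j} := by
  obtain ⟨τ, hτ⟩ := extract h ∅ Set.finite_empty (Set.empty_subset _) (fun x _ hx => absurd hx (Set.notMem_empty x))
  refine ⟨τ, fun b hb => ?_⟩
  obtain ⟨h1, h2⟩ := hτ b (fun i hi => by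
    obtain ⟨a1, a2⟩ := hb i (by omega)
    exact ⟨Set.notMem_empty _, a1, a2⟩)
  refine ⟨fun k hk => ?_, ?_⟩
  · obtain ⟨_, a2, a3⟩ := h1 k (by omega)
    exact ⟨a2, a3⟩
  · apply containsCopy_mono _ h2
    intro x hx
    rcases hx with hx | hx
    · exact absurd hx (Set.notMem_empty x)
    · obtain ⟨j, hj, rfl⟩ := hx
      exact ⟨j, by omega, rfl⟩

end Crest.Agent.H2Snaky
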