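import Crest.Agent.H2Snaky

set_option autoImplicit false

namespace Crest.Agent.H2Snaky

open Crest.CombinatoricsR.PolyominoGame

/-- Window cell of a bit index. -/
def cellOf (i : ℕ) : Cell := (((i % 31 : ℕ) : ℤ) - 15, ((i / 31 : ℕ) : ℤ) - 15)

theorem cellOf_inj {i j : ℕ} (h : cellOf i = cellOf j) : i = j := by
  have h1 := congrArg Prod.fst h
  have h2 := congrArg Prod.snd h
  simp only [cellOf] at h1 h2
  omega

/-- The cells of a bit mask. -/
def cells (m : ℕ) : Set Cell := {c | ∃ i, m.testBit i = true ∧ c = cellOf i}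

theorem mem_cells {m i : ℕ} : cellOf i ∈ cells m ↔ m.testBit i = true := by
  constructor
  · rintro ⟨j, hj, h⟩
    rw [cellOf_inj h]; exact hj
  · intro h; exact ⟨i, h, rfl⟩

theorem cells_zero : cells 0 = ∅ := by
  ext c; simp [cells]

/-- The eight placements of Snaky. -/
inductive Or8
  | a | b | c | d | e | f | g | h

/-- Bit patterns of the eight orientations (bit `x + 31 * y`). -/
noncomputable def pat (o : Or8) : ℕ :=
  Or8.rec
    51539607567
    32212254744
    6442450974
    64424509443
    42535295894827868880382638547124879361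
    21267647942462174285355641188548345858
    21267647962269214918533411603214237698
    42535295884924348570711282370654240769
    o

theorem cell_at (s a b : ℕ) (h : s % 31 + a ≤ 30) :
    cellOf (s + a + 31 * b) = (((s % 31 : ℕ) : ℤ) + a - 15, ((s / 31 : ℕ) : ℤ) + b - 15) := by
  have h1 : (s + a + 31 * b) % 31 = s % 31 + a := by omega
  have h2 : (s + a + 31 * b) / 31 = s / 31 + b := by omega
  simp only [cellOf, h1, h2]
  push_cast
  rfl

/-- The line with pattern `o` and anchor bit `s`. -/
noncomputable def lineMask (o : Or8) (s : ℕ) : ℕ := Nat.shiftLeft (pat o) s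

theorem lineMask_testBit (o : Or8) (s a b : ℕ) (h : (pat o).testBit (a + 31 * b) = true) :
    (lineMask o s).testBit (s + a + 31 * b) = true := by
  have : s + a + 31 * b = (a + 31 * b) + s := by omega
  rw [this, lineMask, Nat.shiftLeft_eq', Nat.testBit_shiftLeft]
  simp [h]

theorem mem_of {X : Set Cell} {o : Or8} {s : ℕ} (hs : s % 31 ≤ 26)
    (hX : ∀ i, (lineMask o s).testBit i = true → cellOf i ∈ X) (a b : ℕ) (ha : a ≤ 4)
    (hb : (pat o).testBit (a + 31 * b) = true) (x y : ℤ)
    (hx : x = ((s % 31 : ℕ) : ℤ) + a - 15) (hy : y = ((s / 31 : ℕ) : ℤ) + b - 15) : (x, y) ∈ X := by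
  have := hX _ (lineMask_testBit o s a b hb)
  rw [cell_at s a b (by omega)] at this
  rw [hx, hy]
  exact this

/-- A line inside `X` is a copy of Snaky. -/
theorem line_copy {X : Set Cell} (o : Or8) (s : ℕ) (hs : s % 31 ≤ 26)
    (hX : ∀ i, (lineMask o s).testBit i = true → cellOf i ∈ X) : ContainsCopy X := by
  set x0 : ℤ := ((s % 31 : ℕ) : ℤ) - 15 with hx0
  set y0 : ℤ := ((s / 31 : ℕ) : ℤ) - 15 with hy0
  have M := fun a b ha hb x y hx hy => @mem_of X o s hs hX a b ha hb x y hx hy
  cases o with
  | a =>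
    refine ⟨(x0, y0), 1, 1, Or.inl rfl, Or.inl rfl, Or.inl ?_⟩
    intro p hp
    simp only [snaky, Finset.mem_insert, Finset.mem_singleton] at hp
    rcases hp with rfl | rfl | rfl | rfl | rfl | rfl
    · exact M 0 0 (by omega) (by decide) _ _ (by simp [hx0]; try omega) (by simp [hy0]; try omega)
    · exact M 1 0 (by omega) (by decide) _ _ (by simp [hx0]; try omega) (by simp [hy0]; try omega)
    · exact M 2 0 (by omega) (by decide) _ _ (by simp [hx0]; try omega) (by simp [hy0]; try omega)
    · exact M 3 0 (by omega) (by decide) _ _ (by simp [hx0]; try omega) (by simp [hy0]; try omega)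
    · exact M 3 1 (by omega) (by decide) _ _ (by simp [hx0]; try omega) (by simp [hy0]; try omega)
    · exact M 4 1 (by omega) (by decide) _ _ (by simp [hx0]; try omega) (by simp [hy0]; try omega)
  | b =>
    refine ⟨(x0, y0 + 1), 1, -1, Or.inl rfl, Or.inr rfl, Or.inl ?_⟩
    intro p hp
    simp only [snaky, Finset.mem_insert, Finset.mem_singleton] at hp
    rcases hp with rfl | rfl | rfl | rfl | rfl | rfl
    · exact M 0 1 (by omega) (by decide) _ _ (by simp [hx0]; try omega) (by simp [hy0]; try omega)
    · exact M 1 1 (by omega) (by decide) _ _ (by simp [hx0]; try omega) (by simp [hy0]; try omega)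
    · exact M 2 1 (by omega) (by decide) _ _ (by simp [hx0]; try omega) (by simp [hy0]; try omega)
    · exact M 3 1 (by omega) (by decide) _ _ (by simp [hx0]; try omega) (by simp [hy0]; try omega)
    · exact M 3 0 (by omega) (by decide) _ _ (by simp [hx0]; try omega) (by simp [hy0]; try omega)
    · exact M 4 0 (by omega) (by decide) _ _ (by simp [hx0]; try omega) (by simp [hy0]; try omega)
  | c =>
    refine ⟨(x0 + 4, y0), -1, 1, Or.inr rfl, Or.inl rfl, Or.inl ?_⟩
    intro p hp
    simp only [snaky, Finset.mem_insert, Finset.mem_singleton] at hp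
    rcases hp with rfl | rfl | rfl | rfl | rfl | rfl
    · exact M 4 0 (by omega) (by decide) _ _ (by simp [hx0]; try omega) (by simp [hy0]; try omega)
    · exact M 3 0 (by omega) (by decide) _ _ (by simp [hx0]; try omega) (by simp [hy0]; try omega)
    · exact M 2 0 (by omega) (by decide) _ _ (by simp [hx0]; try omega) (by simp [hy0]; try omega)
    · exact M 1 0 (by omega) (by decide) _ _ (by simp [hx0]; try omega) (by simp [hy0]; try omega)
    · exact M 1 1 (by omega) (by decide) _ _ (by simp [hx0]; try omega) (by simp [hy0]; try omega)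
    · exact M 0 1 (by omega) (by decide) _ _ (by simp [hx0]; try omega) (by simp [hy0]; try omega)
  | d =>
    refine ⟨(x0 + 4, y0 + 1), -1, -1, Or.inr rfl, Or.inr rfl, Or.inl ?_⟩
    intro p hp
    simp only [snaky, Finset.mem_insert, Finset.mem_singleton] at hp
    rcases hp with rfl | rfl | rfl | rfl | rfl | rfl
    · exact M 4 1 (by omega) (by decide) _ _ (by simp [hx0]; try omega) (by simp [hy0]; try omega)
    · exact M 3 1 (by omega) (by decide) _ _ (by simp [hx0]; try omega) (by simp [hy0]; try omega)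
    · exact M 2 1 (by omega) (by decide) _ _ (by simp [hx0]; try omega) (by simp [hy0]; try omega)
    · exact M 1 1 (by omega) (by decide) _ _ (by simp [hx0]; try omega) (by simp [hy0]; try omega)
    · exact M 1 0 (by omega) (by decide) _ _ (by simp [hx0]; try omega) (by simp [hy0]; try omega)
    · exact M 0 0 (by omega) (by decide) _ _ (by simp [hx0]; try omega) (by simp [hy0]; try omega)
  | e =>
    refine ⟨(x0, y0), 1, 1, Or.inl rfl, Or.inl rfl, Or.inr ?_⟩
    intro p hp
    simp only [snaky, Finset.mem_insert, Finset.mem_singleton] at hp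
    rcases hp with rfl | rfl | rfl | rfl | rfl | rfl
    · exact M 0 0 (by omega) (by decide) _ _ (by simp [hx0]; try omega) (by simp [hy0]; try omega)
    · exact M 0 1 (by omega) (by decide) _ _ (by simp [hx0]; try omega) (by simp [hy0]; try omega)
    · exact M 0 2 (by omega) (by decide) _ _ (by simp [hx0]; try omega) (by simp [hy0]; try omega)
    · exact M 0 3 (by omega) (by decide) _ _ (by simp [hx0]; try omega) (by simp [hy0]; try omega)
    · exact M 1 3 (by omega) (by decide) _ _ (by simp [hx0]; try omega) (by simp [hy0]; try omega)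
    · exact M 1 4 (by omega) (by decide) _ _ (by simp [hx0]; try omega) (by simp [hy0]; try omega)
  | f =>
    refine ⟨(x0, y0 + 4), 1, -1, Or.inl rfl, Or.inr rfl, Or.inr ?_⟩
    intro p hp
    simp only [snaky, Finset.mem_insert, Finset.mem_singleton] at hp
    rcases hp with rfl | rfl | rfl | rfl | rfl | rfl
    · exact M 0 4 (by omega) (by decide) _ _ (by simp [hx0]; try omega) (by simp [hy0]; try omega)
    · exact M 0 3 (by omega) (by decide) _ _ (by simp [hx0]; try omega) (by simp [hy0]; try omega)
    · exact M 0 2 (by omega) (by decide) _ _ (by simp [hx0]; try omega) (by simp [hy0]; try omega)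
    · exact M 0 1 (by omega) (by decide) _ _ (by simp [hx0]; try omega) (by simp [hy0]; try omega)
    · exact M 1 1 (by omega) (by decide) _ _ (by simp [hx0]; try omega) (by simp [hy0]; try omega)
    · exact M 1 0 (by omega) (by decide) _ _ (by simp [hx0]; try omega) (by simp [hy0]; try omega)
  | g =>
    refine ⟨(x0 + 1, y0), -1, 1, Or.inr rfl, Or.inl rfl, Or.inr ?_⟩
    intro p hp
    simp only [snaky, Finset.mem_insert, Finset.mem_singleton] at hp
    rcases hp with rfl | rfl | rfl | rfl | rfl | rfl
    · exact M 1 0 (by omega) (by decide) _ _ (by simp [hx0]; try omega) (by simp [hy0]; try omega)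
    · exact M 1 1 (by omega) (by decide) _ _ (by simp [hx0]; try omega) (by simp [hy0]; try omega)
    · exact M 1 2 (by omega) (by decide) _ _ (by simp [hx0]; try omega) (by simp [hy0]; try omega)
    · exact M 1 3 (by omega) (by decide) _ _ (by simp [hx0]; try omega) (by simp [hy0]; try omega)
    · exact M 0 3 (by omega) (by decide) _ _ (by simp [hx0]; try omega) (by simp [hy0]; try omega)
    · exact M 0 4 (by omega) (by decide) _ _ (by simp [hx0]; try omega) (by simp [hy0]; try omega)
  | h =>
    refine ⟨(x0 + 1, y0 + 4), -1, -1, Or.inr rfl, Or.inr rfl, Or.inr ?_⟩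
    intro p hp
    simp only [snaky, Finset.mem_insert, Finset.mem_singleton] at hp
    rcases hp with rfl | rfl | rfl | rfl | rfl | rfl
    · exact M 1 4 (by omega) (by decide) _ _ (by simp [hx0]; try omega) (by simp [hy0]; try omega)
    · exact M 1 3 (by omega) (by decide) _ _ (by simp [hx0]; try omega) (by simp [hy0]; try omega)
    · exact M 1 2 (by omega) (by decide) _ _ (by simp [hx0]; try omega) (by simp [hy0]; try omega)
    · exact M 1 1 (by omega) (by decide) _ _ (by simp [hx0]; try omega) (by simp [hy0]; try omega)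
    · exact M 0 1 (by omega) (by decide) _ _ (by simp [hx0]; try omega) (by simp [hy0]; try omega)
    · exact M 0 0 (by omega) (by decide) _ _ (by simp [hx0]; try omega) (by simp [hy0]; try omega)

/-! ### The reflective checker -/

/-- Certificates. -/
inductive Pf
  /-- Maker claims `t`, which completes the line `(o, s)`. -/
  | W (t s : ℕ) (o : Or8)
  /-- Maker claims `d`; the line `(o, s)` then threatens `t`; Breaker's forced reply is `t`. -/
  | T (d t s : ℕ) (o : Or8) (next : Pf)
  /-- Maker claims `c`, answers are given by `alts`. -/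
  | O (c : ℕ) (alts : Pf)
  /-- Alternatives: reply `r` is answered by `p`; other replies by `p` or by `rest`. -/
  | A (r : ℕ) (p rest : Pf)
  /-- Alternatives without a named reply. -/
  | F (p rest : Pf)

/-- Bit mask of one cell. -/
@[reducible] def bit (t : ℕ) : ℕ := Nat.shiftLeft 1 t

abbrev Tri := Option (ℕ × ℕ × ℕ)

/-- Bind on triples. -/
@[reducible] def bindT (x : Tri) (f : ℕ → ℕ → ℕ → Tri) : Tri :=
  Option.casesOn (motive := fun _ => Tri) x none
    (fun x => Prod.casesOn (motive := fun _ => Tri) x fun I y =>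
      Prod.casesOn (motive := fun _ => Tri) y fun U E => f I U E)

/-- The check. `I`: intersection of zones, `U`: union of zones, `E`: explicit replies. -/
noncomputable def chk (p : Pf) : ℕ → ℕ → Tri :=
  Pf.rec
    (fun t s o M k =>
      bif Nat.ble 1 k && Nat.ble (Nat.mod s 31) 26 &&
          Nat.beq (Nat.land (lineMask o s) M) (Nat.xor (lineMask o s) (bit t))
      then some (bit t, bit t, 0) else none)
    (fun d t s o _ ih M k =>
      bif Nat.ble 2 k && Nat.ble (Nat.mod s 31) 26 && Nat.beq (Nat.land M (bit d)) 0 &&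
          Nat.beq (Nat.land (lineMask o s) (Nat.lor M (bit d))) (Nat.xor (lineMask o s) (bit t))
      then
        bindT (ih (Nat.lor M (bit d)) (Nat.sub k 1)) fun I U _ =>
          bif Nat.beq (Nat.land I (bit t)) 0
          then some (Nat.lor U (Nat.lor (bit d) (bit t)), Nat.lor U (Nat.lor (bit d) (bit t)), 0)
          else none
      else none)
    (fun c _ ih M k =>
      bif Nat.ble 1 k && Nat.beq (Nat.land M (bit c)) 0 then
        bindT (ih (Nat.lor M (bit c)) (Nat.sub k 1)) fun I U E =>
          bif Nat.beq (Nat.land I E) I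
          then some (Nat.lor U (bit c), Nat.lor U (bit c), 0)
          else none
      else none)
    (fun r _ _ ih1 ih2 M k =>
      bindT (ih1 M k) fun I1 U1 E1 =>
        bif Nat.beq (Nat.land I1 (bit r)) 0 then
          bindT (ih2 M k) fun I2 U2 E2 =>
            some (Nat.land I1 I2, Nat.lor U1 U2, Nat.lor (Nat.lor E1 E2) (bit r))
        else none)
    (fun _ _ ih1 ih2 M k =>
      bindT (ih1 M k) fun I1 U1 E1 =>
        bindT (ih2 M k) fun I2 U2 E2 =>
          some (Nat.land I1 I2, Nat.lor U1 U2, Nat.lor E1 E2))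
    p

/-- Meaning of a check result. -/
def Sem (M k I U E : ℕ) : Prop :=
  ∀ r : Cell, (r ∈ cells E ∨ r ∉ cells I) → ∃ Z' : Set Cell, Z' ⊆ cells U ∧ r ∉ Z' ∧ WinP (cells M) Z' k

theorem bit_testBit (t i : ℕ) : (bit t).testBit i = decide (t = i) := by
  simp only [bit, Nat.shiftLeft_eq', Nat.one_shiftLeft, Nat.testBit_two_pow]

theorem cells_lor (a b : ℕ) : cells (Nat.lor a b) = cells a ∪ cells b := by
  ext c
  constructor
  · rintro ⟨i, hi, rfl⟩
    have : (a ||| b).testBit i = true := hi
    rw [Nat.testBit_or] at this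
    rcases (Bool.or_eq_true _ _).mp this with h | h
    · exact Or.inl (mem_cells.2 h)
    · exact Or.inr (mem_cells.2 h)
  · rintro (⟨i, hi, rfl⟩ | ⟨i, hi, rfl⟩)
    · refine ⟨i, ?_, rfl⟩
      show (a ||| b).testBit i = true
      rw [Nat.testBit_or, hi]; rfl
    · refine ⟨i, ?_, rfl⟩
      show (a ||| b).testBit i = true
      rw [Nat.testBit_or, hi]; simp

theorem cells_land (a b : ℕ) : cells (Nat.land a b) = cells a ∩ cells b := by
  ext c
  constructor
  · rintro ⟨i, hi, rfl⟩
    have : (a &&& b).testBit i = true := hi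
    rw [Nat.testBit_and] at this
    obtain ⟨h1, h2⟩ := (Bool.and_eq_true _ _).mp this
    exact ⟨mem_cells.2 h1, mem_cells.2 h2⟩
  · rintro ⟨⟨i, hi, rfl⟩, h2⟩
    refine ⟨i, ?_, rfl⟩
    show (a &&& b).testBit i = true
    rw [Nat.testBit_and, hi, mem_cells.1 h2]; rfl

theorem cells_bit (t : ℕ) : cells (bit t) = {cellOf t} := by
  ext c
  constructor
  · rintro ⟨i, hi, rfl⟩
    rw [bit_testBit] at hi
    have := of_decide_eq_true hi
    subst this; rfl
  · intro h
    have : c = cellOf t := h
    subst this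
    exact mem_cells.2 (by rw [bit_testBit]; simp)

theorem cells_lor_bit (M t : ℕ) : cells (Nat.lor M (bit t)) = insert (cellOf t) (cells M) := by
  rw [cells_lor, cells_bit, Set.union_singleton]

theorem beq_land_zero {a b : ℕ} (h : Nat.beq (Nat.land a (bit b)) 0 = true) : a.testBit b = false := by
  have h1 : Nat.land a (bit b) = 0 := Nat.eq_of_beq_eq_true h
  have h2 : (a &&& bit b).testBit b = false := by
    show (Nat.land a (bit b)).testBit b = false
    rw [h1]; simp
  rw [Nat.testBit_and, bit_testBit] at h2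
  simpa using h2

theorem not_mem_of_beq {a b : ℕ} (h : Nat.beq (Nat.land a (bit b)) 0 = true) : cellOf b ∉ cells a := by
  intro hm
  have := mem_cells.1 hm
  rw [beq_land_zero h] at this
  exact absurd this (by simp)

/-- Arithmetic content of the line test. -/
theorem line_test {L M t : ℕ} (h : Nat.beq (Nat.land L M) (Nat.xor L (bit t)) = true) :
    M.testBit t = false ∧ ∀ i, L.testBit i = true → i = t ∨ M.testBit i = true := by
  have h1 : Nat.land L M = Nat.xor L (bit t) := Nat.eq_of_beq_eq_true h
  have h2 : ∀ i, (L &&& M).testBit i = (L ^^^ bit t).testBit i := fun i => by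
    show (Nat.land L M).testBit i = (Nat.xor L (bit t)).testBit i
    rw [h1]
  constructor
  · have := h2 t
    rw [Nat.testBit_and, Nat.testBit_xor, bit_testBit] at this
    cases h3 : L.testBit t <;> cases h4 : M.testBit t <;> simp_all
  · intro i hi
    by_cases hit : i = t
    · exact Or.inl hit
    · right
      have := h2 i
      rw [Nat.testBit_and, Nat.testBit_xor, bit_testBit, hi] at this
      have ht : decide (t = i) = false := by
        simp only [decide_eq_false_iff_not]; exact fun h => hit h.symm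
      rw [ht] at this
      simpa using this

theorem sem_of_win {M k U : ℕ} {Z : Set Cell} (hZ : Z = cells U) (h : WinP (cells M) Z k) : Sem M k U U 0 := by
  intro r hr
  refine ⟨Z, hZ.le, ?_, h⟩
  rcases hr with hr | hr
  · rw [cells_zero] at hr; exact absurd hr (Set.notMem_empty r)
  · rw [hZ]; exact hr

theorem win_sound {t s k M : ℕ} {o : Or8}
    (hk : Nat.ble 1 k = true) (hs : Nat.ble (Nat.mod s 31) 26 = true)
    (h : Nat.beq (Nat.land (lineMask o s) M) (Nat.xor (lineMask o s) (bit t)) = true) :
    WinP (cells M) (cells (bit t)) k := by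
  obtain ⟨k', rfl⟩ : ∃ k', k = k' + 1 := ⟨k - 1, by have := Nat.le_of_ble_eq_true hk; omega⟩
  obtain ⟨h1, h2⟩ := line_test h
  refine WinP.step (cellOf t) (fun _ => ∅) (by rw [cells_bit]; rfl) ?_ (fun _ _ _ => ⟨Set.empty_subset _, Set.notMem_empty _⟩) ?_
  · rw [mem_cells, h1]; simp
  · intro r _ _
    refine WinP.done (line_copy o s (Nat.le_of_ble_eq_true hs) ?_)
    intro i hi
    rcases h2 i hi with rfl | h3
    · exact Or.inl rfl
    · exact Or.inr (mem_cells.2 h3)

theorem bif_some {b : Bool} {x : Tri} {v : ℕ × ℕ × ℕ} (h : (bif b then x else none) = some v) :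
    b = true ∧ x = some v := by
  cases b with
  | false => exact absurd h (by simp)
  | true => exact ⟨rfl, h⟩

theorem bind_some {x : Tri} {f : ℕ → ℕ → ℕ → Tri} {v : ℕ × ℕ × ℕ}
    (h : bindT x f = some v) :
    ∃ I U E, x = some (I, U, E) ∧ f I U E = some v := by
  rcases x with _ | ⟨I, U, E⟩
  · exact absurd h (by simp)
  · exact ⟨I, U, E, rfl, h⟩

theorem and3 {a b c : Bool} (h : (a && b && c) = true) : a = true ∧ b = true ∧ c = true := by
  simpa [and_assoc] using h

theorem and4 {a b c d : Bool} (h : (a && b && c && d) = true) :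
    a = true ∧ b = true ∧ c = true ∧ d = true := by
  simpa [and_assoc] using h

theorem and2 {a b : Bool} (h : (a && b) = true) : a = true ∧ b = true := by
  simpa using h

theorem chk_sound (p : Pf) : ∀ (M k I U E : ℕ), chk p M k = some (I, U, E) → Sem M k I U E := by
  induction p with
  | W t s o =>
    intro M k I U E h
    obtain ⟨hb, hx⟩ := bif_some h
    obtain ⟨h1, h2, h3⟩ := and3 hb
    obtain ⟨rfl, rfl, rfl⟩ : bit t = I ∧ bit t = U ∧ 0 = E := by simpa using hx
    exact sem_of_win rfl (win_sound h1 h2 h3)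
  | T d t s o next ih =>
    intro M k I U E h
    obtain ⟨hb, hx⟩ := bif_some h
    obtain ⟨h1, h2, h3, h4⟩ := and4 hb
    obtain ⟨I', U', E', hn, hf⟩ := bind_some hx
    obtain ⟨h5, h6⟩ := bif_some hf
    have hn' := ih _ _ _ _ _ hn
    obtain ⟨rfl, rfl, rfl⟩ : Nat.lor U' (Nat.lor (bit d) (bit t)) = I ∧
      Nat.lor U' (Nat.lor (bit d) (bit t)) = U ∧ 0 = E := by simpa using h6
    have hk2 := Nat.le_of_ble_eq_true h1
    obtain ⟨k', rfl⟩ : ∃ k', k = k' + 2 := ⟨k - 2, by omega⟩
    have hsub : Nat.sub (k' + 2) 1 = k' + 1 := by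
      show k' + 2 - 1 = k' + 1
      omega
    rw [hsub] at hn'
    obtain ⟨ht1, ht2⟩ := line_test h4
    have ht3 : cellOf t ∉ cells I' := not_mem_of_beq h5
    obtain ⟨Z1, hZ1, hZ2, hZ3⟩ := hn' (cellOf t) (Or.inr ht3)
    rw [cells_lor_bit] at hZ3
    -- the threat as a `WinP.step`
    have hwin : WinP (cells M) (cells (Nat.lor U' (Nat.lor (bit d) (bit t)))) (k' + 2) := by
      classical
      refine WinP.step (cellOf d) (fun r => if r = cellOf t then Z1 else {cellOf t}) ?_ (not_mem_of_beq h3) ?_ ?_
      · rw [cells_lor, cells_lor, cells_bit]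
        exact Or.inr (Or.inl rfl)
      · intro r _ _
        split_ifs with hrt
        · refine ⟨fun x hx => ?_, hrt ▸ hZ2⟩
          rw [cells_lor]
          exact Or.inl (hZ1 hx)
        · refine ⟨fun x hx => ?_, fun hx => hrt hx⟩
          rw [cells_lor, cells_lor, cells_bit, cells_bit]
          exact Or.inr (Or.inr hx)
      · intro r _ _
        split_ifs with hrt
        · exact hZ3
        · -- Maker completes the line at `t`
          have ht : cellOf t ∉ insert (cellOf d) (cells M) := by
            rw [← cells_lor_bit, mem_cells, ht1]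
            simp
          refine WinP.step (cellOf t) (fun _ => ∅) rfl ht (fun _ _ _ => ⟨Set.empty_subset _, Set.notMem_empty _⟩) ?_
          intro r' _ _
          refine WinP.done (line_copy o s (Nat.le_of_ble_eq_true h2) ?_)
          intro i hi
          rcases ht2 i hi with rfl | h3'
          · exact Or.inl rfl
          · exact Or.inr (by rw [← cells_lor_bit]; exact mem_cells.2 h3')
    exact sem_of_win rfl hwin
  | O c alts ih =>
    intro M k I U E h
    obtain ⟨hb, hx⟩ := bif_some h
    obtain ⟨h1, h2⟩ := and2 hb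
    obtain ⟨I', U', E', hn, hf⟩ := bind_some hx
    obtain ⟨h5, h6⟩ := bif_some hf
    have hn' := ih _ _ _ _ _ hn
    obtain ⟨rfl, rfl, rfl⟩ : Nat.lor U' (bit c) = I ∧ Nat.lor U' (bit c) = U ∧ 0 = E := by simpa using h6
    have hk1 := Nat.le_of_ble_eq_true h1
    obtain ⟨k', rfl⟩ : ∃ k', k = k' + 1 := ⟨k - 1, by omega⟩
    have hsub : Nat.sub (k' + 1) 1 = k' := by
      show k' + 1 - 1 = k'
      omega
    rw [hsub] at hn'
    unfold Sem at hn'
    simp only [cells_lor_bit] at hn'
    have hsubset : cells I' ⊆ cells E' := by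
      have h7 : Nat.land I' E' = I' := Nat.eq_of_beq_eq_true h5
      intro x hx
      have : x ∈ cells (Nat.land I' E') := by rw [h7]; exact hx
      rw [cells_land] at this
      exact this.2
    have hcov : ∀ r : Cell, ∃ Z' : Set Cell, Z' ⊆ cells U' ∧ r ∉ Z' ∧ WinP (insert (cellOf c) (cells M)) Z' k' := by
      intro r
      apply hn' r
      by_cases hr : r ∈ cells I'
      · exact Or.inl (hsubset hr)
      · exact Or.inr hr
    choose Zf hZf1 hZf2 hZf3 using hcov
    have hwin : WinP (cells M) (cells (Nat.lor U' (bit c))) (k' + 1) := by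
      refine WinP.step (cellOf c) Zf ?_ (not_mem_of_beq h2) ?_ ?_
      · rw [cells_lor, cells_bit]
        exact Or.inr rfl
      · intro r _ _
        refine ⟨fun x hx => ?_, hZf2 r⟩
        rw [cells_lor]
        exact Or.inl (hZf1 r hx)
      · intro r _ _
        exact hZf3 r
    exact sem_of_win rfl hwin
  | A r p rest ih1 ih2 =>
    intro M k I U E h
    have h' : bindT (chk p M k) (fun I1 U1 E1 =>
        bif Nat.beq (Nat.land I1 (bit r)) 0 then
          bindT (chk rest M k) fun I2 U2 E2 =>
            some (Nat.land I1 I2, Nat.lor U1 U2, Nat.lor (Nat.lor E1 E2) (bit r))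
        else none) = some (I, U, E) := h
    obtain ⟨I1, U1, E1, hp, hf⟩ := bind_some h'
    obtain ⟨h5, h6⟩ := bif_some hf
    obtain ⟨I2, U2, E2, hq, hg⟩ := bind_some h6
    obtain ⟨rfl, rfl, rfl⟩ : Nat.land I1 I2 = I ∧ Nat.lor U1 U2 = U ∧ Nat.lor (Nat.lor E1 E2) (bit r) = E := by
      simpa using hg
    have s1 := ih1 _ _ _ _ _ hp
    have s2 := ih2 _ _ _ _ _ hq
    intro x hx
    have hU1 : cells U1 ⊆ cells (Nat.lor U1 U2) := by rw [cells_lor]; exact Set.subset_union_left
    have hU2 : cells U2 ⊆ cells (Nat.lor U1 U2) := by rw [cells_lor]; exact Set.subset_union_right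
    have from1 : (x ∈ cells E1 ∨ x ∉ cells I1) → ∃ Z' : Set Cell, Z' ⊆ cells (Nat.lor U1 U2) ∧ x ∉ Z' ∧ WinP (cells M) Z' k := by
      intro h0
      obtain ⟨Z', h1, h2, h3⟩ := s1 x h0
      exact ⟨Z', h1.trans hU1, h2, h3⟩
    have from2 : (x ∈ cells E2 ∨ x ∉ cells I2) → ∃ Z' : Set Cell, Z' ⊆ cells (Nat.lor U1 U2) ∧ x ∉ Z' ∧ WinP (cells M) Z' k := by
      intro h0
      obtain ⟨Z', h1, h2, h3⟩ := s2 x h0
      exact ⟨Z', h1.trans hU2, h2, h3⟩
    rw [cells_lor, cells_lor, cells_bit, cells_land] at hx
    rcases hx with ((hx | hx) | hx) | hx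
    · exact from1 (Or.inl hx)
    · exact from2 (Or.inl hx)
    · have : x = cellOf r := hx
      subst this
      exact from1 (Or.inr (not_mem_of_beq h5))
    · by_cases hx1 : x ∈ cells I1
      · exact from2 (Or.inr fun hx2 => hx ⟨hx1, hx2⟩)
      · exact from1 (Or.inr hx1)
  | F p rest ih1 ih2 =>
    intro M k I U E h
    have h' : bindT (chk p M k) (fun I1 U1 E1 =>
        bindT (chk rest M k) fun I2 U2 E2 =>
          some (Nat.land I1 I2, Nat.lor U1 U2, Nat.lor E1 E2)) = some (I, U, E) := h
    obtain ⟨I1, U1, E1, hp, hf⟩ := bind_some h'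
    obtain ⟨I2, U2, E2, hq, hg⟩ := bind_some hf
    obtain ⟨rfl, rfl, rfl⟩ : Nat.land I1 I2 = I ∧ Nat.lor U1 U2 = U ∧ Nat.lor E1 E2 = E := by
      simpa using hg
    have s1 := ih1 _ _ _ _ _ hp
    have s2 := ih2 _ _ _ _ _ hq
    intro x hx
    have hU1 : cells U1 ⊆ cells (Nat.lor U1 U2) := by rw [cells_lor]; exact Set.subset_union_left
    have hU2 : cells U2 ⊆ cells (Nat.lor U1 U2) := by rw [cells_lor]; exact Set.subset_union_right
    have from1 : (x ∈ cells E1 ∨ x ∉ cells I1) → ∃ Z' : Set Cell, Z' ⊆ cells (Nat.lor U1 U2) ∧ x ∉ Z' ∧ WinP (cells M) Z' k := by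
      intro h0
      obtain ⟨Z', h1, h2, h3⟩ := s1 x h0
      exact ⟨Z', h1.trans hU1, h2, h3⟩
    have from2 : (x ∈ cells E2 ∨ x ∉ cells I2) → ∃ Z' : Set Cell, Z' ⊆ cells (Nat.lor U1 U2) ∧ x ∉ Z' ∧ WinP (cells M) Z' k := by
      intro h0
      obtain ⟨Z', h1, h2, h3⟩ := s2 x h0
      exact ⟨Z', h1.trans hU2, h2, h3⟩
    rw [cells_lor, cells_land] at hx
    rcases hx with (hx | hx) | hx
    · exact from1 (Or.inl hx)
    · exact from2 (Or.inl hx)
    · by_cases hx1 : x ∈ cells I1
      · exact from2 (Or.inr fun hx2 => hx ⟨hx1, hx2⟩)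
      · exact from1 (Or.inr hx1)

/-- From a successful check of a certificate at the empty board, the game conclusion. -/
theorem win_of_chk {p : Pf} {v : ℕ × ℕ × ℕ} (h : chk p 0 21 = some v) :
    ∃ Z : Set Cell, WinP ∅ Z 21 := by
  obtain ⟨I, U, E⟩ := v
  have hs := chk_sound p _ _ _ _ _ h
  have hr : ((0 : ℤ), (-100 : ℤ)) ∉ cells I := by
    rintro ⟨i, _, hi⟩
    have := congrArg Prod.snd hi
    simp only [cellOf] at this
    omega
  obtain ⟨Z', _, _, hZ⟩ := hs _ (Or.inr hr)
  rw [cells_zero] at hZ
  exact ⟨Z', hZ⟩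

theorem mono_zone {M Z Z' : Set Cell} {k : ℕ} (hZ : Z' ⊆ Z) (h : WinP M Z' k) : WinP M Z k := by
  cases h with
  | done hc => exact WinP.done hc
  | step c Zf hc hcM h1 h2 =>
    exact WinP.step c Zf (hZ hc) hcM (fun r a b => ⟨(h1 r a b).1.trans hZ, (h1 r a b).2⟩) h2

/-- A certificate at a position gives a win with the computed zone. -/
theorem win_of_eq {p : Pf} {M k z : ℕ} (h : chk p M k = some (z, z, 0)) : WinP (cells M) (cells z) k := by
  have hs := chk_sound p _ _ _ _ _ h
  have hr : ((0 : ℤ), (-100 : ℤ)) ∉ cells z := by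
    rintro ⟨i, _, hi⟩
    have := congrArg Prod.snd hi
    simp only [cellOf] at this
    omega
  obtain ⟨Z', h1, _, h3⟩ := hs _ (Or.inr hr)
  exact mono_zone h1 h3

/-- Boolean test of a certificate with its zone. -/
noncomputable def chkEq (p : Pf) (M k z : ℕ) : Bool :=
  Option.casesOn (motive := fun _ => Bool) (chk p M k) false fun x =>
    Prod.casesOn (motive := fun _ => Bool) x fun I y =>
      Prod.casesOn (motive := fun _ => Bool) y fun U E =>
        Nat.beq I z && Nat.beq U z && Nat.beq E 0

theorem win_of_chkEq {p : Pf} {M k z : ℕ} (h : chkEq p M k z = true) : WinP (cells M) (cells z) k := by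
  unfold chkEq at h
  cases hc : chk p M k with
  | none => rw [hc] at h; exact absurd h (by simp)
  | some v =>
    obtain ⟨I, U, E⟩ := v
    rw [hc] at h
    obtain ⟨h1, h2, h3⟩ := and3 h
    have e1 : I = z := Nat.eq_of_beq_eq_true h1
    have e2 : U = z := Nat.eq_of_beq_eq_true h2
    have e3 : E = 0 := Nat.eq_of_beq_eq_true h3
    subst e1 e2 e3
    exact win_of_eq hc

/-- Boolean form for `decide`. -/
noncomputable def okB (p : Pf) : Bool :=
  Option.casesOn (motive := fun _ => Bool) (chk p 0 21) false fun _ => true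

theorem win_of_ok {p : Pf} (h : okB p = true) : ∃ Z : Set Cell, WinP ∅ Z 21 := by
  cases hc : chk p 0 21 with
  | none =>
    rw [okB, hc] at h
    exact absurd h (by simp)
  | some v => exact win_of_chk hc

end Crest.Agent.H2Snaky
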