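import Crest.Agent.H2SnakyChk

set_option autoImplicit false

namespace Crest.Agent.H2Snaky

open Crest.CombinatoricsR.PolyominoGame

/-- Signed coordinate maps. -/
def sgn1 (s e1 e2 : Bool) (c : Cell) : Cell :=
  let a : ℤ := if e1 then -c.1 else c.1
  let b : ℤ := if e2 then -c.2 else c.2
  if s then (b, a) else (a, b)

def sgn1Inv (s e1 e2 : Bool) (c : Cell) : Cell :=
  let c' : Cell := if s then (c.2, c.1) else c
  ((if e1 then -c'.1 else c'.1), (if e2 then -c'.2 else c'.2))

theorem sgn1_left (s e1 e2 : Bool) (c : Cell) : sgn1Inv s e1 e2 (sgn1 s e1 e2 c) = c := by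
  obtain ⟨x, y⟩ := c
  cases s <;> cases e1 <;> cases e2 <;> simp [sgn1, sgn1Inv]

theorem sgn1_right (s e1 e2 : Bool) (c : Cell) : sgn1 s e1 e2 (sgn1Inv s e1 e2 c) = c := by
  obtain ⟨x, y⟩ := c
  cases s <;> cases e1 <;> cases e2 <;> simp [sgn1, sgn1Inv]

theorem sgn1_inj (s e1 e2 : Bool) : Function.Injective (sgn1 s e1 e2) :=
  Function.LeftInverse.injective (sgn1_left s e1 e2)

/-- Copies are preserved. -/
theorem copy_sgn1 (s e1 e2 : Bool) {X : Set Cell} (h : ContainsCopy X) :
    ContainsCopy (sgn1 s e1 e2 '' X) := by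
  obtain ⟨t, a, b, ha, hb, h3⟩ := h
  have hs : ∀ (e : Bool) (u : ℤ), (u = 1 ∨ u = -1) → ((if e then -u else u) = 1 ∨ (if e then -u else u) = -1) := by
    intro e u hu
    cases e <;> rcases hu with rfl | rfl <;> simp
  cases s with
  | false =>
    refine ⟨sgn1 false e1 e2 t, (if e1 then -a else a), (if e2 then -b else b), hs e1 a ha, hs e2 b hb, ?_⟩
    rcases h3 with h3 | h3
    · refine Or.inl fun p hp => ⟨_, h3 p hp, ?_⟩
      cases e1 <;> cases e2 <;> simp [sgn1] <;> ring_nf <;> simp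
    · refine Or.inr fun p hp => ⟨_, h3 p hp, ?_⟩
      cases e1 <;> cases e2 <;> simp [sgn1] <;> ring_nf <;> simp
  | true =>
    refine ⟨sgn1 true e1 e2 t, (if e2 then -b else b), (if e1 then -a else a), hs e2 b hb, hs e1 a ha, ?_⟩
    rcases h3 with h3 | h3
    · refine Or.inr fun p hp => ⟨_, h3 p hp, ?_⟩
      cases e1 <;> cases e2 <;> simp [sgn1] <;> ring_nf <;> simp
    · refine Or.inl fun p hp => ⟨_, h3 p hp, ?_⟩
      cases e1 <;> cases e2 <;> simp [sgn1] <;> ring_nf <;> simp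

/-- Symmetry of winning certificates. -/
theorem win_sgn1 (s e1 e2 : Bool) {M Z : Set Cell} {k : ℕ} (h : WinP M Z k) :
    WinP (sgn1 s e1 e2 '' M) (sgn1 s e1 e2 '' Z) k := by
  induction h with
  | done hc => exact WinP.done (copy_sgn1 s e1 e2 hc)
  | @step M Z k c Z' hcZ hcM hZ' hw ih =>
    have hinj := sgn1_inj s e1 e2
    refine WinP.step (sgn1 s e1 e2 c) (fun r => sgn1 s e1 e2 '' Z' (sgn1Inv s e1 e2 r))
      (Set.mem_image_of_mem _ hcZ) ?_ ?_ ?_
    · rintro ⟨x, hx, he⟩
      rw [hinj he] at hx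
      exact hcM hx
    · intro r hr1 hr2
      have hr1' : sgn1Inv s e1 e2 r ≠ c := by
        intro h
        apply hr1
        rw [← h, sgn1_right]
      have hr2' : sgn1Inv s e1 e2 r ∉ M := by
        intro h
        apply hr2
        exact ⟨_, h, sgn1_right s e1 e2 r⟩
      obtain ⟨h1, h2⟩ := hZ' _ hr1' hr2'
      refine ⟨Set.image_mono h1, ?_⟩
      rintro ⟨x, hx, he⟩
      have : x = sgn1Inv s e1 e2 r := by rw [← he, sgn1_left]
      rw [this] at hx
      exact h2 hx
    · intro r hr1 hr2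
      have hr1' : sgn1Inv s e1 e2 r ≠ c := by
        intro h
        apply hr1
        rw [← h, sgn1_right]
      have hr2' : sgn1Inv s e1 e2 r ∉ M := by
        intro h
        apply hr2
        exact ⟨_, h, sgn1_right s e1 e2 r⟩
      have := ih _ hr1' hr2'
      rwa [Set.image_insert_eq] at this

end Crest.Agent.H2Snaky
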