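import Mathlib

/-! Rational codes with primitive recursive arithmetic and the computability of the conversions
between `ℚ` (with Mathlib's `Primcodable` structure coming from `Denumerable ℚ`) and codes. -/

set_option autoImplicit false

namespace Crest.Agent.H4Comp

open Nat Encodable Denumerable

/-- A rational code: `(p, q, d)` stands for `(p - q) / (d + 1)`. -/
abbrev RC : Type := ℕ × ℕ × ℕ

namespace RC

/-- The rational value of a code. -/
def val (c : RC) : ℚ := ((c.1 : ℚ) - (c.2.1 : ℚ)) / ((c.2.2 : ℚ) + 1)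

/-- The real value of a code. -/
noncomputable def rv (c : RC) : ℝ := ((val c : ℚ) : ℝ)

lemma den_ne (c : RC) : ((c.2.2 : ℚ) + 1) ≠ 0 := by positivity

def add (c c' : RC) : RC :=
  (c.1 * (c'.2.2 + 1) + c'.1 * (c.2.2 + 1), c.2.1 * (c'.2.2 + 1) + c'.2.1 * (c.2.2 + 1),
    c.2.2 * c'.2.2 + c.2.2 + c'.2.2)

def mul (c c' : RC) : RC :=
  (c.1 * c'.1 + c.2.1 * c'.2.1, c.1 * c'.2.1 + c.2.1 * c'.1, c.2.2 * c'.2.2 + c.2.2 + c'.2.2)

def neg (c : RC) : RC := (c.2.1, c.1, c.2.2)

/-- The natural number `n` as a code. -/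
def nat (n : ℕ) : RC := (n, 0, 0)

/-- order on codes -/
def le (c c' : RC) : Prop :=
  c.1 * (c'.2.2 + 1) + c'.2.1 * (c.2.2 + 1) ≤ c'.1 * (c.2.2 + 1) + c.2.1 * (c'.2.2 + 1)

instance (c c' : RC) : Decidable (le c c') := by unfold le; infer_instance

/-- equality of values on codes -/
def eqv (c c' : RC) : Prop :=
  c.1 * (c'.2.2 + 1) + c'.2.1 * (c.2.2 + 1) = c'.1 * (c.2.2 + 1) + c.2.1 * (c'.2.2 + 1)

instance (c c' : RC) : Decidable (eqv c c') := by unfold eqv; infer_instance

def inv (c : RC) : RC :=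
  if c.2.1 < c.1 then (c.2.2 + 1, 0, c.1 - c.2.1 - 1)
  else if c.1 < c.2.1 then (0, c.2.2 + 1, c.2.1 - c.1 - 1)
  else (0, 0, 0)

def pow (c : RC) (k : ℕ) : RC := Nat.rec (1, 0, 0) (fun _ IH => mul IH c) k

@[simp] lemma val_add (c c' : RC) : val (add c c') = val c + val c' := by
  have h1 := den_ne c
  have h2 := den_ne c'
  have h3 : ((c.2.2 * c'.2.2 + c.2.2 + c'.2.2 : ℕ) : ℚ) + 1 ≠ 0 := by positivity
  simp only [val, add]
  push_cast at h3 ⊢
  field_simp
  ring

@[simp] lemma val_mul (c c' : RC) : val (mul c c') = val c * val c' := by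
  have h1 := den_ne c
  have h2 := den_ne c'
  have h3 : ((c.2.2 * c'.2.2 + c.2.2 + c'.2.2 : ℕ) : ℚ) + 1 ≠ 0 := by positivity
  simp only [val, mul]
  push_cast at h3 ⊢
  field_simp
  ring

@[simp] lemma val_neg (c : RC) : val (neg c) = - val c := by
  simp only [val, neg]; ring

@[simp] lemma val_nat (n : ℕ) : val (nat n) = n := by
  simp [val, nat]

@[simp] lemma val_one : val ((1, 0, 0) : RC) = 1 := by
  simp [val]

@[simp] lemma val_zero : val ((0, 0, 0) : RC) = 0 := by
  simp [val]

lemma le_iff (c c' : RC) : le c c' ↔ val c ≤ val c' := by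
  have h1 : (0 : ℚ) < (c.2.2 : ℚ) + 1 := by positivity
  have h2 : (0 : ℚ) < (c'.2.2 : ℚ) + 1 := by positivity
  simp only [le, val]
  rw [div_le_div_iff₀ h1 h2]
  constructor
  · intro h
    have h' : ((c.1 * (c'.2.2 + 1) + c'.2.1 * (c.2.2 + 1) : ℕ) : ℚ) ≤
      ((c'.1 * (c.2.2 + 1) + c.2.1 * (c'.2.2 + 1) : ℕ) : ℚ) := by exact_mod_cast h
    push_cast at h'
    linarith
  · intro h
    have h' : ((c.1 * (c'.2.2 + 1) + c'.2.1 * (c.2.2 + 1) : ℕ) : ℚ) ≤
      ((c'.1 * (c.2.2 + 1) + c.2.1 * (c'.2.2 + 1) : ℕ) : ℚ) := by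
      push_cast
      linarith
    exact_mod_cast h'

lemma eqv_iff (c c' : RC) : eqv c c' ↔ val c = val c' := by
  have h1 : (c.2.2 : ℚ) + 1 ≠ 0 := by positivity
  have h2 : (c'.2.2 : ℚ) + 1 ≠ 0 := by positivity
  simp only [eqv, val]
  rw [div_eq_div_iff h1 h2]
  constructor
  · intro h
    have h' : ((c.1 * (c'.2.2 + 1) + c'.2.1 * (c.2.2 + 1) : ℕ) : ℚ) =
      ((c'.1 * (c.2.2 + 1) + c.2.1 * (c'.2.2 + 1) : ℕ) : ℚ) := by exact_mod_cast h
    push_cast at h'
    linarith
  · intro h
    have h' : ((c.1 * (c'.2.2 + 1) + c'.2.1 * (c.2.2 + 1) : ℕ) : ℚ) =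
      ((c'.1 * (c.2.2 + 1) + c.2.1 * (c'.2.2 + 1) : ℕ) : ℚ) := by
      push_cast
      linarith
    exact_mod_cast h'

@[simp] lemma val_inv (c : RC) : val (inv c) = (val c)⁻¹ := by
  have h1 : (c.2.2 : ℚ) + 1 ≠ 0 := by positivity
  unfold inv
  split_ifs with h h'
  · have h2 : (((c.1 - c.2.1 - 1 : ℕ) : ℚ) + 1) = (c.1 : ℚ) - c.2.1 := by
      have : c.1 - c.2.1 - 1 + 1 = c.1 - c.2.1 := by omega
      have h3 : ((c.1 - c.2.1 - 1 + 1 : ℕ) : ℚ) = ((c.1 - c.2.1 : ℕ) : ℚ) := by rw [this]
      push_cast at h3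
      rw [h3, Nat.cast_sub h.le]
    simp only [val]
    rw [h2, inv_div]
    simp
  · have h2 : (((c.2.1 - c.1 - 1 : ℕ) : ℚ) + 1) = (c.2.1 : ℚ) - c.1 := by
      have : c.2.1 - c.1 - 1 + 1 = c.2.1 - c.1 := by omega
      have h3 : ((c.2.1 - c.1 - 1 + 1 : ℕ) : ℚ) = ((c.2.1 - c.1 : ℕ) : ℚ) := by rw [this]
      push_cast at h3
      rw [h3, Nat.cast_sub h'.le]
    simp only [val]
    rw [h2, inv_div]
    have h4 : ((c.2.1 : ℚ) - c.1) ≠ 0 := by
      have : (c.1 : ℚ) < c.2.1 := by exact_mod_cast h'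
      linarith
    have h5 : ((c.1 : ℚ) - c.2.1) ≠ 0 := by
      have : (c.1 : ℚ) < c.2.1 := by exact_mod_cast h'
      linarith
    field_simp
    push_cast
    ring
  · have : c.1 = c.2.1 := by omega
    simp [val, this]

@[simp] lemma val_pow (c : RC) (k : ℕ) : val (pow c k) = val c ^ k := by
  induction k with
  | zero => simp [pow]
  | succ k ih =>
    have : pow c (k + 1) = mul (pow c k) c := rfl
    rw [this, val_mul, ih, pow_succ]

lemma abs_val_le (c : RC) : |val c| ≤ ((c.1 + c.2.1 : ℕ) : ℚ) := by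
  have h1 : (1 : ℚ) ≤ (c.2.2 : ℚ) + 1 := by
    have : (0 : ℚ) ≤ (c.2.2 : ℚ) := by positivity
    linarith
  simp only [val]
  rw [abs_div, abs_of_pos (show (0 : ℚ) < (c.2.2 : ℚ) + 1 by linarith)]
  calc |(c.1 : ℚ) - c.2.1| / ((c.2.2 : ℚ) + 1) ≤ |(c.1 : ℚ) - c.2.1| :=
        div_le_self (abs_nonneg _) h1
    _ ≤ ((c.1 + c.2.1 : ℕ) : ℚ) := by
        push_cast
        rw [abs_le]
        have h2 : (0 : ℚ) ≤ (c.1 : ℚ) := by positivity
        have h3 : (0 : ℚ) ≤ (c.2.1 : ℚ) := by positivity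
        constructor <;> linarith

/-! ### primitive recursiveness -/

section prim
variable {α : Type*} [Primcodable α]

lemma p1 : Primrec (fun c : RC => c.1) := Primrec.fst
lemma p2 : Primrec (fun c : RC => c.2.1) := Primrec.fst.comp Primrec.snd
lemma p3 : Primrec (fun c : RC => c.2.2) := Primrec.snd.comp Primrec.snd

lemma primrec_add : Primrec₂ add := by
  refine Primrec₂.mk ?_ 
  have a1 : Primrec (fun c : RC × RC => c.1.1) := p1.comp Primrec.fst
  have a2 : Primrec (fun c : RC × RC => c.1.2.1) := p2.comp Primrec.fst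
  have a3 : Primrec (fun c : RC × RC => c.1.2.2) := p3.comp Primrec.fst
  have b1 : Primrec (fun c : RC × RC => c.2.1) := p1.comp Primrec.snd
  have b2 : Primrec (fun c : RC × RC => c.2.2.1) := p2.comp Primrec.snd
  have b3 : Primrec (fun c : RC × RC => c.2.2.2) := p3.comp Primrec.snd
  have a3' := Primrec.nat_add.comp a3 (Primrec.const 1)
  have b3' := Primrec.nat_add.comp b3 (Primrec.const 1)
  exact Primrec.pair
    (Primrec.nat_add.comp (Primrec.nat_mul.comp a1 b3') (Primrec.nat_mul.comp b1 a3'))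
    (Primrec.pair
      (Primrec.nat_add.comp (Primrec.nat_mul.comp a2 b3') (Primrec.nat_mul.comp b2 a3'))
      (Primrec.nat_add.comp (Primrec.nat_add.comp (Primrec.nat_mul.comp a3 b3) a3) b3))

lemma primrec_mul : Primrec₂ mul := by
  refine Primrec₂.mk ?_
  have a1 : Primrec (fun c : RC × RC => c.1.1) := p1.comp Primrec.fst
  have a2 : Primrec (fun c : RC × RC => c.1.2.1) := p2.comp Primrec.fst
  have a3 : Primrec (fun c : RC × RC => c.1.2.2) := p3.comp Primrec.fst
  have b1 : Primrec (fun c : RC × RC => c.2.1) := p1.comp Primrec.snd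
  have b2 : Primrec (fun c : RC × RC => c.2.2.1) := p2.comp Primrec.snd
  have b3 : Primrec (fun c : RC × RC => c.2.2.2) := p3.comp Primrec.snd
  exact Primrec.pair
    (Primrec.nat_add.comp (Primrec.nat_mul.comp a1 b1) (Primrec.nat_mul.comp a2 b2))
    (Primrec.pair
      (Primrec.nat_add.comp (Primrec.nat_mul.comp a1 b2) (Primrec.nat_mul.comp a2 b1))
      (Primrec.nat_add.comp (Primrec.nat_add.comp (Primrec.nat_mul.comp a3 b3) a3) b3))

lemma primrec_neg : Primrec neg := Primrec.pair p2 (Primrec.pair p1 p3)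

lemma primrec_nat : Primrec nat := Primrec.pair Primrec.id (Primrec.const (0, 0))

lemma primrecRel_le : PrimrecRel le := by
  have a1 : Primrec (fun c : RC × RC => c.1.1) := p1.comp Primrec.fst
  have a2 : Primrec (fun c : RC × RC => c.1.2.1) := p2.comp Primrec.fst
  have a3 : Primrec (fun c : RC × RC => c.1.2.2) := p3.comp Primrec.fst
  have b1 : Primrec (fun c : RC × RC => c.2.1) := p1.comp Primrec.snd
  have b2 : Primrec (fun c : RC × RC => c.2.2.1) := p2.comp Primrec.snd
  have b3 : Primrec (fun c : RC × RC => c.2.2.2) := p3.comp Primrec.snd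
  have a3' := Primrec.nat_add.comp a3 (Primrec.const 1)
  have b3' := Primrec.nat_add.comp b3 (Primrec.const 1)
  exact Primrec.nat_le.comp
    (Primrec.nat_add.comp (Primrec.nat_mul.comp a1 b3') (Primrec.nat_mul.comp b2 a3'))
    (Primrec.nat_add.comp (Primrec.nat_mul.comp b1 a3') (Primrec.nat_mul.comp a2 b3'))

lemma primrecRel_eqv : PrimrecRel eqv := by
  have a1 : Primrec (fun c : RC × RC => c.1.1) := p1.comp Primrec.fst
  have a2 : Primrec (fun c : RC × RC => c.1.2.1) := p2.comp Primrec.fst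
  have a3 : Primrec (fun c : RC × RC => c.1.2.2) := p3.comp Primrec.fst
  have b1 : Primrec (fun c : RC × RC => c.2.1) := p1.comp Primrec.snd
  have b2 : Primrec (fun c : RC × RC => c.2.2.1) := p2.comp Primrec.snd
  have b3 : Primrec (fun c : RC × RC => c.2.2.2) := p3.comp Primrec.snd
  have a3' := Primrec.nat_add.comp a3 (Primrec.const 1)
  have b3' := Primrec.nat_add.comp b3 (Primrec.const 1)
  exact Primrec.eq.comp
    (Primrec.nat_add.comp (Primrec.nat_mul.comp a1 b3') (Primrec.nat_mul.comp b2 a3'))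
    (Primrec.nat_add.comp (Primrec.nat_mul.comp b1 a3') (Primrec.nat_mul.comp a2 b3'))

lemma primrec_inv : Primrec inv := by
  have h1 : PrimrecPred (fun c : RC => c.2.1 < c.1) := Primrec.nat_lt.comp p2 p1
  have h2 : PrimrecPred (fun c : RC => c.1 < c.2.1) := Primrec.nat_lt.comp p1 p2
  have s1 : Primrec (fun c : RC => ((c.2.2 + 1, 0, c.1 - c.2.1 - 1) : RC)) :=
    Primrec.pair (Primrec.nat_add.comp p3 (Primrec.const 1))
      (Primrec.pair (Primrec.const 0)
        (Primrec.nat_sub.comp (Primrec.nat_sub.comp p1 p2) (Primrec.const 1)))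
  have s2 : Primrec (fun c : RC => ((0, c.2.2 + 1, c.2.1 - c.1 - 1) : RC)) :=
    Primrec.pair (Primrec.const 0)
      (Primrec.pair (Primrec.nat_add.comp p3 (Primrec.const 1))
        (Primrec.nat_sub.comp (Primrec.nat_sub.comp p2 p1) (Primrec.const 1)))
  exact Primrec.ite h1 s1 (Primrec.ite h2 s2 (Primrec.const (0, 0, 0)))

lemma primrec_pow : Primrec₂ pow := by
  refine Primrec₂.mk ?_
  have := Primrec.nat_rec' (f := fun p : RC × ℕ => p.2) (g := fun _ => ((1, 0, 0) : RC))
    (h := fun p y => mul y.2 p.1) Primrec.snd (Primrec.const _)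
    (primrec_mul.comp₂ (Primrec.snd.comp₂ Primrec₂.right) (Primrec.fst.comp₂ Primrec₂.left))
  exact this.of_eq fun p => rfl

end prim

end RC

/-! ### From `ℚ` to codes and back -/

/-- The set of natural numbers coding rationals in Mathlib's `Encodable ℚ`. -/
def ratSet : Set ℕ := Set.range (Encodable.encode : ℚ → ℕ)

/-- numerator absolute value from an integer code -/
def absOfCode (e : ℕ) : ℕ := if e % 2 = 1 then e / 2 + 1 else e / 2

lemma encode_int_natAbs (z : ℤ) : absOfCode (Encodable.encode z) = z.natAbs := by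
  have hz : ∀ z : ℤ, Encodable.encode z = Equiv.intEquivNat z := fun _ => rfl
  rw [hz]
  cases z with
  | ofNat n =>
    have : Equiv.intEquivNat (Int.ofNat n) = 2 * n := by
      simp [Equiv.intEquivNat, Equiv.intEquivNatSumNat]
      rfl
    rw [this]
    simp [absOfCode]
  | negSucc n =>
    have : Equiv.intEquivNat (Int.negSucc n) = 2 * n + 1 := by
      simp [Equiv.intEquivNat, Equiv.intEquivNatSumNat]
    rw [this]
    simp only [absOfCode, Int.natAbs_negSucc]
    have h1 : (2 * n + 1) % 2 = 1 := by omega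
    have h2 : (2 * n + 1) / 2 = n := by omega
    simp [h1, h2]

lemma encode_rat (q : ℚ) : Encodable.encode q = Nat.pair (Encodable.encode q.num) q.den := by
  rcases q with ⟨n, d, h, c⟩
  rfl

/-- Bounded form of coprimality. -/
def coprimeB (a d : ℕ) : Prop := ∀ x < d + 1, ¬ (2 ≤ x ∧ a % x = 0 ∧ d % x = 0)

lemma coprimeB_iff (a d : ℕ) (hd : 0 < d) : coprimeB a d ↔ a.Coprime d := by
  unfold coprimeB
  constructor
  · intro h
    by_contra hc
    have hg : Nat.gcd a d ≠ 1 := hc
    have hg0 : 0 < Nat.gcd a d := Nat.gcd_pos_of_pos_right _ hd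
    have hle : Nat.gcd a d ≤ d := Nat.le_of_dvd hd (Nat.gcd_dvd_right _ _)
    refine h (Nat.gcd a d) (by omega) ⟨by omega, ?_, ?_⟩
    · exact Nat.mod_eq_zero_of_dvd (Nat.gcd_dvd_left _ _)
    · exact Nat.mod_eq_zero_of_dvd (Nat.gcd_dvd_right _ _)
  · intro h x _ hx
    have h1 : x ∣ a := Nat.dvd_of_mod_eq_zero hx.2.1
    have h2 : x ∣ d := Nat.dvd_of_mod_eq_zero hx.2.2
    have h3 : x ∣ Nat.gcd a d := Nat.dvd_gcd h1 h2
    rw [h] at h3
    have := Nat.le_of_dvd (by norm_num) h3
    omega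

lemma mem_ratSet_iff (m : ℕ) :
    m ∈ ratSet ↔ 0 < m.unpair.2 ∧ coprimeB (absOfCode m.unpair.1) m.unpair.2 := by
  constructor
  · rintro ⟨q, rfl⟩
    rw [encode_rat, Nat.unpair_pair]
    refine ⟨q.den_pos, ?_⟩
    simp only
    rw [coprimeB_iff _ _ q.den_pos, encode_int_natAbs]
    exact q.reduced
  · rintro ⟨h1, h2⟩
    rw [coprimeB_iff _ _ h1] at h2
    have he : (Encodable.decode (α := ℤ) m.unpair.1) = some (Equiv.intEquivNat.symm m.unpair.1) := by
      exact Denumerable.decode_eq_ofNat ℤ _ |>.trans (by rfl)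
    set z : ℤ := Equiv.intEquivNat.symm m.unpair.1 with hz
    have hez : Encodable.encode z = m.unpair.1 := by
      change Equiv.intEquivNat z = _
      simp [hz]
    rw [← hez, encode_int_natAbs] at h2
    refine ⟨Rat.mk' z m.unpair.2 (by omega) h2, ?_⟩
    rw [encode_rat]
    simp only
    rw [hez, Nat.pair_unpair]

lemma primrecPred_coprimeB : PrimrecRel coprimeB := by
  have hR : PrimrecRel (fun (x : ℕ) (p : ℕ × ℕ) => ¬ (2 ≤ x ∧ p.1 % x = 0 ∧ p.2 % x = 0)) := by
    apply PrimrecPred.not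
    apply PrimrecPred.and
    · exact Primrec.nat_le.comp (Primrec.const 2) Primrec.fst
    apply PrimrecPred.and
    · exact Primrec.eq.comp (Primrec.nat_mod.comp (Primrec.fst.comp Primrec.snd) Primrec.fst)
        (Primrec.const 0)
    · exact Primrec.eq.comp (Primrec.nat_mod.comp (Primrec.snd.comp Primrec.snd) Primrec.fst)
        (Primrec.const 0)
  have h2 : PrimrecPred (fun p : ℕ × ℕ => ∀ x < p.2 + 1, ¬ (2 ≤ x ∧ p.1 % x = 0 ∧ p.2 % x = 0)) :=
    (hR.forall_mem_list.comp
      (Primrec.list_range.comp (Primrec.nat_add.comp Primrec.snd (Primrec.const 1)))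
      Primrec.id).of_eq (by simp)
  exact h2

lemma primrec_absOfCode : Primrec absOfCode := by
  unfold absOfCode
  refine Primrec.ite ?_ ?_ ?_
  · exact Primrec.eq.comp (Primrec.nat_mod.comp Primrec.id (Primrec.const 2)) (Primrec.const 1)
  · exact Primrec.nat_add.comp (Primrec.nat_div.comp Primrec.id (Primrec.const 2)) (Primrec.const 1)
  · exact Primrec.nat_div.comp Primrec.id (Primrec.const 2)

lemma primrecPred_ratSet : PrimrecPred (· ∈ ratSet) := by
  have h : PrimrecPred
      (fun m : ℕ => 0 < m.unpair.2 ∧ coprimeB (absOfCode m.unpair.1) m.unpair.2) := by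
    apply PrimrecPred.and
    · exact Primrec.nat_lt.comp (Primrec.const 0) (Primrec.snd.comp Primrec.unpair)
    · exact primrecPred_coprimeB.comp (primrec_absOfCode.comp (Primrec.fst.comp Primrec.unpair))
        (Primrec.snd.comp Primrec.unpair)
  exact h.of_eq fun m => (mem_ratSet_iff m).symm


/-! ### enumeration -/

lemma ratSet_unbounded (m : ℕ) : ∃ k, m + k + 1 ∈ ratSet := by
  refine ⟨Nat.pair (2 * (m + 1)) 1 - m - 1, ?_⟩
  have h : m + 1 ≤ Nat.pair (2 * (m + 1)) 1 := by
    have := Nat.left_le_pair (2 * (m + 1)) 1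
    omega
  have h2 : m + (Nat.pair (2 * (m + 1)) 1 - m - 1) + 1 = Nat.pair (2 * (m + 1)) 1 := by omega
  rw [h2, mem_ratSet_iff, Nat.unpair_pair]
  refine ⟨by norm_num, ?_⟩
  simp only
  rw [coprimeB_iff _ _ (by norm_num)]
  exact Nat.coprime_one_right _

open Classical in
/-- The next element of `ratSet` after `m`. -/
noncomputable def nextRat (m : ℕ) : ℕ := m + Nat.find (ratSet_unbounded m) + 1

lemma computable_nextRat : Computable nextRat := by
  classical
  have hP : ComputablePred (fun p : ℕ × ℕ => p.1 + p.2 + 1 ∈ ratSet) := by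
    have h1 : PrimrecPred (fun p : ℕ × ℕ => p.1 + p.2 + 1 ∈ ratSet) :=
      primrecPred_ratSet.comp
        (Primrec.nat_add.comp (Primrec.nat_add.comp Primrec.fst Primrec.snd) (Primrec.const 1))
    rcases h1 with ⟨d, hd⟩
    exact ⟨d, hd.to_comp⟩
  have := Computable.find (P := fun m k => m + k + 1 ∈ ratSet) hP ratSet_unbounded
  have h2 : Computable (fun m : ℕ => m + Nat.find (ratSet_unbounded m) + 1) :=
    (Primrec.nat_add.comp (Primrec.nat_add.comp Primrec.fst Primrec.snd)
      (Primrec.const 1)).to_comp.comp (Computable.pair Computable.id this)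
  exact h2.of_eq fun m => rfl

/-- The enumeration of `ratSet`. -/
noncomputable def enumRat : ℕ → ℕ := fun n =>
  Nat.rec (Encodable.encode (Denumerable.ofNat ℚ 0)) (fun _ IH => nextRat IH) n

lemma computable_enumRat : Computable enumRat := by
  have := Computable.nat_rec (f := fun n : ℕ => n)
    (g := fun _ => Encodable.encode (Denumerable.ofNat ℚ 0)) (h := fun _ y => nextRat y.2)
    Computable.id (Computable.const _)
    ((computable_nextRat.comp (Computable.snd.comp Computable.snd)).to₂)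
  exact this.of_eq fun n => rfl

lemma nat_find_congr_inst (p : ℕ → Prop) (i1 i2 : DecidablePred p) (h1 h2 : ∃ n, p n) :
    @Nat.find p i1 h1 = @Nat.find p i2 h2 := by
  have : i1 = i2 := Subsingleton.elim _ _
  subst this
  rfl

lemma enumRat_spec (n : ℕ) : enumRat n = Encodable.encode (Denumerable.ofNat ℚ n) := by
  letI := @Encodable.decidableRangeEncode ℚ _
  haveI : Infinite (Set.range (Encodable.encode : ℚ → ℕ)) :=
    Infinite.of_injective _ (Equiv.ofInjective _ Encodable.encode_injective).injective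
  have key : ∀ n, Encodable.encode (Denumerable.ofNat ℚ n)
      = (Nat.Subtype.ofNat (Set.range (Encodable.encode : ℚ → ℕ)) n : ℕ) := by
    intro n
    have : Denumerable.ofNat ℚ n = (Encodable.equivRangeEncode ℚ).symm
        (Nat.Subtype.ofNat (Set.range (Encodable.encode : ℚ → ℕ)) n) := by
      simp
    rw [this]
    have h2 := (Encodable.equivRangeEncode ℚ).apply_symm_apply
      (Nat.Subtype.ofNat (Set.range (Encodable.encode : ℚ → ℕ)) n)
    exact congrArg Subtype.val h2
  induction n with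
  | zero => rfl
  | succ n ih =>
    have h1 : enumRat (n + 1) = nextRat (enumRat n) := rfl
    rw [h1, ih, key (n + 1), key n]
    have h3 : Nat.Subtype.ofNat (Set.range (Encodable.encode : ℚ → ℕ)) (n + 1)
      = Nat.Subtype.succ (Nat.Subtype.ofNat (Set.range (Encodable.encode : ℚ → ℕ)) n) := rfl
    rw [h3]
    unfold nextRat Nat.Subtype.succ
    exact congrArg (· + 1) (congrArg (_ + ·) (nat_find_congr_inst _ _ _ _ _))

/-- Extract a code from an encoded rational. -/
def codeOfEnc (m : ℕ) : RC :=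
  (if m.unpair.1 % 2 = 1 then 0 else m.unpair.1 / 2,
    if m.unpair.1 % 2 = 1 then m.unpair.1 / 2 + 1 else 0, m.unpair.2 - 1)

lemma primrec_codeOfEnc : Primrec codeOfEnc := by
  have e : Primrec (fun m : ℕ => m.unpair.1) := Primrec.fst.comp Primrec.unpair
  have d : Primrec (fun m : ℕ => m.unpair.2) := Primrec.snd.comp Primrec.unpair
  have c : PrimrecPred (fun m : ℕ => m.unpair.1 % 2 = 1) :=
    Primrec.eq.comp (Primrec.nat_mod.comp e (Primrec.const 2)) (Primrec.const 1)
  have h : Primrec (fun m : ℕ => m.unpair.1 / 2) := Primrec.nat_div.comp e (Primrec.const 2)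
  exact Primrec.pair (Primrec.ite c (Primrec.const 0) h)
    (Primrec.pair (Primrec.ite c (Primrec.nat_add.comp h (Primrec.const 1)) (Primrec.const 0))
      (Primrec.nat_sub.comp d (Primrec.const 1)))

/-- The code of a rational. -/
def toRC (q : ℚ) : RC := codeOfEnc (Encodable.encode q)

lemma val_toRC (q : ℚ) : RC.val (toRC q) = q := by
  have hden : ((q.den - 1 : ℕ) : ℚ) + 1 = (q.den : ℚ) := by
    have : q.den - 1 + 1 = q.den := Nat.succ_pred_eq_of_pos q.den_pos
    exact_mod_cast this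
  have hz : ∀ z : ℤ, Encodable.encode z = Equiv.intEquivNat z := fun _ => rfl
  unfold toRC codeOfEnc
  rw [encode_rat, Nat.unpair_pair]
  simp only
  conv_rhs => rw [← Rat.num_div_den q]
  simp only [RC.val]
  rw [hden]
  congr 1
  rw [hz]
  cases hq : q.num with
  | ofNat n =>
    have : Equiv.intEquivNat (Int.ofNat n) = 2 * n := by
      simp [Equiv.intEquivNat, Equiv.intEquivNatSumNat]
      rfl
    rw [this]
    simp
  | negSucc n =>
    have : Equiv.intEquivNat (Int.negSucc n) = 2 * n + 1 := by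
      simp [Equiv.intEquivNat, Equiv.intEquivNatSumNat]
    rw [this]
    have h1 : (2 * n + 1) % 2 = 1 := by omega
    have h2 : (2 * n + 1) / 2 = n := by omega
    simp [h1, h2, Int.negSucc_eq]

lemma computable_toRC : Computable toRC := by
  have h1 : Computable (fun q : ℚ => codeOfEnc (enumRat (Encodable.encode (α := ℚ)
      (self := (Primcodable.toEncodable : Encodable ℚ)) q))) :=
    primrec_codeOfEnc.to_comp.comp (computable_enumRat.comp Computable.encode)
  refine h1.of_eq fun q => ?_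
  unfold toRC
  rw [enumRat_spec]
  congr 2
  exact Denumerable.ofNat_encode q

lemma exists_code (c : RC) : ∃ n, RC.eqv (codeOfEnc (enumRat n)) c := by
  refine ⟨Encodable.encode (α := ℚ) (self := (Primcodable.toEncodable : Encodable ℚ)) (RC.val c), ?_⟩
  rw [RC.eqv_iff, enumRat_spec]
  have : Denumerable.ofNat ℚ (Encodable.encode (α := ℚ)
      (self := (Primcodable.toEncodable : Encodable ℚ)) (RC.val c)) = RC.val c :=
    Denumerable.ofNat_encode _
  rw [this]
  exact val_toRC _

lemma computable_val : Computable RC.val := by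
  classical
  have hP : ComputablePred (fun p : RC × ℕ => RC.eqv (codeOfEnc (enumRat p.2)) p.1) := by
    rcases RC.primrecRel_eqv with ⟨d, hd⟩
    have g : Computable (fun p : RC × ℕ => ((codeOfEnc (enumRat p.2), p.1) : RC × RC)) :=
      Computable.pair
        (primrec_codeOfEnc.to_comp.comp (computable_enumRat.comp Computable.snd)) Computable.fst
    have h := Computable.comp hd.to_comp g
    exact ⟨fun p => d (codeOfEnc (enumRat p.2), p.1), h⟩
  have h1 := Computable.find (P := fun c n => RC.eqv (codeOfEnc (enumRat n)) c) hP exists_code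
  have h2 := (Computable.ofNat ℚ).comp h1
  refine h2.of_eq fun c => ?_
  have hs := Nat.find_spec (exists_code c)
  rw [RC.eqv_iff, enumRat_spec] at hs
  have : RC.val (codeOfEnc (Encodable.encode (Denumerable.ofNat ℚ (Nat.find (exists_code c)))))
      = Denumerable.ofNat ℚ (Nat.find (exists_code c)) := val_toRC _
  rw [← hs, this]

end Crest.Agent.H4Comp
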