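import Crest.Agent.H4T

/-! One-variable smooth functions all of whose derivatives are computable at rational points and
computably bounded. -/

set_option autoImplicit false

open scoped ContDiff

namespace Crest.Agent.H4Eff1

open Crest.Agent.H4Comp Crest.Agent.H4Comp.RC Crest.Agent.H4EffR Crest.Agent.H4T

/-- The class of effective one-variable functions. -/
structure Eff1 (f : ℝ → ℝ) : Prop where
  smooth : ContDiff ℝ ∞ f
  eff : EffR (fun x : ℕ × RC => iteratedDeriv x.1 f (rv x.2))
  bdd : ∃ B : ℕ → ℕ, Computable B ∧ ∀ m x, |iteratedDeriv m f x| ≤ B m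

namespace Eff1

lemma T : Eff1 H4T.T :=
  ⟨T_contDiff, effR_iteratedDeriv_T, Tbound, primrec_Tbound.to_comp, abs_iteratedDeriv_T_le⟩

lemma congr {f g : ℝ → ℝ} (hf : Eff1 f) (h : ∀ x, f x = g x) : Eff1 g := by
  have : f = g := funext h
  rwa [← this]

lemma contDiffAt {f : ℝ → ℝ} (hf : Eff1 f) (m : ℕ) (x : ℝ) : ContDiffAt ℝ m f x :=
  (hf.smooth.of_le (by exact_mod_cast le_top)).contDiffAt

lemma primrec_npow (N : ℕ) : Primrec (fun m : ℕ => N ^ m) := by
  have h : Primrec (fun n : ℕ => Nat.rec (motive := fun _ => ℕ) 1 (fun _ ih => ih * N) n) :=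
    Primrec.nat_rec₁ 1 (Primrec.nat_mul.comp Primrec.snd (Primrec.const N))
  refine h.of_eq fun n => ?_
  induction n with
  | zero => rfl
  | succ n ih => simp [pow_succ, ih]

/-- Composition with a rational affine map. -/
lemma comp_linear {f : ℝ → ℝ} (hf : Eff1 f) (α β : ℚ) :
    Eff1 (fun x => f ((α : ℝ) * x + (β : ℝ))) := by
  have key : ∀ (m : ℕ) (x : ℝ), iteratedDeriv m (fun x => f ((α : ℝ) * x + (β : ℝ))) x =
      (α : ℝ) ^ m * iteratedDeriv m f ((α : ℝ) * x + (β : ℝ)) := by
    intro m x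
    have h1 := iteratedDeriv_comp_add_const (𝕜 := ℝ) m f (β : ℝ)
    have hs : ContDiff ℝ m (fun y => f (y + (β : ℝ))) :=
      (hf.smooth.of_le (by exact_mod_cast le_top)).comp (contDiff_id.add contDiff_const)
    have h2 := iteratedDeriv_comp_const_mul (n := m) hs (α : ℝ)
    have h3 := congrFun h2 x
    rw [h3, h1]
  refine ⟨?_, ?_, ?_⟩
  · exact hf.smooth.comp ((contDiff_const.mul contDiff_id).add contDiff_const)
  · have h1 : EffR (fun x : ℕ × RC => rv (pow (toRC α) x.1)) :=
      EffR.of_rc ((primrec_pow.comp (Primrec.const _) Primrec.fst).to_comp)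
    have h2 : EffR (fun x : ℕ × RC =>
        iteratedDeriv x.1 f (rv (add (mul (toRC α) x.2) (toRC β)))) :=
      hf.eff.comp (c := fun x : ℕ × RC => (x.1, add (mul (toRC α) x.2) (toRC β)))
        (Computable.fst.pair ((primrec_add.comp (primrec_mul.comp (Primrec.const _) Primrec.snd)
          (Primrec.const _)).to_comp))
    refine (h1.mul' h2).congr ?_
    rintro ⟨m, r⟩
    rw [key]
    simp
  · obtain ⟨B, hB, hb⟩ := hf.bdd
    let N : ℕ := (toRC α).1 + (toRC α).2.1
    have hN : |(α : ℝ)| ≤ N := by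
      have := abs_rv_le (toRC α)
      simpa [N] using this
    refine ⟨fun m => N ^ m * B m, ?_, ?_⟩
    · exact Primrec.nat_mul.to_comp.comp (primrec_npow N).to_comp hB
    · intro m x
      rw [key, abs_mul, abs_pow]
      push_cast
      exact mul_le_mul (pow_le_pow_left₀ (abs_nonneg _) hN m) (hb m _) (abs_nonneg _)
        (by positivity)

lemma add {f g : ℝ → ℝ} (hf : Eff1 f) (hg : Eff1 g) : Eff1 (fun x => f x + g x) := by
  have key : ∀ (m : ℕ) (x : ℝ), iteratedDeriv m (fun x => f x + g x) x =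
      iteratedDeriv m f x + iteratedDeriv m g x := fun m x =>
    iteratedDeriv_fun_add (hf.contDiffAt m x) (hg.contDiffAt m x)
  refine ⟨hf.smooth.add hg.smooth, ?_, ?_⟩
  · exact (hf.eff.add' hg.eff).congr fun x => (key _ _).symm
  · obtain ⟨B, hB, hb⟩ := hf.bdd
    obtain ⟨B', hB', hb'⟩ := hg.bdd
    refine ⟨fun m => B m + B' m, Primrec.nat_add.to_comp.comp hB hB', ?_⟩
    intro m x
    rw [key]
    push_cast
    exact (abs_add_le _ _).trans (add_le_add (hb m x) (hb' m x))

lemma const_mul {f : ℝ → ℝ} (hf : Eff1 f) (q : ℚ) : Eff1 (fun x => (q : ℝ) * f x) := by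
  have key : ∀ (m : ℕ) (x : ℝ), iteratedDeriv m (fun x => (q : ℝ) * f x) x =
      (q : ℝ) * iteratedDeriv m f x := fun m x => by
    simpa using congrFun (iteratedDeriv_const_mul_field (n := m) (q : ℝ) f) x
  refine ⟨contDiff_const.mul hf.smooth, ?_, ?_⟩
  · exact ((EffR.const_rat q).mul' hf.eff).congr fun x => (key _ _).symm
  · obtain ⟨B, hB, hb⟩ := hf.bdd
    let N : ℕ := (toRC q).1 + (toRC q).2.1
    have hN : |(q : ℝ)| ≤ N := by
      have := abs_rv_le (toRC q)
      simpa [N] using this
    refine ⟨fun m => N * B m, Primrec.nat_mul.to_comp.comp (Computable.const N) hB, ?_⟩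
    intro m x
    rw [key, abs_mul]
    push_cast
    exact mul_le_mul hN (hb m _) (abs_nonneg _) (by positivity)

lemma sub {f g : ℝ → ℝ} (hf : Eff1 f) (hg : Eff1 g) : Eff1 (fun x => f x - g x) :=
  (hf.add (hg.const_mul (-1))).congr fun x => by push_cast; ring

lemma deriv {f : ℝ → ℝ} (hf : Eff1 f) : Eff1 (deriv f) := by
  refine ⟨?_, ?_, ?_⟩
  · exact (contDiff_infty_iff_deriv.mp hf.smooth).2
  · refine (hf.eff.comp (c := fun x : ℕ × RC => (x.1 + 1, x.2))
      ((Primrec.succ.comp Primrec.fst).to_comp.pair Computable.snd)).congr ?_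
    rintro ⟨m, r⟩
    simp only
    rw [iteratedDeriv_succ']
  · obtain ⟨B, hB, hb⟩ := hf.bdd
    refine ⟨fun m => B (m + 1), hB.comp Primrec.succ.to_comp, ?_⟩
    intro m x
    rw [← iteratedDeriv_succ']
    exact hb (m + 1) x

/-- Iterated derivatives of `x * g x`. -/
lemma iteratedDeriv_x_mul {g : ℝ → ℝ} (hg : Eff1 g) (m : ℕ) (x : ℝ) :
    iteratedDeriv m (fun x => x * g x) x =
      x * iteratedDeriv m g x + (m : ℝ) * iteratedDeriv (m - 1) g x := by
  have hd : ∀ (k : ℕ) (y : ℝ), DifferentiableAt ℝ (iteratedDeriv k g) y := fun k y => by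
    have h : ContDiff ℝ ∞ (iteratedDeriv k g) := by
      rw [iteratedDeriv_eq_iterate]
      exact ContDiff.iterate_deriv k hg.smooth
    exact h.differentiable (by simp) y
  induction m generalizing x with
  | zero => simp
  | succ m ih =>
    rw [iteratedDeriv_succ]
    have e : iteratedDeriv m (fun x => x * g x) = fun y =>
        y * iteratedDeriv m g y + (m : ℝ) * iteratedDeriv (m - 1) g y := funext ih
    rw [e]
    have h1 : HasDerivAt (fun y => y * iteratedDeriv m g y)
        (1 * iteratedDeriv m g x + x * iteratedDeriv (m + 1) g x) x := by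
      have := (hasDerivAt_id x).fun_mul ((hd m x).hasDerivAt)
      rw [← iteratedDeriv_succ] at this
      simpa using this
    have h2 : HasDerivAt (fun y => (m : ℝ) * iteratedDeriv (m - 1) g y)
        ((m : ℝ) * iteratedDeriv m g x) x := by
      cases m with
      | zero =>
        simpa using hasDerivAt_const x (0 : ℝ)
      | succ k =>
        have := ((hd k x).hasDerivAt).const_mul ((k + 1 : ℕ) : ℝ)
        rw [← iteratedDeriv_succ] at this
        simpa using this
    rw [(h1.fun_add h2).deriv]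
    simp only [Nat.add_sub_cancel]
    push_cast
    ring

lemma iteratedDeriv_eq_zero_of_support {g : ℝ → ℝ} {R : ℝ} (hs : ∀ x, R < |x| → g x = 0)
    (m : ℕ) {x : ℝ} (hx : R < |x|) : iteratedDeriv m g x = 0 := by
  have hopen : IsOpen {y : ℝ | R < |y|} := isOpen_lt continuous_const continuous_abs
  have hev : g =ᶠ[nhds x] fun _ => (0 : ℝ) := by
    filter_upwards [hopen.mem_nhds hx] with y hy
    exact hs y hy
  rw [hev.iteratedDeriv_eq]
  simp

/-- Multiplication by the variable, for a function vanishing outside a bounded set. -/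
lemma x_mul {g : ℝ → ℝ} (hg : Eff1 g) {R : ℕ} (hs : ∀ x, (R : ℝ) < |x| → g x = 0) :
    Eff1 (fun x => x * g x) := by
  refine ⟨contDiff_id.mul hg.smooth, ?_, ?_⟩
  · have h1 : EffR (fun x : ℕ × RC => rv x.2) := EffR.of_rc Computable.snd
    have h2 : EffR (fun x : ℕ × RC => rv (nat x.1)) :=
      EffR.of_rc (primrec_nat.comp Primrec.fst).to_comp
    have h3 : EffR (fun x : ℕ × RC => iteratedDeriv (x.1 - 1) g (rv x.2)) :=
      hg.eff.comp (c := fun x : ℕ × RC => (x.1 - 1, x.2))
        ((Primrec.nat_sub.comp Primrec.fst (Primrec.const 1)).to_comp.pair Computable.snd)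
    refine ((h1.mul' hg.eff).add' (h2.mul' h3)).congr ?_
    rintro ⟨m, r⟩
    rw [iteratedDeriv_x_mul hg]
    simp
  · obtain ⟨B, hB, hb⟩ := hg.bdd
    refine ⟨fun m => R * B m + m * B (m - 1), ?_, ?_⟩
    · refine Primrec.nat_add.to_comp.comp (Primrec.nat_mul.to_comp.comp (Computable.const R) hB)
        (Primrec.nat_mul.to_comp.comp Computable.id
          (hB.comp (Primrec.nat_sub.comp Primrec.id (Primrec.const 1)).to_comp))
    · intro m x
      rw [iteratedDeriv_x_mul hg]
      push_cast
      refine (abs_add_le _ _).trans (add_le_add ?_ ?_)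
      · by_cases hx : (R : ℝ) < |x|
        · rw [iteratedDeriv_eq_zero_of_support hs m hx]
          simp
          positivity
        · rw [abs_mul]
          exact mul_le_mul (not_lt.mp hx) (hb m x) (abs_nonneg _) (by positivity)
      · rw [abs_mul, abs_of_nonneg (by positivity : (0 : ℝ) ≤ m)]
        exact mul_le_mul_of_nonneg_left (hb _ x) (by positivity)

end Eff1

end Crest.Agent.H4Eff1
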