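import Crest.Agent.H4Comp

/-! Computable families of real numbers: `EffR g` says that `g : α → ℝ` can be approximated to
precision `1/(n+1)` by a computable function with values in rational codes. -/

set_option autoImplicit false

namespace Crest.Agent.H4EffR

open Crest.Agent.H4Comp Crest.Agent.H4Comp.RC

variable {α β γ : Type*} [Primcodable α] [Primcodable β] [Primcodable γ]

/-- `g` is computably approximable. -/
def EffR (g : α → ℝ) : Prop :=
  ∃ A : α → ℕ → RC, Computable₂ A ∧ ∀ a n, |g a - rv (A a n)| ≤ 1 / ((n : ℝ) + 1)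

@[simp] lemma rv_add (c c' : RC) : rv (add c c') = rv c + rv c' := by simp [rv]
@[simp] lemma rv_mul (c c' : RC) : rv (mul c c') = rv c * rv c' := by simp [rv]
@[simp] lemma rv_neg (c : RC) : rv (neg c) = - rv c := by simp [rv]
@[simp] lemma rv_nat (n : ℕ) : rv (nat n) = n := by simp [rv]
@[simp] lemma rv_inv (c : RC) : rv (inv c) = (rv c)⁻¹ := by simp [rv]
@[simp] lemma rv_pow (c : RC) (k : ℕ) : rv (pow c k) = rv c ^ k := by simp [rv]
@[simp] lemma rv_toRC (q : ℚ) : rv (toRC q) = q := by simp [rv, val_toRC]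
@[simp] lemma rv_one : rv ((1, 0, 0) : RC) = 1 := by simp [rv]
@[simp] lemma rv_zero : rv ((0, 0, 0) : RC) = 0 := by simp [rv]

lemma abs_rv_le (c : RC) : |rv c| ≤ ((c.1 + c.2.1 : ℕ) : ℝ) := by
  have h := abs_val_le c
  have h2 : ((|val c| : ℚ) : ℝ) ≤ (((c.1 + c.2.1 : ℕ) : ℚ) : ℝ) := by exact_mod_cast h
  simpa [rv] using h2

lemma rv_le_iff (c c' : RC) : le c c' ↔ rv c ≤ rv c' := by
  rw [le_iff]
  simp [rv]

namespace EffR

lemma of_rc {φ : α → RC} (hφ : Computable φ) : EffR (fun a => rv (φ a)) := by
  refine ⟨fun a _ => φ a, ?_, ?_⟩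
  · exact Computable₂.mk (hφ.comp Computable.fst)
  · intro a n
    simp only [sub_self, abs_zero]
    positivity

lemma const_rat (q : ℚ) : EffR (fun _ : α => (q : ℝ)) := by
  have := of_rc (α := α) (φ := fun _ => toRC q) (Computable.const _)
  simpa using this

lemma congr {g g' : α → ℝ} (h : EffR g) (e : ∀ a, g a = g' a) : EffR g' := by
  have : g = g' := funext e
  rwa [← this]

lemma comp {g : β → ℝ} (h : EffR g) {c : α → β} (hc : Computable c) : EffR (fun a => g (c a)) := by
  rcases h with ⟨A, hA, hg⟩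
  refine ⟨fun a n => A (c a) n, ?_, fun a n => hg (c a) n⟩
  exact hA.comp (hc.comp Computable.fst) Computable.snd

lemma one_div_mono {N : ℕ} {M : ℕ} (h : M ≤ N) : 1 / ((N : ℝ) + 1) ≤ 1 / ((M : ℝ) + 1) := by
  apply one_div_le_one_div_of_le (by positivity)
  have : (M : ℝ) ≤ N := by exact_mod_cast h
  linarith

lemma add' {g g' : α → ℝ} (h : EffR g) (h' : EffR g') : EffR (fun a => g a + g' a) := by
  rcases h with ⟨A, hA, hg⟩
  rcases h' with ⟨B, hB, hg'⟩
  refine ⟨fun a n => add (A a (2 * n + 1)) (B a (2 * n + 1)), ?_, ?_⟩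
  · have hn : Computable (fun p : α × ℕ => 2 * p.2 + 1) :=
      Primrec.nat_double_succ.to_comp.comp Computable.snd
    exact Computable₂.mk <| (primrec_add.to_comp).comp
      (hA.comp Computable.fst hn) (hB.comp Computable.fst hn)
  · intro a n
    have h1 := hg a (2 * n + 1)
    have h2 := hg' a (2 * n + 1)
    rw [rv_add]
    have e : g a + g' a - (rv (A a (2 * n + 1)) + rv (B a (2 * n + 1))) =
      (g a - rv (A a (2 * n + 1))) + (g' a - rv (B a (2 * n + 1))) := by ring
    rw [e]
    refine (abs_add_le _ _).trans ?_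
    have e2 : 1 / ((n : ℝ) + 1) = 1 / (((2 * n + 1 : ℕ) : ℝ) + 1) + 1 / (((2 * n + 1 : ℕ) : ℝ) + 1) := by
      push_cast
      field_simp
      ring
    rw [e2]
    exact add_le_add h1 h2

lemma neg' {g : α → ℝ} (h : EffR g) : EffR (fun a => - g a) := by
  rcases h with ⟨A, hA, hg⟩
  refine ⟨fun a n => neg (A a n), primrec_neg.to_comp.comp hA, ?_⟩
  intro a n
  rw [rv_neg]
  have e : - g a - - rv (A a n) = - (g a - rv (A a n)) := by ring
  rw [e, abs_neg]
  exact hg a n

lemma sub' {g g' : α → ℝ} (h : EffR g) (h' : EffR g') : EffR (fun a => g a - g' a) :=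
  (h.add' h'.neg').congr fun a => by ring

lemma mul' {g g' : α → ℝ} (h : EffR g) (h' : EffR g') : EffR (fun a => g a * g' a) := by
  rcases h with ⟨A, hA, hg⟩
  rcases h' with ⟨B, hB, hg'⟩
  -- the natural bound
  let M : α → ℕ := fun a => (A a 0).1 + (A a 0).2.1 + ((B a 0).1 + (B a 0).2.1) + 1
  have hM : Computable M := by
    have h1 : Computable (fun a => A a 0) := hA.comp Computable.id (Computable.const 0)
    have h2 : Computable (fun a => B a 0) := hB.comp Computable.id (Computable.const 0)
    have e1 : Computable (fun a => (A a 0).1 + (A a 0).2.1) :=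
      (Primrec.nat_add.comp p1 p2).to_comp.comp h1
    have e2 : Computable (fun a => (B a 0).1 + (B a 0).2.1) :=
      (Primrec.nat_add.comp p1 p2).to_comp.comp h2
    exact Primrec.nat_add.to_comp.comp (Primrec.nat_add.to_comp.comp e1 e2) (Computable.const 1)
  have bd1 : ∀ a, |g a| ≤ M a := by
    intro a
    have h1 := hg a 0
    have h2 := abs_rv_le (A a 0)
    have h3 : |g a| ≤ |g a - rv (A a 0)| + |rv (A a 0)| := by
      have := abs_add_le (g a - rv (A a 0)) (rv (A a 0))
      simpa using this
    have h4 : (0 : ℝ) ≤ ((B a 0).1 + (B a 0).2.1 : ℕ) := by positivity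
    simp only [CharP.cast_eq_zero, zero_add, div_one] at h1
    simp only [M]
    push_cast at h2 h4 ⊢
    linarith
  have bd2 : ∀ a, |g' a| ≤ M a := by
    intro a
    have h1 := hg' a 0
    have h2 := abs_rv_le (B a 0)
    have h3 : |g' a| ≤ |g' a - rv (B a 0)| + |rv (B a 0)| := by
      have := abs_add_le (g' a - rv (B a 0)) (rv (B a 0))
      simpa using this
    have h4 : (0 : ℝ) ≤ ((A a 0).1 + (A a 0).2.1 : ℕ) := by positivity
    simp only [CharP.cast_eq_zero, zero_add, div_one] at h1
    simp only [M]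
    push_cast at h2 h4 ⊢
    linarith
  let N : α → ℕ → ℕ := fun a n => (n + 1) * (2 * M a + 1)
  have hN : Computable (fun p : α × ℕ => N p.1 p.2) :=
    Primrec.nat_mul.to_comp.comp
      (Primrec.nat_add.to_comp.comp Computable.snd (Computable.const 1))
      (Primrec.nat_add.to_comp.comp
        (Primrec.nat_mul.to_comp.comp (Computable.const 2) (hM.comp Computable.fst))
        (Computable.const 1))
  refine ⟨fun a n => mul (A a (N a n)) (B a (N a n)), ?_, ?_⟩
  · exact Computable₂.mk <| primrec_mul.to_comp.comp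
      (hA.comp Computable.fst hN) (hB.comp Computable.fst hN)
  · intro a n
    rw [rv_mul]
    set x := rv (A a (N a n))
    set y := rv (B a (N a n))
    have h1 : |g a - x| ≤ 1 / ((N a n : ℝ) + 1) := hg a _
    have h2 : |g' a - y| ≤ 1 / ((N a n : ℝ) + 1) := hg' a _
    have hNpos : (0 : ℝ) < (N a n : ℝ) + 1 := by positivity
    have hle1 : 1 / ((N a n : ℝ) + 1) ≤ 1 := by
      rw [div_le_one hNpos]
      have : (0 : ℝ) ≤ (N a n : ℝ) := by positivity
      linarith
    have hx : |x| ≤ M a + 1 := by
      have : |x| ≤ |g a - x| + |g a| := by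
        have := abs_sub_abs_le_abs_sub x (g a)
        rw [abs_sub_comm x (g a)] at this
        linarith
      linarith [bd1 a]
    have e : g a * g' a - x * y = (g a - x) * g' a + x * (g' a - y) := by ring
    rw [e]
    refine (abs_add_le _ _).trans ?_
    rw [abs_mul, abs_mul]
    set ε := 1 / ((N a n : ℝ) + 1)
    have hε : 0 ≤ ε := by positivity
    have t1 : |g a - x| * |g' a| ≤ ε * M a :=
      mul_le_mul h1 (bd2 a) (abs_nonneg _) hε
    have t2 : |x| * |g' a - y| ≤ (M a + 1) * ε :=
      mul_le_mul hx h2 (abs_nonneg _) (by positivity)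
    have t3 : ε * (2 * (M a : ℝ) + 1) ≤ 1 / ((n : ℝ) + 1) := by
      have hN2 : (N a n : ℝ) + 1 ≥ ((n : ℝ) + 1) * (2 * (M a : ℝ) + 1) := by
        simp only [N]
        push_cast
        linarith
      have hp : (0 : ℝ) < 2 * (M a : ℝ) + 1 := by positivity
      have hn : (0 : ℝ) < (n : ℝ) + 1 := by positivity
      simp only [ε]
      rw [div_mul_eq_mul_div, one_mul, div_le_div_iff₀ hNpos hn]
      nlinarith
    nlinarith

/-- Finite sums with a computable number of terms. -/
lemma sum' {g : α × ℕ → ℝ} (h : EffR g) {N : α → ℕ} (hN : Computable N) :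
    EffR (fun a => ∑ i ∈ Finset.range (N a), g (a, i)) := by
  rcases h with ⟨A, hA, hg⟩
  let prec : α × ℕ → ℕ := fun p => (p.2 + 1) * (N p.1 + 1)
  have hprec : Computable prec :=
    Primrec.nat_mul.to_comp.comp
      (Primrec.nat_add.to_comp.comp Computable.snd (Computable.const 1))
      (Primrec.nat_add.to_comp.comp (hN.comp Computable.fst) (Computable.const 1))
  let F : α × ℕ → ℕ → RC := fun p k =>
    Nat.rec ((0, 0, 0) : RC) (fun i IH => add IH (A (p.1, i) (prec p))) k
  have hF : Computable (fun p : α × ℕ => F p (N p.1)) := by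
    have := Computable.nat_rec (f := fun p : α × ℕ => N p.1) (g := fun _ => ((0, 0, 0) : RC))
      (h := fun p y => add y.2 (A (p.1, y.1) (prec p)))
      (hN.comp Computable.fst) (Computable.const _)
      (Computable₂.mk <| primrec_add.to_comp.comp
        (Computable.snd.comp Computable.snd)
        (hA.comp
          (Computable.pair (Computable.fst.comp Computable.fst)
            (Computable.fst.comp Computable.snd))
          (hprec.comp Computable.fst)))
    exact this
  refine ⟨fun a n => F (a, n) (N a), Computable₂.mk hF, ?_⟩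
  intro a n
  have key : ∀ k, |∑ i ∈ Finset.range k, g (a, i) - rv (F (a, n) k)| ≤
      k * (1 / (((prec (a, n) : ℕ) : ℝ) + 1)) := by
    intro k
    induction k with
    | zero => simp [F]
    | succ k ih =>
      have e : F (a, n) (k + 1) = add (F (a, n) k) (A (a, k) (prec (a, n))) := rfl
      rw [e, rv_add, Finset.sum_range_succ]
      have e2 : ∑ i ∈ Finset.range k, g (a, i) + g (a, k) - (rv (F (a, n) k) + rv (A (a, k) (prec (a, n))))
        = (∑ i ∈ Finset.range k, g (a, i) - rv (F (a, n) k)) + (g (a, k) - rv (A (a, k) (prec (a, n)))) := by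
        ring
      rw [e2]
      refine (abs_add_le _ _).trans ?_
      have h1 := hg (a, k) (prec (a, n))
      push_cast
      linarith
  refine (key (N a)).trans ?_
  have hp : ((prec (a, n) : ℕ) : ℝ) + 1 = ((n : ℝ) + 1) * ((N a : ℝ) + 1) + 1 := by
    simp only [prec]
    push_cast
    ring
  rw [hp, mul_one_div, div_le_div_iff₀ (by positivity) (by positivity)]
  have : (0 : ℝ) ≤ (N a : ℝ) := by positivity
  nlinarith

lemma finset_sum {ι : Type*} (s : Finset ι) {g : ι → α → ℝ} (h : ∀ i ∈ s, EffR (g i)) :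
    EffR (fun a => ∑ i ∈ s, g i a) := by
  classical
  induction s using Finset.induction_on with
  | empty =>
    simpa using const_rat (α := α) 0
  | insert i s hi ih =>
    have h1 := h i (Finset.mem_insert_self _ _)
    have h2 := ih (fun j hj => h j (Finset.mem_insert_of_mem hj))
    exact (h1.add' h2).congr fun a => by rw [Finset.sum_insert hi]

lemma fintype_prod {ι : Type*} [Fintype ι] {g : ι → α → ℝ} (h : ∀ i, EffR (g i)) :
    EffR (fun a => ∏ i, g i a) := by
  classical
  have : ∀ s : Finset ι, EffR (fun a => ∏ i ∈ s, g i a) := by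
    intro s
    induction s using Finset.induction_on with
    | empty => simpa using const_rat (α := α) 1
    | insert i s hi ih =>
      exact ((h i).mul' ih).congr fun a => by rw [Finset.prod_insert hi]
  exact this _

/-- If-then-else along a computable Boolean. -/
lemma cond' {b : α → Bool} (hb : Computable b) {g₁ g₂ : α → ℝ} (h₁ : EffR g₁) (h₂ : EffR g₂) :
    EffR (fun a => if b a = true then g₁ a else g₂ a) := by
  rcases h₁ with ⟨A, hA, hg⟩
  rcases h₂ with ⟨B, hB, hg'⟩
  refine ⟨fun a n => bif b a then A a n else B a n, ?_, ?_⟩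
  · exact Computable₂.mk (Computable.cond (hb.comp Computable.fst) hA hB)
  · intro a n
    cases h : b a with
    | true => simpa [h] using hg a n
    | false => simpa [h] using hg' a n

/-- The truncation of a code to the unit interval. -/
def clip (c : RC) : RC :=
  if le c (0, 0, 0) then (0, 0, 0) else if le (1, 0, 0) c then (1, 0, 0) else c

lemma primrec_clip : Primrec clip := by
  have h1 : PrimrecPred (fun c : RC => le c (0, 0, 0)) :=
    primrecRel_le.comp Primrec.id (Primrec.const _)
  have h2 : PrimrecPred (fun c : RC => le (1, 0, 0) c) :=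
    primrecRel_le.comp (Primrec.const _) Primrec.id
  exact Primrec.ite h1 (Primrec.const _) (Primrec.ite h2 (Primrec.const _) Primrec.id)

lemma clip_mem (c : RC) : 0 ≤ rv (clip c) ∧ rv (clip c) ≤ 1 := by
  unfold clip
  split_ifs with h1 h2
  · simp
  · simp
  · rw [rv_le_iff] at h1 h2
    simp only [rv_zero, rv_one, not_le] at h1 h2
    exact ⟨h1.le, h2.le⟩

lemma abs_sub_clip {x : ℝ} (hx : 0 ≤ x ∧ x ≤ 1) (c : RC) : |x - rv (clip c)| ≤ |x - rv c| := by
  unfold clip
  split_ifs with h1 h2
  · rw [rv_le_iff, rv_zero] at h1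
    rw [rv_zero, sub_zero, abs_of_nonneg hx.1, abs_of_nonneg (by linarith)]
    linarith
  · rw [rv_le_iff, rv_one] at h2
    rw [rv_one, abs_of_nonpos (by linarith [hx.2]), abs_of_nonpos (by linarith)]
    linarith
  · exact le_rfl

lemma abs_pow_sub_pow_le {u v : ℝ} (hu : 0 ≤ u ∧ u ≤ 1) (hv : 0 ≤ v ∧ v ≤ 1) (k : ℕ) :
    |u ^ k - v ^ k| ≤ k * |u - v| := by
  induction k with
  | zero => simp
  | succ k ih =>
    have e : u ^ (k + 1) - v ^ (k + 1) = (u ^ k - v ^ k) * u + v ^ k * (u - v) := by ring
    rw [e]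
    refine (abs_add_le _ _).trans ?_
    rw [abs_mul, abs_mul, abs_of_nonneg hu.1, abs_of_nonneg (pow_nonneg hv.1 k)]
    have h1 : |u ^ k - v ^ k| * u ≤ k * |u - v| * 1 :=
      mul_le_mul ih hu.2 hu.1 (by positivity)
    have h2 : v ^ k * |u - v| ≤ 1 * |u - v| :=
      mul_le_mul_of_nonneg_right (pow_le_one₀ hv.1 hv.2) (abs_nonneg _)
    push_cast
    linarith

/-- Powers of a `[0,1]`-valued computable family, computable in the exponent too. -/
lemma pow01 {g : α → ℝ} (h : EffR g) (h01 : ∀ a, 0 ≤ g a ∧ g a ≤ 1) :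
    EffR (fun p : α × ℕ => g p.1 ^ p.2) := by
  rcases h with ⟨A, hA, hg⟩
  refine ⟨fun p n => pow (clip (A p.1 ((n + 1) * (p.2 + 1)))) p.2, ?_, ?_⟩
  · refine Computable₂.mk <| primrec_pow.to_comp.comp
      (primrec_clip.to_comp.comp
        (hA.comp (Computable.fst.comp Computable.fst)
          (Primrec.nat_mul.to_comp.comp
            (Primrec.nat_add.to_comp.comp Computable.snd (Computable.const 1))
            (Primrec.nat_add.to_comp.comp (Computable.snd.comp Computable.fst)
              (Computable.const 1)))))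
      (Computable.snd.comp Computable.fst)
  · rintro ⟨a, k⟩ n
    simp only
    rw [rv_pow]
    set c := A a ((n + 1) * (k + 1))
    have h1 := abs_pow_sub_pow_le (h01 a) (clip_mem c) k
    have h2 := abs_sub_clip (h01 a) c
    have h3 : |g a - rv c| ≤ 1 / (((n + 1) * (k + 1) : ℕ) + 1) := hg a _
    refine h1.trans ?_
    have h4 : (k : ℝ) * |g a - rv (clip c)| ≤ k * (1 / (((n + 1) * (k + 1) : ℕ) + 1)) :=
      mul_le_mul_of_nonneg_left (h2.trans h3) (by positivity)
    refine h4.trans ?_
    push_cast
    rw [mul_one_div, div_le_div_iff₀ (by positivity) (by positivity)]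
    have : (0 : ℝ) ≤ (k : ℝ) := by positivity
    have : (0 : ℝ) ≤ (n : ℝ) := by positivity
    nlinarith

end EffR

end Crest.Agent.H4EffR
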