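import Crest.Prelude.Def_BoxFlow

/-! Global flows of smooth compactly supported fields which are inactive outside a time interval,
and a comparison lemma for flows. -/

set_option autoImplicit false

open scoped ContDiff NNReal
open Crest.AnalysisR.BoxFlow

namespace Crest.Agent.H4Flow

lemma lipschitz_slice {U : Field} {K : ℝ≥0} (hK : LipschitzWith K U) (t : ℝ) :
    LipschitzWith K (fun y : Fin 3 → ℝ => U (t, y)) := by
  have := hK.comp (LipschitzWith.prodMk_left t)
  rw [mul_one] at this
  exact this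

theorem exists_flow {U : Field} (hU : ContDiff ℝ ∞ U) (hc : HasCompactSupport U)
    (h0 : ∀ p : ℝ × (Fin 3 → ℝ), p.1 ∉ Set.Icc (1 / 4 : ℝ) (3 / 4) → U p = 0) :
    ∃ Φ : ℝ → (Fin 3 → ℝ) → (Fin 3 → ℝ), IsFlow U Φ := by
  obtain ⟨K, hK⟩ := ContDiff.lipschitzWith_of_hasCompactSupport (𝕂 := ℝ) hc hU (by simp)
  obtain ⟨M, hM⟩ := hc.exists_bound_of_continuous hU.continuous
  let L : ℝ≥0 := Real.toNNReal M
  have hML : ∀ p, ‖U p‖ ≤ (L : ℝ) := fun p => (hM p).trans (Real.le_coe_toNNReal M)
  have hPL (x : Fin 3 → ℝ) : IsPicardLindelof (fun t y => U (t, y)) (tmin := 0) (tmax := 1)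
      ⟨0, by norm_num⟩ x L 0 L K := by
    refine ⟨fun t _ => (lipschitz_slice hK t).lipschitzOnWith, fun y _ => ?_,
      fun t _ y _ => hML _, ?_⟩
    · have : Continuous (fun t : ℝ => U (t, y)) := hU.continuous.comp (by fun_prop)
      exact this.continuousOn
    · simp
  have hex := fun x => (hPL x).exists_eq_forall_mem_Icc_hasDerivWithinAt₀
  choose α hα0 hα using hex
  refine ⟨fun t x => α x (max 0 (min t 1)), fun x => ?_, fun t x => ?_⟩
  · simpa using hα0 x
  · show HasDerivAt (fun s => α x (max 0 (min s 1))) (U (t, α x (max 0 (min t 1)))) t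
    set γ := α x with hγ
    have hder := hα x
    have hcont : ContinuousOn γ (Set.Icc 0 1) := fun y hy => (hder y hy).continuousWithinAt
    have hconst1 : ∀ y ∈ Set.Icc (0 : ℝ) (1 / 4), γ y = γ 0 := by
      refine constant_of_has_deriv_right_zero (hcont.mono ?_) ?_
      · exact Set.Icc_subset_Icc le_rfl (by norm_num)
      · intro y hy
        have hy01 : y ∈ Set.Icc (0 : ℝ) 1 := ⟨hy.1, by linarith [hy.2]⟩
        have h1 := hder y hy01
        have hz : U (y, γ y) = 0 := h0 _ (fun h => absurd h.1 (not_le.mpr hy.2))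
        rw [hz] at h1
        refine h1.mono_of_mem_nhdsWithin ?_
        exact Icc_mem_nhdsGE_of_mem ⟨hy.1, by linarith [hy.2]⟩
    have hconst2 : ∀ y ∈ Set.Icc (3 / 4 : ℝ) 1, γ y = γ (3 / 4) := by
      refine constant_of_has_deriv_right_zero (hcont.mono ?_) ?_
      · exact Set.Icc_subset_Icc (by norm_num) le_rfl
      · intro y hy
        have hy01 : y ∈ Set.Icc (0 : ℝ) 1 := ⟨by linarith [hy.1], hy.2.le⟩
        by_cases hy3 : y = 3 / 4
        · subst hy3
          -- the derivative vanishes at the endpoint by continuity of the field: use the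
          -- curve on the right of the endpoint
          have h1 := hder _ hy01
          have hz : U ((3 / 4 : ℝ), γ (3 / 4)) = 0 := by
            have hcU : Continuous (fun s : ℝ => U (s, γ (3 / 4))) :=
              hU.continuous.comp (by fun_prop)
            have hlim : Filter.Tendsto (fun s : ℝ => U (s, γ (3 / 4)))
                (nhdsWithin (3 / 4) (Set.Ioi (3 / 4))) (nhds (U ((3 / 4 : ℝ), γ (3 / 4)))) :=
              hcU.continuousAt.tendsto.mono_left nhdsWithin_le_nhds
            have hlim0 : Filter.Tendsto (fun s : ℝ => U (s, γ (3 / 4)))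
                (nhdsWithin (3 / 4) (Set.Ioi (3 / 4))) (nhds 0) := by
              refine tendsto_const_nhds.congr' ?_
              filter_upwards [self_mem_nhdsWithin] with s hs
              exact (h0 (s, γ (3 / 4)) (fun h => absurd h.2 (not_le.mpr (Set.mem_Ioi.mp hs)))).symm
            exact tendsto_nhds_unique hlim hlim0
          rw [hz] at h1
          refine h1.mono_of_mem_nhdsWithin ?_
          exact Icc_mem_nhdsGE_of_mem ⟨by norm_num, by norm_num⟩
        · have hy4 : 3 / 4 < y := lt_of_le_of_ne hy.1 (Ne.symm hy3)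
          have h1 := hder y hy01
          have hz : U (y, γ y) = 0 := h0 _ (fun h => absurd h.2 (not_le.mpr hy4))
          rw [hz] at h1
          refine h1.mono_of_mem_nhdsWithin ?_
          exact Icc_mem_nhdsGE_of_mem ⟨by linarith, by linarith [hy.2]⟩
    rcases lt_or_ge t (1 / 4) with ht1 | ht1
    · -- before the active interval
      have hev : (fun s => α x (max 0 (min s 1))) =ᶠ[nhds t] fun _ => γ 0 := by
        filter_upwards [Iio_mem_nhds ht1] with s hs
        have hs' : s < 1 / 4 := hs
        refine hconst1 _ ⟨le_max_left _ _, ?_⟩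
        refine max_le (by norm_num) ((min_le_left _ _).trans hs'.le)
      have hz : U (t, α x (max 0 (min t 1))) = 0 :=
        h0 _ (fun h => absurd h.1 (not_le.mpr ht1))
      rw [hz]
      exact (hasDerivAt_const t (γ 0)).congr_of_eventuallyEq hev
    rcases lt_or_ge (3 / 4) t with ht2 | ht2
    · have hev : (fun s => α x (max 0 (min s 1))) =ᶠ[nhds t] fun _ => γ (3 / 4) := by
        filter_upwards [Ioi_mem_nhds ht2] with s hs
        have hs' : 3 / 4 < s := hs
        refine hconst2 _ ⟨?_, ?_⟩
        · refine le_max_of_le_right (le_min hs'.le (by norm_num))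
        · exact max_le (by norm_num) (min_le_right _ _)
      have hz : U (t, α x (max 0 (min t 1))) = 0 :=
        h0 _ (fun h => absurd h.2 (not_le.mpr ht2))
      rw [hz]
      exact (hasDerivAt_const t (γ (3 / 4))).congr_of_eventuallyEq hev
    · have ht01 : t ∈ Set.Ioo (0 : ℝ) 1 := ⟨by linarith, by linarith⟩
      have hclamp : ∀ s ∈ Set.Ioo (0 : ℝ) 1, max 0 (min s 1) = s := by
        intro s hs
        rw [min_eq_left hs.2.le, max_eq_right hs.1.le]
      have hev : (fun s => α x (max 0 (min s 1))) =ᶠ[nhds t] γ := by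
        filter_upwards [Ioo_mem_nhds ht01.1 ht01.2] with s hs
        rw [hclamp s hs]
      rw [hclamp t ht01]
      have h1 := (hder t ⟨ht01.1.le, ht01.2.le⟩).hasDerivAt (Icc_mem_nhds ht01.1 ht01.2)
      exact h1.congr_of_eventuallyEq hev

/-- Comparison of a flow with an explicit straight-line motion, on a time interval where the field
is a function of time times a fixed autonomous field. -/
theorem flow_step {U : Field} {K : ℝ≥0} (hK : LipschitzWith K U)
    {Φ : ℝ → (Fin 3 → ℝ) → (Fin 3 → ℝ)} (hΦ : IsFlow U Φ) {a b : ℝ} (hab : a ≤ b) {g τ : ℝ → ℝ}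
    {W : (Fin 3 → ℝ) → (Fin 3 → ℝ)} (hg : ∀ t, HasDerivAt g (τ t) t) (hga : g a = 0)
    (hgb : g b = 1) (hg01 : ∀ t ∈ Set.Icc a b, 0 ≤ g t ∧ g t ≤ 1)
    (hU : ∀ t ∈ Set.Icc a b, ∀ y, U (t, y) = τ t • W y) {x₀ x v : Fin 3 → ℝ} (hx : Φ a x₀ = x)
    (hv : ∀ s ∈ Set.Icc (0 : ℝ) 1, W (x + s • v) = v) : Φ b x₀ = x + v := by
  let c : ℝ → Fin 3 → ℝ := fun t => x + g t • v
  have hc : ∀ t, HasDerivAt c (τ t • v) t := fun t => ((hg t).smul_const v).const_add x
  have hcU : ∀ t ∈ Set.Icc a b, τ t • v = U (t, c t) := by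
    intro t ht
    rw [hU t ht]
    congr 1
    exact (hv _ (hg01 t ht)).symm
  have huniq : Set.EqOn (fun t => Φ t x₀) c (Set.Icc a b) := by
    refine ODE_solution_unique_of_mem_Icc_right (v := fun t y => U (t, y)) (s := fun _ => Set.univ)
      (K := K) (fun t _ => (lipschitz_slice hK t).lipschitzOnWith) ?_ ?_ (fun _ _ => Set.mem_univ _)
      ?_ ?_ (fun _ _ => Set.mem_univ _) ?_
    · exact fun t _ => (hΦ.2 t x₀).continuousAt.continuousWithinAt
    · exact fun t _ => (hΦ.2 t x₀).hasDerivWithinAt
    · exact fun t _ => (hc t).continuousAt.continuousWithinAt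
    · intro t ht
      have := (hc t).hasDerivWithinAt (s := Set.Ici t)
      rwa [hcU t ⟨ht.1, ht.2.le⟩] at this
    · simp [c, hx, hga]
  have := huniq (Set.right_mem_Icc.mpr hab)
  simpa [c, hgb] using this

end Crest.Agent.H4Flow
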