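import Crest.Agent.H4Tensor
import Crest.Agent.H4Flow

/-! The elementary moves, the field attached to a list of moves, and the flow of that field. -/

set_option autoImplicit false

open scoped ContDiff NNReal
open Crest.AnalysisR.BoxFlow

namespace Crest.Agent.H4Field

open Crest.Agent.H4Comp Crest.Agent.H4Comp.RC Crest.Agent.H4EffR Crest.Agent.H4T Crest.Agent.H4Eff1
open Crest.Agent.H4Tensor Crest.Agent.H4Flow

/-- The cut-off: `1` on `[lo, hi]`, `0` outside `[lo - e, hi + e]`. -/
noncomputable def chi (lo hi e : ℚ) (x : ℝ) : ℝ := T ((x - lo + e) / e) - T ((x - hi) / e)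

lemma eff1_chi (lo hi e : ℚ) (he : 0 < e) : Eff1 (chi lo hi e) := by
  have he' : (e : ℝ) ≠ 0 := by exact_mod_cast he.ne'
  have h1 := Eff1.T.comp_linear (1 / e) ((e - lo) / e)
  have h2 := Eff1.T.comp_linear (1 / e) (-hi / e)
  refine (h1.sub h2).congr fun x => ?_
  unfold chi
  congr 2
  · push_cast
    field_simp
    ring
  · push_cast
    field_simp
    ring

lemma chi_eq_one {lo hi e : ℚ} (he : 0 < e) {x : ℝ} (h1 : (lo : ℝ) ≤ x) (h2 : x ≤ hi) :
    chi lo hi e x = 1 := by
  have he' : (0 : ℝ) < e := by exact_mod_cast he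
  unfold chi
  rw [T_one, T_zero]
  · ring
  · exact div_nonpos_of_nonpos_of_nonneg (by linarith) he'.le
  · rw [le_div_iff₀ he']; linarith

lemma chi_eq_zero_left {lo hi e : ℚ} (he : 0 < e) {x : ℝ} (h1 : x ≤ (lo : ℝ) - e) (h2 : x ≤ hi) :
    chi lo hi e x = 0 := by
  have he' : (0 : ℝ) < e := by exact_mod_cast he
  unfold chi
  rw [T_zero, T_zero]
  · ring
  · exact div_nonpos_of_nonpos_of_nonneg (by linarith) he'.le
  · exact div_nonpos_of_nonpos_of_nonneg (by linarith) he'.le

lemma chi_eq_zero_right {lo hi e : ℚ} (he : 0 < e) {x : ℝ} (h1 : (hi : ℝ) + e ≤ x) (h2 : (lo : ℝ) ≤ x) :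
    chi lo hi e x = 0 := by
  have he' : (0 : ℝ) < e := by exact_mod_cast he
  unfold chi
  rw [T_one, T_one]
  · ring
  · rw [le_div_iff₀ he']; linarith
  · rw [le_div_iff₀ he']; linarith

lemma exists_support_chi (lo hi e : ℚ) (he : 0 < e) :
    ∃ R : ℕ, ∀ x : ℝ, (R : ℝ) < |x| → chi lo hi e x = 0 := by
  have he' : (0 : ℝ) < e := by exact_mod_cast he
  refine ⟨⌈|(lo : ℝ)| + |(hi : ℝ)| + e⌉₊, fun x hx => ?_⟩
  have hR : |(lo : ℝ)| + |(hi : ℝ)| + e < |x| := lt_of_le_of_lt (Nat.le_ceil _) hx
  have h1 := le_abs_self (lo : ℝ)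
  have h2 := le_abs_self (hi : ℝ)
  have h3 := neg_abs_le (lo : ℝ)
  have h4 := neg_abs_le (hi : ℝ)
  have h5 := abs_nonneg (lo : ℝ)
  have h6 := abs_nonneg (hi : ℝ)
  rcases le_total 0 x with hx0 | hx0
  · rw [abs_of_nonneg hx0] at hR
    exact chi_eq_zero_right he (by linarith) (by linarith)
  · rw [abs_of_nonpos hx0] at hR
    exact chi_eq_zero_left he (by linarith) (by linarith)

/-- An elementary move. -/
structure Mv where
  i : Fin 3
  j : Fin 3
  c : ℚ
  d : ℚ
  lo : Fin 3 → ℚ
  hi : Fin 3 → ℚ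
  N : ℕ

namespace Mv

/-- The margin. -/
def e (m : Mv) : ℚ := 1 / ((m.N : ℚ) + 1)

lemma e_pos (m : Mv) : 0 < m.e := by
  unfold e
  positivity

lemma e_pos' (m : Mv) : (0 : ℝ) < m.e := by
  exact_mod_cast m.e_pos

/-- The cut-offs. -/
noncomputable def χ (m : Mv) (l : Fin 3) : ℝ → ℝ := chi (m.lo l) (m.hi l) m.e

/-- The factors of the stream function. -/
noncomputable def f (m : Mv) (l : Fin 3) : ℝ → ℝ :=
  if l = m.j then fun x => ((m.c / 2 : ℚ) : ℝ) * (x * (x * m.χ l x)) + (m.d : ℝ) * (x * m.χ l x)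
  else m.χ l

/-- Factors with one differentiated variable. -/
noncomputable def pf (m : Mv) (sel l : Fin 3) : ℝ → ℝ :=
  if l = sel then deriv (m.f l) else m.f l

/-- Product of the factors. -/
noncomputable def P (m : Mv) (sel : Fin 3) (x : Fin 3 → ℝ) : ℝ := ∏ l, m.pf sel l (x l)

/-- The autonomous field of a move. -/
noncomputable def V (m : Mv) (x : Fin 3 → ℝ) : Fin 3 → ℝ :=
  fun k => (if k = m.i then m.P m.j x else 0) + (if k = m.j then -m.P m.i x else 0)

lemma eff1_χ (m : Mv) (l : Fin 3) : Eff1 (m.χ l) := eff1_chi _ _ _ m.e_pos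

lemma exists_support_χ (m : Mv) (l : Fin 3) : ∃ R : ℕ, ∀ x : ℝ, (R : ℝ) < |x| → m.χ l x = 0 :=
  exists_support_chi _ _ _ m.e_pos

lemma eff1_f (m : Mv) (l : Fin 3) : Eff1 (m.f l) := by
  unfold f
  split_ifs
  · obtain ⟨R, hR⟩ := m.exists_support_χ l
    have h1 : Eff1 (fun x => x * m.χ l x) := (m.eff1_χ l).x_mul hR
    have h2 : Eff1 (fun x => x * (x * m.χ l x)) :=
      h1.x_mul (R := R) fun x hx => by simp [hR x hx]
    exact (h2.const_mul _).add (h1.const_mul _)
  · exact m.eff1_χ l

lemma eff1_pf (m : Mv) (sel l : Fin 3) : Eff1 (m.pf sel l) := by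
  unfold pf
  split_ifs
  · exact (m.eff1_f l).deriv
  · exact m.eff1_f l

/-- If the cut-off vanishes near a point, so do the factors. -/
lemma pf_zero_of_ev (m : Mv) (sel l : Fin 3) {y : ℝ} (h : m.χ l =ᶠ[nhds y] fun _ => 0) :
    m.pf sel l y = 0 := by
  have hf : m.f l =ᶠ[nhds y] fun _ => (0 : ℝ) := by
    unfold f
    split_ifs
    · filter_upwards [h] with z hz
      simp [hz]
    · exact h
  unfold pf
  split_ifs
  · rw [hf.deriv_eq]
    simp
  · exact hf.eq_of_nhds

/-- Some factor vanishes. -/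
lemma V_eq_zero_of_factor (m : Mv) {x : Fin 3 → ℝ} {l : Fin 3} (h : m.χ l =ᶠ[nhds (x l)] fun _ => 0) :
    m.V x = 0 := by
  have hP : ∀ sel, m.P sel x = 0 := fun sel =>
    Finset.prod_eq_zero (Finset.mem_univ l) (m.pf_zero_of_ev sel l h)
  funext k
  simp [V, hP]

/-- The plateau. -/
def Pl (m : Mv) (x : Fin 3 → ℝ) : Prop := ∀ l, (m.lo l : ℝ) < x l ∧ x l < m.hi l

/-- Strictly outside the enlarged plateau. -/
def Out (m : Mv) (x : Fin 3 → ℝ) : Prop :=
  ∃ l, x l < (m.lo l : ℝ) - m.e ∨ (m.hi l : ℝ) + m.e < x l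

/-- Well-formed intervals. -/
def WF (m : Mv) : Prop := ∀ l, m.lo l ≤ m.hi l

lemma V_of_out {m : Mv} (hwf : m.WF) {x : Fin 3 → ℝ} (hx : m.Out x) : m.V x = 0 := by
  obtain ⟨l, hl⟩ := hx
  have hle : (m.lo l : ℝ) ≤ m.hi l := by exact_mod_cast hwf l
  have he := m.e_pos'
  refine m.V_eq_zero_of_factor (l := l) ?_
  rcases hl with hl | hl
  · filter_upwards [Iio_mem_nhds hl] with z hz
    exact chi_eq_zero_left m.e_pos (le_of_lt hz) (by have : z < _ := hz; linarith)
  · filter_upwards [Ioi_mem_nhds hl] with z hz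
    have hz' : (m.hi l : ℝ) + m.e < z := hz
    exact chi_eq_zero_right m.e_pos hz'.le (by linarith)

lemma χ_ev_one {m : Mv} {l : Fin 3} {y : ℝ} (h1 : (m.lo l : ℝ) < y) (h2 : y < m.hi l) :
    m.χ l =ᶠ[nhds y] fun _ => 1 := by
  filter_upwards [Ioo_mem_nhds h1 h2] with z hz
  exact chi_eq_one m.e_pos hz.1.le hz.2.le

lemma pf_plateau_other {m : Mv} {sel l : Fin 3} (hs : l ≠ sel) (hj : l ≠ m.j) {y : ℝ}
    (h1 : (m.lo l : ℝ) < y) (h2 : y < m.hi l) : m.pf sel l y = 1 := by
  simp only [pf, if_neg hs, f, if_neg hj]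
  exact (χ_ev_one h1 h2).eq_of_nhds

lemma deriv_f_j {m : Mv} {y : ℝ} (h1 : (m.lo m.j : ℝ) < y) (h2 : y < m.hi m.j) :
    deriv (m.f m.j) y = (m.c : ℝ) * y + m.d := by
  have hev : m.f m.j =ᶠ[nhds y] fun x => ((m.c / 2 : ℚ) : ℝ) * (x * (x * 1)) + (m.d : ℝ) * (x * 1) := by
    filter_upwards [χ_ev_one h1 h2] with z hz
    simp only [f, if_true, hz]
  rw [hev.deriv_eq]
  have hx : HasDerivAt (fun x : ℝ => x * 1) 1 y := by
    simp only [mul_one]
    exact hasDerivAt_id' y
  have h3 : HasDerivAt (fun x : ℝ => x * (x * 1)) (1 * (y * 1) + y * 1) y :=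
    (hasDerivAt_id' y).fun_mul hx
  have h4 := (h3.const_mul ((m.c / 2 : ℚ) : ℝ)).fun_add (hx.const_mul (m.d : ℝ))
  rw [h4.deriv]
  push_cast
  ring

lemma deriv_f_other {m : Mv} {l : Fin 3} (hj : l ≠ m.j) {y : ℝ} (h1 : (m.lo l : ℝ) < y)
    (h2 : y < m.hi l) : deriv (m.f l) y = 0 := by
  have hev : m.f l =ᶠ[nhds y] fun _ => (1 : ℝ) := by
    simp only [f, if_neg hj]
    exact χ_ev_one h1 h2
  rw [hev.deriv_eq]
  simp

/-- On the plateau the field is the shear. -/
lemma V_of_pl {m : Mv} (hij : m.i ≠ m.j) {x : Fin 3 → ℝ} (hx : m.Pl x) :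
    m.V x = fun k => if k = m.i then (m.c : ℝ) * x m.j + m.d else 0 := by
  have h1 : m.P m.j x = (m.c : ℝ) * x m.j + m.d := by
    unfold P
    rw [Finset.prod_eq_single m.j]
    · simp only [pf, if_true]
      exact deriv_f_j (hx _).1 (hx _).2
    · intro l _ hl
      exact pf_plateau_other hl hl (hx l).1 (hx l).2
    · simp
  have h2 : m.P m.i x = 0 := by
    refine Finset.prod_eq_zero (Finset.mem_univ m.i) ?_
    simp only [pf, if_true]
    exact deriv_f_other hij (hx _).1 (hx _).2
  funext k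
  simp only [V, h1, h2, neg_zero, ite_self, add_zero]

/-- One good step. -/
def StepOK (m : Mv) (x : Fin 3 → ℝ) : Prop :=
  ∀ s ∈ Set.Icc (0 : ℝ) 1, m.V (x + s • m.V x) = m.V x

lemma stepOK_of_out {m : Mv} (hwf : m.WF) {x : Fin 3 → ℝ} (hx : m.Out x) : m.StepOK x := by
  intro s _
  have h0 := V_of_out hwf hx
  rw [h0]
  simp [h0]

/-- Update form of the shear. -/
noncomputable def shear (m : Mv) (x : Fin 3 → ℝ) : Fin 3 → ℝ :=
  fun k => if k = m.i then x k + ((m.c : ℝ) * x m.j + m.d) else x k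

lemma add_V_of_pl {m : Mv} (hij : m.i ≠ m.j) {x : Fin 3 → ℝ} (hx : m.Pl x) :
    x + m.V x = m.shear x := by
  rw [V_of_pl hij hx]
  funext k
  by_cases h : k = m.i <;> simp [shear, h]

lemma stepOK_of_pl {m : Mv} (hij : m.i ≠ m.j) {x : Fin 3 → ℝ} (hx : m.Pl x)
    (hx' : m.Pl (m.shear x)) : m.StepOK x := by
  intro s hs
  have hv := V_of_pl hij hx
  have hpl : m.Pl (x + s • m.V x) := by
    intro l
    rw [← add_V_of_pl hij hx] at hx'
    have h1 := hx l
    have h2 := hx' l
    simp only [Pi.add_apply, Pi.smul_apply, smul_eq_mul] at h2 ⊢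
    have hs0 := hs.1
    have hs1 := hs.2
    constructor
    · by_cases hl : 0 ≤ m.V x l
      · have : 0 ≤ s * m.V x l := mul_nonneg hs0 hl
        linarith [h1.1]
      · have hl' : m.V x l < 0 := not_le.mp hl
        have : m.V x l ≤ s * m.V x l := by nlinarith
        linarith [h2.1]
    · by_cases hl : 0 ≤ m.V x l
      · have : s * m.V x l ≤ m.V x l := by nlinarith
        linarith [h2.2]
      · have hl' : m.V x l < 0 := not_le.mp hl
        have : s * m.V x l ≤ 0 := mul_nonpos_of_nonneg_of_nonpos hs0 hl'.le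
        linarith [h1.2]
  rw [V_of_pl hij hpl, hv]
  funext k
  by_cases h : k = m.i
  · simp only [h, if_true]
    congr 2
    simp [hij.symm, hij]
  · simp [h]

end Mv

/-! ### Time schedule -/

/-- Length of a time slot. -/
def dl (L : ℕ) : ℚ := 1 / (2 * ((L : ℚ) + 1))

/-- Start of a time slot. -/
def sch (L m : ℕ) : ℚ := 1 / 4 + (m : ℚ) * dl L

lemma dl_pos (L : ℕ) : 0 < dl L := by
  unfold dl
  positivity

/-- The motion in a slot. -/
noncomputable def gam (L m : ℕ) (t : ℝ) : ℝ :=
  T (((1 / dl L : ℚ) : ℝ) * t + ((-sch L m / dl L : ℚ) : ℝ))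

/-- Its velocity. -/
noncomputable def tau (L m : ℕ) : ℝ → ℝ := deriv (gam L m)

lemma eff1_gam (L m : ℕ) : Eff1 (gam L m) := Eff1.T.comp_linear _ _

lemma eff1_tau (L m : ℕ) : Eff1 (tau L m) := (eff1_gam L m).deriv

lemma hasDerivAt_gam (L m : ℕ) (t : ℝ) : HasDerivAt (gam L m) (tau L m t) t :=
  ((eff1_gam L m).smooth.differentiable (by simp) t).hasDerivAt

lemma gam_arg (L m : ℕ) (t : ℝ) :
    ((1 / dl L : ℚ) : ℝ) * t + ((-sch L m / dl L : ℚ) : ℝ) = (t - sch L m) / dl L := by
  have h : (dl L : ℝ) ≠ 0 := by exact_mod_cast (dl_pos L).ne'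
  push_cast
  field_simp
  ring

lemma deriv_T_of_nonpos {y : ℝ} (h : y ≤ 0) : deriv T y = 0 := by
  rw [← iteratedDeriv_one]
  exact iteratedDeriv_T_of_nonpos h

lemma deriv_T_of_one_le {y : ℝ} (h : 1 ≤ y) : deriv T y = 0 := by
  rw [← iteratedDeriv_one]
  exact iteratedDeriv_T_of_one_le h

lemma tau_eq (L m : ℕ) (t : ℝ) : tau L m t = ((1 / dl L : ℚ) : ℝ) * deriv T ((t - sch L m) / dl L) := by
  have hT : HasDerivAt T (deriv T ((t - sch L m) / dl L))
      (((1 / dl L : ℚ) : ℝ) * t + ((-sch L m / dl L : ℚ) : ℝ)) := by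
    rw [gam_arg]
    exact (T_contDiff.differentiable (by simp) _).hasDerivAt
  have hl : HasDerivAt (fun t : ℝ => ((1 / dl L : ℚ) : ℝ) * t + ((-sch L m / dl L : ℚ) : ℝ))
      ((1 / dl L : ℚ) : ℝ) t := by
    simpa using ((hasDerivAt_id t).const_mul ((1 / dl L : ℚ) : ℝ)).add_const ((-sch L m / dl L : ℚ) : ℝ)
  have h := hT.scomp t hl
  have h2 : HasDerivAt (gam L m) _ t := h
  rw [tau, h2.deriv]
  simp

lemma dl_pos' (L : ℕ) : (0 : ℝ) < dl L := by exact_mod_cast dl_pos L

lemma tau_zero_left {L m : ℕ} {t : ℝ} (h : t ≤ sch L m) : tau L m t = 0 := by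
  rw [tau_eq, deriv_T_of_nonpos, mul_zero]
  exact div_nonpos_of_nonpos_of_nonneg (by linarith) (dl_pos' L).le

lemma tau_zero_right {L m : ℕ} {t : ℝ} (h : (sch L m : ℝ) + dl L ≤ t) : tau L m t = 0 := by
  rw [tau_eq, deriv_T_of_one_le, mul_zero]
  rw [le_div_iff₀ (dl_pos' L)]
  linarith

lemma gam_zero {L m : ℕ} {t : ℝ} (h : t ≤ sch L m) : gam L m t = 0 := by
  rw [gam, gam_arg]
  exact T_zero (div_nonpos_of_nonpos_of_nonneg (by linarith) (dl_pos' L).le)

lemma gam_one {L m : ℕ} {t : ℝ} (h : (sch L m : ℝ) + dl L ≤ t) : gam L m t = 1 := by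
  rw [gam, gam_arg]
  refine T_one ?_
  rw [le_div_iff₀ (dl_pos' L)]
  linarith

lemma gam_mem (L m : ℕ) (t : ℝ) : 0 ≤ gam L m t ∧ gam L m t ≤ 1 :=
  ⟨T_nonneg _, T_le_one _⟩

lemma sch_add_dl_le {L m : ℕ} (h : m < L) : sch L m + dl L ≤ sch L (m + 1) ∧
    sch L (m + 1) ≤ sch L L := by
  have hd := dl_pos L
  constructor
  · unfold sch
    push_cast
    linarith
  · unfold sch
    have : ((m + 1 : ℕ) : ℚ) ≤ L := by exact_mod_cast h
    exact add_le_add_right (mul_le_mul_of_nonneg_right this hd.le) _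

lemma sch_mono (L : ℕ) {m n : ℕ} (h : m ≤ n) : sch L m ≤ sch L n := by
  unfold sch
  have : (m : ℚ) ≤ n := by exact_mod_cast h
  have hd := dl_pos L
  exact add_le_add_right (mul_le_mul_of_nonneg_right this hd.le) _

lemma sch_zero (L : ℕ) : sch L 0 = 1 / 4 := by simp [sch]

lemma sch_L_le (L : ℕ) : sch L L ≤ 3 / 4 := by
  unfold sch dl
  have h : (0 : ℚ) < (L : ℚ) + 1 := by positivity
  rw [show (1 : ℚ) / 4 + (L : ℚ) * (1 / (2 * ((L : ℚ) + 1))) ≤ 3 / 4 ↔
      (L : ℚ) * (1 / (2 * ((L : ℚ) + 1))) ≤ 1 / 2 by constructor <;> intro h' <;> linarith]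
  rw [mul_one_div, div_le_iff₀ (by positivity)]
  linarith

lemma tau_inactive {L m : ℕ} (hm : m < L) {t : ℝ} (ht : t ∉ Set.Icc (1 / 4 : ℝ) (3 / 4)) :
    tau L m t = 0 := by
  rw [Set.mem_Icc, not_and_or, not_le, not_le] at ht
  rcases ht with ht | ht
  · refine tau_zero_left ?_
    have h1 : sch L 0 ≤ sch L m := sch_mono L (Nat.zero_le _)
    rw [sch_zero] at h1
    have h2 : ((1 / 4 : ℚ) : ℝ) ≤ sch L m := by exact_mod_cast h1
    push_cast at h2
    linarith
  · refine tau_zero_right ?_
    have h1 := (sch_add_dl_le hm).1.trans ((sch_add_dl_le hm).2.trans (sch_L_le L))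
    have h2 : ((sch L m + dl L : ℚ) : ℝ) ≤ ((3 / 4 : ℚ) : ℝ) := by exact_mod_cast h1
    push_cast at h2
    linarith

/-! ### The field -/

/-- Indices of the tensors of the field of a list of moves. -/
abbrev Idx (M : List Mv) : Type := Fin M.length × Bool

/-- Coefficients. -/
def coef (M : List Mv) : Idx M → Fin 3 → ℚ
  | (a, true), k => if k = (M.get a).i then 1 else 0
  | (a, false), k => if k = (M.get a).j then -1 else 0

/-- Selected differentiated variable. -/
def selv (M : List Mv) : Idx M → Fin 3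
  | (a, true) => (M.get a).j
  | (a, false) => (M.get a).i

/-- The factors of the tensors. -/
noncomputable def G (M : List Mv) (a : Idx M) : Fin 4 → ℝ → ℝ :=
  Fin.cons (α := fun _ => ℝ → ℝ) (tau M.length a.1) (fun l => (M.get a.1).pf (selv M a) l)

/-- The field of a list of moves. -/
noncomputable def theField (M : List Mv) : Field := tfield (coef M) (G M)

lemma eff1_G (M : List Mv) (a : Idx M) (d : Fin 4) : Eff1 (G M a d) := by
  induction d using Fin.cases with
  | zero => exact eff1_tau _ _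
  | succ l => exact Mv.eff1_pf _ _ _

lemma contDiff_G (M : List Mv) (a : Idx M) (d : Fin 4) : ContDiff ℝ ∞ (G M a d) :=
  (eff1_G M a d).smooth

theorem contDiff_theField (M : List Mv) : ContDiff ℝ ∞ (theField M) :=
  contDiff_tfield _ (contDiff_G M)

theorem effective_theField (M : List Mv) : Effective (theField M) :=
  effective_tfield _ (eff1_G M)

lemma tens_G (M : List Mv) (a : Idx M) (p : ℝ × (Fin 3 → ℝ)) :
    tens (G M a) p = tau M.length a.1 p.1 * (M.get a.1).P (selv M a) p.2 := by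
  simp only [tens, Mv.P, Fin.prod_univ_three]
  have h0 : G M a 0 = tau M.length a.1 := rfl
  have h1 : G M a 1 = (M.get a.1).pf (selv M a) 0 := rfl
  have h2 : G M a 2 = (M.get a.1).pf (selv M a) 1 := rfl
  have h3 : G M a 3 = (M.get a.1).pf (selv M a) 2 := rfl
  rw [h0, h1, h2, h3]
  ring

/-- The field as a sum over moves. -/
theorem theField_apply (M : List Mv) (p : ℝ × (Fin 3 → ℝ)) :
    theField M p = ∑ a : Fin M.length, tau M.length a p.1 • (M.get a).V p.2 := by
  funext k
  simp only [theField, tfield, Fintype.sum_prod_type, Fintype.sum_bool, tens_G, Finset.sum_apply,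
    Pi.smul_apply, smul_eq_mul]
  refine Finset.sum_congr rfl fun a _ => ?_
  simp only [coef, selv, Mv.V]
  generalize M.get a = m
  have c1 : ((if k = m.i then (1 : ℚ) else 0 : ℚ) : ℝ) = if k = m.i then 1 else 0 := by
    split_ifs <;> simp
  have c2 : ((if k = m.j then (-1 : ℚ) else 0 : ℚ) : ℝ) = if k = m.j then -1 else 0 := by
    split_ifs <;> simp
  rw [c1, c2]
  split_ifs <;> ring

lemma update_cons_eq (m : Mv) (τ : ℝ → ℝ) (g₁ g₂ : Fin 4 → ℝ → ℝ)
    (h₁ : g₁ = Fin.cons (α := fun _ => ℝ → ℝ) τ (m.pf m.j))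
    (h₂ : g₂ = Fin.cons (α := fun _ => ℝ → ℝ) τ (m.pf m.i)) :
    Function.update g₁ m.i.succ (deriv (g₁ m.i.succ)) =
      Function.update g₂ m.j.succ (deriv (g₂ m.j.succ)) := by
  have e1 : ∀ l' : Fin 3, g₁ l'.succ = m.pf m.j l' := fun l' => by rw [h₁]; rfl
  have e2 : ∀ l' : Fin 3, g₂ l'.succ = m.pf m.i l' := fun l' => by rw [h₂]; rfl
  have e10 : g₁ 0 = τ := by rw [h₁]; rfl
  have e20 : g₂ 0 = τ := by rw [h₂]; rfl
  funext d
  induction d using Fin.cases with
  | zero =>
    rw [Function.update_of_ne (Fin.succ_ne_zero _).symm, Function.update_of_ne (Fin.succ_ne_zero _).symm,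
      e10, e20]
  | succ l =>
    by_cases hi : l = m.i
    · by_cases hj : l = m.j
      · subst hi
        have hj' : m.j = m.i := hj.symm
        simp only [Function.update_self, hj', e1, e2]
      · subst hi
        have hs : m.i.succ ≠ m.j.succ := fun h => hj (Fin.succ_injective _ h)
        rw [Function.update_self, Function.update_of_ne hs, e1, e2]
        simp only [Mv.pf, if_neg hj, if_true]
    · have hs : l.succ ≠ m.i.succ := fun h => hi (Fin.succ_injective _ h)
      rw [Function.update_of_ne hs]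
      by_cases hj : l = m.j
      · subst hj
        rw [Function.update_self, e1, e2]
        simp only [Mv.pf, if_neg hi, if_true]
      · have hs' : l.succ ≠ m.j.succ := fun h => hj (Fin.succ_injective _ h)
        rw [Function.update_of_ne hs', e1, e2]
        simp only [Mv.pf, if_neg hi, if_neg hj]

lemma update_G_eq (M : List Mv) (a : Fin M.length) :
    Function.update (G M (a, true)) (M.get a).i.succ (deriv (G M (a, true) (M.get a).i.succ)) =
      Function.update (G M (a, false)) (M.get a).j.succ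
        (deriv (G M (a, false) (M.get a).j.succ)) :=
  update_cons_eq (M.get a) _ _ _ rfl rfl

lemma direction_succ (l : Fin 3) : direction l.succ = (0, Pi.single l 1) := by
  fin_cases l
  · exact direction_one
  · exact direction_two
  · exact direction_three

/-- The field is divergence free. -/
theorem spaceDiv_theField (M : List Mv) (p : ℝ × (Fin 3 → ℝ)) : spaceDiv (theField M) p = 0 := by
  unfold spaceDiv
  have h1 : ∀ k : Fin 3, fderiv ℝ (theField M) p (0, Pi.single k 1) k =
      ∑ a : Idx M, (coef M a k : ℝ) * tens (Function.update (G M a) k.succ (deriv (G M a k.succ))) p := by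
    intro k
    unfold theField
    rw [fderiv_tfield_apply _ (contDiff_G M), ← direction_succ]
    refine Finset.sum_congr rfl fun a _ => ?_
    rw [fderiv_tens (contDiff_G M a)]
  simp only [h1]
  rw [Finset.sum_comm]
  simp only [Fintype.sum_prod_type, Fintype.sum_bool]
  refine Finset.sum_eq_zero fun a _ => ?_
  have e1 : ∑ k : Fin 3, ((coef M (a, true) k : ℚ) : ℝ) *
      tens (Function.update (G M (a, true)) k.succ (deriv (G M (a, true) k.succ))) p =
      tens (Function.update (G M (a, true)) (M.get a).i.succ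
        (deriv (G M (a, true) (M.get a).i.succ))) p := by
    rw [Finset.sum_eq_single (M.get a).i]
    · have : coef M (a, true) (M.get a).i = 1 := if_pos rfl
      rw [this]
      simp
    · intro k _ hk
      have : coef M (a, true) k = 0 := if_neg hk
      rw [this]
      simp
    · simp
  have e2 : ∑ k : Fin 3, ((coef M (a, false) k : ℚ) : ℝ) *
      tens (Function.update (G M (a, false)) k.succ (deriv (G M (a, false) k.succ))) p =
      -tens (Function.update (G M (a, false)) (M.get a).j.succ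
        (deriv (G M (a, false) (M.get a).j.succ))) p := by
    rw [Finset.sum_eq_single (M.get a).j]
    · have : coef M (a, false) (M.get a).j = -1 := if_pos rfl
      rw [this]
      simp
    · intro k _ hk
      have : coef M (a, false) k = 0 := if_neg hk
      rw [this]
      simp
    · simp
  rw [e1, e2, update_G_eq]
  ring

theorem theField_inactive (M : List Mv) (p : ℝ × (Fin 3 → ℝ))
    (hp : p.1 ∉ Set.Icc (1 / 4 : ℝ) (3 / 4)) : theField M p = 0 := by
  rw [theField_apply]
  refine Finset.sum_eq_zero fun a _ => ?_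
  rw [tau_inactive a.2 hp, zero_smul]

lemma Mv.exists_support_V (m : Mv) : ∃ R : ℕ, ∀ (x : Fin 3 → ℝ) (l : Fin 3), (R : ℝ) < |x l| → m.V x = 0 := by
  have h := fun l => m.exists_support_χ l
  choose R hR using h
  refine ⟨∑ l, R l, fun x l hx => ?_⟩
  have hle : R l ≤ ∑ l, R l := Finset.single_le_sum (f := R) (fun _ _ => Nat.zero_le _) (Finset.mem_univ l)
  have hle' : (R l : ℝ) ≤ ((∑ l, R l : ℕ) : ℝ) := by exact_mod_cast hle
  refine m.V_eq_zero_of_factor (l := l) ?_
  have hopen : IsOpen {y : ℝ | (R l : ℝ) < |y|} := isOpen_lt continuous_const continuous_abs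
  filter_upwards [hopen.mem_nhds (lt_of_le_of_lt hle' hx)] with z hz
  exact hR l z hz

theorem hasCompactSupport_theField (M : List Mv) : HasCompactSupport (theField M) := by
  have h := fun a : Fin M.length => (M.get a).exists_support_V
  choose R hR using h
  let R₀ : ℝ := ((∑ a, R a : ℕ) : ℝ)
  refine HasCompactSupport.intro (K := Set.Icc (1 / 4 : ℝ) (3 / 4) ×ˢ
    Set.pi Set.univ (fun _ : Fin 3 => Set.Icc (-R₀) R₀)) (isCompact_Icc.prod
      (isCompact_univ_pi fun _ => isCompact_Icc)) ?_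
  rintro ⟨t, x⟩ hp
  by_cases ht : t ∈ Set.Icc (1 / 4 : ℝ) (3 / 4)
  · have hx : ¬ (∀ l, x l ∈ Set.Icc (-R₀) R₀) := by
      intro hall
      exact hp ⟨ht, fun l _ => hall l⟩
    rw [not_forall] at hx
    obtain ⟨l, hl⟩ := hx
    have hl' : R₀ < |x l| := by
      rw [Set.mem_Icc, not_and_or, not_le, not_le] at hl
      rcases hl with hl | hl
      · rw [lt_abs]; right; linarith
      · rw [lt_abs]; left; exact hl
    rw [theField_apply]
    refine Finset.sum_eq_zero fun a _ => ?_
    have hle : R a ≤ ∑ a, R a := Finset.single_le_sum (f := R) (fun _ _ => Nat.zero_le _) (Finset.mem_univ a)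
    have hle' : (R a : ℝ) ≤ R₀ := Nat.cast_le.mpr hle
    rw [hR a x l (lt_of_le_of_lt hle' hl'), smul_zero]
  · exact theField_inactive M _ ht

/-! ### Flow of the field along a run -/

/-- The motion under a list of moves. -/
noncomputable def run : List Mv → (Fin 3 → ℝ) → (Fin 3 → ℝ)
  | [], x => x
  | m :: p, x => run p (x + m.V x)

/-- Every move of the list is a straight-line motion for the current position. -/
def Good : List Mv → (Fin 3 → ℝ) → Prop
  | [], _ => True
  | m :: p, x => m.StepOK x ∧ Good p (x + m.V x)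

lemma theField_slot (M : List Mv) {k : ℕ} (hk : k < M.length) {t : ℝ}
    (ht : t ∈ Set.Icc (sch M.length k : ℝ) ((sch M.length k : ℝ) + dl M.length))
    (y : Fin 3 → ℝ) :
    theField M (t, y) = tau M.length k t • (M.get ⟨k, hk⟩).V y := by
  rw [theField_apply]
  rw [Finset.sum_eq_single (⟨k, hk⟩ : Fin M.length)]
  · intro a _ ha
    have hne : (a : ℕ) ≠ k := fun h => ha (Fin.ext h)
    have hz : tau M.length a t = 0 := by
      rcases lt_or_gt_of_ne hne with h | h
      · refine tau_zero_right (le_trans ?_ ht.1)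
        have h1 := (sch_add_dl_le (L := M.length) (m := a) a.2).1
        have h2 : sch M.length (a + 1) ≤ sch M.length k := sch_mono _ h
        exact_mod_cast h1.trans h2
      · refine tau_zero_left (le_trans ht.2 ?_)
        have h1 := (sch_add_dl_le (L := M.length) hk).1
        have h2 : sch M.length (k + 1) ≤ sch M.length a := sch_mono _ h
        exact_mod_cast h1.trans h2
    simp only
    rw [hz, zero_smul]
  · simp

theorem flow_run (M : List Mv) {Φ : ℝ → (Fin 3 → ℝ) → (Fin 3 → ℝ)} (hΦ : IsFlow (theField M) Φ)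
    {x : Fin 3 → ℝ} (hx : Good M x) : Φ 1 x = run M x := by
  obtain ⟨K, hK⟩ := ContDiff.lipschitzWith_of_hasCompactSupport (𝕂 := ℝ)
    (hasCompactSupport_theField M) (contDiff_theField M) (by simp)
  -- constant pieces
  have hconst : ∀ (a b : ℝ), a ≤ b → (∀ t ∈ Set.Ico a b, ∀ y, theField M (t, y) = 0) →
      ∀ x₀, Φ b x₀ = Φ a x₀ := by
    intro a b hab h0 x₀
    have := constant_of_has_deriv_right_zero (f := fun t => Φ t x₀) (a := a) (b := b)
      (fun t _ => (hΦ.2 t x₀).continuousAt.continuousWithinAt) (fun t ht => by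
        have h1 := (hΦ.2 t x₀).hasDerivWithinAt (s := Set.Ici t)
        rwa [h0 t ht] at h1) b (Set.right_mem_Icc.mpr hab)
    exact this
  have hstart : Φ (sch M.length 0) x = x := by
    rw [sch_zero]
    have := hconst 0 ((1 / 4 : ℚ) : ℝ) (by norm_num) (fun t ht y => theField_inactive M _ (by
      intro h
      have h1 := h.1
      have h2 := ht.2
      push_cast at h2
      simp only at h1
      linarith)) x
    rw [this, hΦ.1]
  have hend : ∀ x₀, Φ 1 x₀ = Φ (sch M.length M.length) x₀ := by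
    intro x₀
    have hs : ((sch M.length M.length : ℚ) : ℝ) ≤ 1 := by
      have h : sch M.length M.length ≤ 1 := (sch_L_le _).trans (by norm_num)
      exact_mod_cast h
    refine hconst _ _ hs (fun t ht y => ?_) x₀
    rw [theField_apply]
    refine Finset.sum_eq_zero fun a _ => ?_
    have h1 := (sch_add_dl_le (L := M.length) (m := a) a.2)
    have h2 : sch M.length a + dl M.length ≤ sch M.length M.length := h1.1.trans h1.2
    have h3 : ((sch M.length a : ℝ)) + dl M.length ≤ sch M.length M.length := by exact_mod_cast h2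
    rw [tau_zero_right (h3.trans ht.1), zero_smul]
  -- induction along the list
  have key : ∀ (p : List Mv) (k : ℕ) (x₁ : Fin 3 → ℝ), k + p.length = M.length →
      (∀ (i : ℕ) (hi : i < p.length), M[k + i]? = some (p.get ⟨i, hi⟩)) →
      Φ (sch M.length k) x = x₁ → Good p x₁ →
      Φ (sch M.length (k + p.length)) x = run p x₁ := by
    intro p
    induction p with
    | nil =>
      intro k x₁ _ _ h1 _
      simpa [run] using h1
    | cons m p ih =>
      intro k x₁ hlen hM h1 hg
      have hk : k < M.length := by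
        simp only [List.length_cons] at hlen
        omega
      have hm : M.get ⟨k, hk⟩ = m := by
        have := hM 0 (by simp)
        simp only [add_zero, List.get_eq_getElem, List.getElem_cons_zero] at this
        rw [List.getElem?_eq_getElem hk] at this
        simpa using this
      obtain ⟨hs, hgp⟩ := hg
      have hstep : Φ ((sch M.length k : ℝ) + dl M.length) x = x₁ + m.V x₁ := by
        refine flow_step hK hΦ (a := (sch M.length k : ℝ)) (by linarith [dl_pos' M.length])
          (g := gam M.length k) (τ := tau M.length k) (W := m.V) (hasDerivAt_gam _ _)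
          (gam_zero le_rfl) (gam_one le_rfl) (fun t _ => gam_mem _ _ t) ?_ h1 hs
        intro t ht y
        rw [theField_slot M hk ht y, hm]
      have hnext : Φ (sch M.length (k + 1)) x = x₁ + m.V x₁ := by
        have e : ((sch M.length (k + 1) : ℚ) : ℝ) = (sch M.length k : ℝ) + dl M.length := by
          unfold sch
          push_cast
          ring
        rw [e, hstep]
      have := ih (k + 1) (x₁ + m.V x₁) (by simp only [List.length_cons] at hlen; omega)
        (fun i hi => by
          have := hM (i + 1) (by simpa using hi)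
          rw [show k + 1 + i = k + (i + 1) by ring, this]
          simp) hnext hgp
      simp only [List.length_cons, run]
      rw [show k + (p.length + 1) = k + 1 + p.length by ring]
      exact this
  have := key M 0 x (by simp) (fun i hi => by simp [List.getElem?_eq_getElem hi]) hstart hx
  rw [hend]
  simpa using this

end Crest.Agent.H4Field
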