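import Crest.Agent.H4Scale

/-! The plan of moves for finitely many disjoint boxes. -/

set_option autoImplicit false

open Crest.AnalysisR.BoxFlow

namespace Crest.Agent.H4Main

open Crest.Agent.H4Field Crest.Agent.H4Plan Crest.Agent.H4Scale

/-- Disjoint closed boxes are separated along a coordinate. -/
lemma sep_of_disjoint {c c' w w' : Fin 3 → ℚ} (hw : ∀ l, 0 < w l) (hw' : ∀ l, 0 < w' l)
    (hd : Disjoint (box c w) (box c' w')) : ∃ l, w l + w' l < |c l - c' l| := by
  by_contra hcon
  rw [not_exists] at hcon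
  have hcon' : ∀ l, |c l - c' l| ≤ w l + w' l := fun l => not_lt.mp (hcon l)
  have hWp : ∀ l, (0 : ℝ) < w l := fun l => by exact_mod_cast hw l
  have hWp' : ∀ l, (0 : ℝ) < w' l := fun l => by exact_mod_cast hw' l
  have hc : ∀ l, |(c l : ℝ) - c' l| ≤ (w l : ℝ) + w' l := fun l => by
    have := hcon' l
    exact_mod_cast this
  let x : Fin 3 → ℝ := fun l => (c l : ℝ) + ((c' l : ℝ) - c l) * ((w l : ℝ) / ((w l : ℝ) + w' l))
  have hx1 : x ∈ box c w := by
    intro l
    have hs : (0 : ℝ) < (w l : ℝ) + w' l := add_pos (hWp l) (hWp' l)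
    simp only [x, add_sub_cancel_left]
    rw [abs_mul, abs_div, abs_of_pos hs, abs_of_pos (hWp l), abs_sub_comm]
    rw [← mul_div_assoc, div_le_iff₀ hs]
    have := hc l
    have h := hWp l
    nlinarith
  have hx2 : x ∈ box c' w' := by
    intro l
    have hs : (0 : ℝ) < (w l : ℝ) + w' l := add_pos (hWp l) (hWp' l)
    have e : x l - (c' l : ℝ) = ((c l : ℝ) - c' l) * ((w' l : ℝ) / ((w l : ℝ) + w' l)) := by
      simp only [x]
      field_simp
      ring
    rw [e, abs_mul, abs_div, abs_of_pos hs, abs_of_pos (hWp' l)]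
    rw [← mul_div_assoc, div_le_iff₀ hs]
    have := hc l
    have h := hWp' l
    nlinarith
  exact Set.disjoint_left.mp hd hx1 hx2

/-- A positive lower bound for finitely many positive quantities. -/
lemma exists_gap {ι : Type} [Fintype ι] (P : ι → ℚ → Prop)
    (hmono : ∀ i g g', P i g → g' ≤ g → P i g') (h : ∀ i, ∃ g, 0 < g ∧ P i g) :
    ∃ g, 0 < g ∧ ∀ i, P i g := by
  choose f hf hP using h
  by_cases hne : Nonempty ι
  · obtain ⟨i₀, _, hmin⟩ := Finset.exists_min_image Finset.univ f ⟨hne.some, Finset.mem_univ _⟩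
    exact ⟨f i₀, hf i₀, fun i => hmono i _ _ (hP i) (hmin i (Finset.mem_univ i))⟩
  · exact ⟨1, one_pos, fun i => (hne ⟨i⟩).elim⟩

lemma exists_sep_gap {n : ℕ} (c w : Fin n → Fin 3 → ℚ) (hw : ∀ i l, 0 < w i l)
    (hd : Pairwise fun i i' => Disjoint (box (c i) (w i)) (box (c i') (w i'))) :
    ∃ g, 0 < g ∧ ∀ i i', i ≠ i' → ∃ l, w i l + w i' l + g ≤ |c i l - c i' l| := by
  obtain ⟨g, hg, hP⟩ := exists_gap (ι := Fin n × Fin n)
    (fun p g => p.1 ≠ p.2 → ∃ l, w p.1 l + w p.2 l + g ≤ |c p.1 l - c p.2 l|)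
    (fun p g g' h hgg hne => by
      obtain ⟨l, hl⟩ := h hne
      exact ⟨l, by linarith⟩)
    (fun p => by
      by_cases hne : p.1 = p.2
      · exact ⟨1, one_pos, fun h => (h hne).elim⟩
      · obtain ⟨l, hl⟩ := sep_of_disjoint (hw p.1) (hw p.2) (hd hne)
        exact ⟨|c p.1 l - c p.2 l| - (w p.1 l + w p.2 l), by linarith, fun _ => ⟨l, by linarith⟩⟩)
  exact ⟨g, hg, fun i i' hne => hP (i, i') hne⟩

/-- The plan. -/
theorem exists_moves (n : ℕ) (a b h k : Fin n → Fin 3 → ℚ)
    (hh : ∀ i j, 0 < h i j) (hk : ∀ i j, 0 < k i j)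
    (ha : Pairwise fun i i' => Disjoint (box (a i) (h i)) (box (a i') (h i')))
    (hb : Pairwise fun i i' => Disjoint (box (b i) (k i)) (box (b i') (k i')))
    (hvol : ∀ i, ∏ j : Fin 3, k i j / h i j = 1) :
    ∃ (M : List Mv) (η : ℚ), 0 < η ∧ ∀ i, ∀ x ∈ OB (a i) (fun l => h i l + η),
      Good M x ∧ run M x = fun j => (b i j : ℝ) + ((k i j / h i j : ℚ) : ℝ) * (x j - (a i j : ℝ)) := by
  obtain ⟨g₁, hg₁, hsep₁⟩ := exists_sep_gap a h hh ha
  obtain ⟨g₂, hg₂, hsep₂⟩ := exists_sep_gap b k hk hb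
  -- margins
  let g : ℚ := min g₁ g₂
  have hg : 0 < g := lt_min hg₁ hg₂
  have hgle₁ : g ≤ g₁ := min_le_left _ _
  have hgle₂ : g ≤ g₂ := min_le_right _ _
  let lam : Fin n → Fin 3 → ℚ := fun i l => k i l / h i l
  have hlam : ∀ i l, 0 < lam i l := fun i l => div_pos (hk i l) (hh i l)
  let lamS : ℚ := (∑ i, ∑ l, lam i l) + 1
  have hlamS : 0 < lamS := by
    have : 0 ≤ ∑ i, ∑ l, lam i l :=
      Finset.sum_nonneg fun i _ => Finset.sum_nonneg fun l _ => (hlam i l).le
    simp only [lamS]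
    linarith
  have hlamle : ∀ i l, lam i l ≤ lamS := by
    intro i l
    have h1 : lam i l ≤ ∑ l, lam i l :=
      Finset.single_le_sum (f := fun l => lam i l) (fun l _ => (hlam i l).le) (Finset.mem_univ l)
    have h2 : ∑ l, lam i l ≤ ∑ i, ∑ l, lam i l :=
      Finset.single_le_sum (f := fun i => ∑ l, lam i l)
        (fun i _ => Finset.sum_nonneg fun l _ => (hlam i l).le) (Finset.mem_univ i)
    simp only [lamS]
    linarith
  let ηt : ℚ := g / 4
  have hηt : 0 < ηt := by positivity
  let η : ℚ := min (g / 4) (ηt / lamS)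
  have hη : 0 < η := lt_min (by positivity) (div_pos hηt hlamS)
  have hηle : η ≤ g / 4 := min_le_left _ _
  have hlamη : ∀ i l, lam i l * η ≤ ηt := by
    intro i l
    have h1 : η ≤ ηt / lamS := min_le_right _ _
    have h2 : lamS * η ≤ ηt := by
      have := mul_le_mul_of_nonneg_left h1 hlamS.le
      rwa [mul_div_cancel₀ _ hlamS.ne'] at this
    have h3 : lam i l * η ≤ lamS * η := mul_le_mul_of_nonneg_right (hlamle i l) hη.le
    linarith
  obtain ⟨N, hN⟩ := exists_nat_one_div_lt (show (0 : ℚ) < g / 2 by positivity)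
  set e : ℚ := 1 / ((N : ℚ) + 1) with he
  have he0 : 0 < e := by positivity
  have he1 : e ≤ 1 := by
    rw [he, div_le_one (by positivity)]
    have : (0 : ℚ) ≤ N := by positivity
    linarith
  -- families
  let ws : Fin n → Fin 3 → ℚ := fun i l => h i l + η
  let wt : Fin n → Fin 3 → ℚ := fun i l => k i l + ηt
  have hws : ∀ i l, 0 < ws i l := fun i l => add_pos (hh i l) hη
  have hwt : ∀ i l, 0 < wt i l := fun i l => add_pos (hk i l) hηt
  -- the large constants
  let M₀ : ℚ := (∑ i, ∑ l, (|a i l| + |b i l| + ws i l + wt i l)) + 1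
  have hsumnn : ∀ i l, 0 ≤ |a i l| + |b i l| + ws i l + wt i l := fun i l => by
    have := hws i l; have := hwt i l
    positivity
  have hM₀ : ∀ i l, |a i l| + |b i l| + ws i l + wt i l ≤ M₀ - 1 := by
    intro i l
    have h1 : |a i l| + |b i l| + ws i l + wt i l ≤ ∑ l, (|a i l| + |b i l| + ws i l + wt i l) :=
      Finset.single_le_sum (f := fun l => |a i l| + |b i l| + ws i l + wt i l)
        (fun l _ => hsumnn i l) (Finset.mem_univ l)
    have h2 : ∑ l, (|a i l| + |b i l| + ws i l + wt i l) ≤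
        ∑ i, ∑ l, (|a i l| + |b i l| + ws i l + wt i l) :=
      Finset.single_le_sum (f := fun i => ∑ l, (|a i l| + |b i l| + ws i l + wt i l))
        (fun i _ => Finset.sum_nonneg fun l _ => hsumnn i l) (Finset.mem_univ i)
    simp only [M₀]
    linarith
  have hM₀pos : 1 ≤ M₀ := by
    have : 0 ≤ ∑ i, ∑ l, (|a i l| + |b i l| + ws i l + wt i l) :=
      Finset.sum_nonneg fun i _ => Finset.sum_nonneg fun l _ => hsumnn i l
    simp only [M₀]
    linarith
  -- individual bounds
  have haa : ∀ i l, |a i l| ≤ M₀ - 1 := fun i l => by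
    have := hM₀ i l; have := hws i l; have := hwt i l; have := abs_nonneg (b i l); linarith
  have hbb : ∀ i l, |b i l| ≤ M₀ - 1 := fun i l => by
    have := hM₀ i l; have := hws i l; have := hwt i l; have := abs_nonneg (a i l); linarith
  have hwsM : ∀ i l, ws i l ≤ M₀ - 1 := fun i l => by
    have := hM₀ i l; have := hwt i l; have := abs_nonneg (a i l); have := abs_nonneg (b i l); linarith
  have hwtM : ∀ i l, wt i l ≤ M₀ - 1 := fun i l => by
    have := hM₀ i l; have := hws i l; have := abs_nonneg (a i l); have := abs_nonneg (b i l); linarith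
  have hRbnn : ∀ i, 0 ≤ Rb (ws i) (lam i) := by
    intro i
    have h0 := hlam i 0
    have h1 := hlam i 1
    have h2 := hws i 0
    have h3 := hws i 1
    have h4 := hws i 2
    simp only [Rb]
    positivity
  let R : ℚ := (∑ i, Rb (ws i) (lam i)) + M₀ + 1
  have hRsum : 0 ≤ ∑ i, Rb (ws i) (lam i) := Finset.sum_nonneg fun i _ => hRbnn i
  have hRpos : 0 < R := by
    simp only [R]
    linarith
  have hRb : ∀ i, Rb (ws i) (lam i) ≤ R := by
    intro i
    have h1 : Rb (ws i) (lam i) ≤ ∑ i, Rb (ws i) (lam i) :=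
      Finset.single_le_sum (f := fun i => Rb (ws i) (lam i)) (fun i _ => hRbnn i) (Finset.mem_univ i)
    simp only [R]
    linarith
  have hRM : M₀ ≤ R := by
    simp only [R]
    linarith
  let Wd : ℚ := 2 * R + 2 * M₀ + 2
  let Z : Fin n → ℚ := fun i => 3 * M₀ + 1 + (i : ℕ) * Wd
  let Y : ℚ := 3 * M₀ + 1
  have hWd : 0 < Wd := by
    simp only [Wd]
    linarith
  have hZge : ∀ i : Fin n, 3 * M₀ + 1 ≤ Z i := by
    intro i
    have : (0 : ℚ) ≤ (i : ℕ) * Wd := by positivity
    simp only [Z]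
    linarith
  have hZsep : ∀ i i' : Fin n, i ≠ i' → Z i' + Wd ≤ Z i ∨ Z i + Wd ≤ Z i' := by
    intro i i' hne
    have hne' : (i : ℕ) ≠ i' := fun h => hne (Fin.ext h)
    rcases lt_or_gt_of_ne hne' with hlt | hlt
    · right
      have : ((i : ℕ) : ℚ) + 1 ≤ (i' : ℕ) := by exact_mod_cast hlt
      have h2 : (((i : ℕ) : ℚ) + 1) * Wd ≤ (i' : ℕ) * Wd := mul_le_mul_of_nonneg_right this hWd.le
      simp only [Z]
      linarith
    · left
      have : ((i' : ℕ) : ℚ) + 1 ≤ (i : ℕ) := by exact_mod_cast hlt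
      have h2 : (((i' : ℕ) : ℚ) + 1) * Wd ≤ (i : ℕ) * Wd := mul_le_mul_of_nonneg_right this hWd.le
      simp only [Z]
      linarith
  -- the parking hypotheses
  have habs_up : ∀ {q : ℚ} {B : ℚ}, |q| ≤ B → q ≤ B := fun hq => (le_abs_self _).trans hq
  have Hs : ParkHyp a ws Z Y e := by
    refine ⟨hws, he0, ?_, ?_, ?_, ?_⟩
    · intro i i' hne
      obtain ⟨l, hl⟩ := hsep₁ i i' hne
      refine ⟨l, ?_⟩
      simp only [ws]
      linarith
    · intro i i'
      have h1 := habs_up (haa i' 0)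
      have h2 := hwsM i' 0
      have h3 := hwsM i 0
      have h4 := hZge i
      linarith
    · intro i i' hne
      have h1 := hwsM i' 0
      have h2 := hwsM i 0
      have h3 : 0 < R := hRpos
      rcases hZsep i i' hne with h4 | h4
      · left
        simp only [Wd] at h4
        linarith
      · right
        simp only [Wd] at h4
        linarith
    · intro i i'
      have h1 := habs_up (haa i 1)
      have h2 := hwsM i 1
      have h3 := hwsM i' 1
      simp only [Y]
      linarith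
  have Ht : ParkHyp b wt Z Y e := by
    refine ⟨hwt, he0, ?_, ?_, ?_, ?_⟩
    · intro i i' hne
      obtain ⟨l, hl⟩ := hsep₂ i i' hne
      refine ⟨l, ?_⟩
      simp only [wt, ηt]
      linarith
    · intro i i'
      have h1 := habs_up (hbb i' 0)
      have h2 := hwtM i' 0
      have h3 := hwtM i 0
      have h4 := hZge i
      linarith
    · intro i i' hne
      have h1 := hwtM i' 0
      have h2 := hwtM i 0
      have h3 : 0 < R := hRpos
      rcases hZsep i i' hne with h4 | h4
      · left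
        simp only [Wd] at h4
        linarith
      · right
        simp only [Wd] at h4
        linarith
    · intro i i'
      have h1 := habs_up (hbb i 1)
      have h2 := hwtM i 1
      have h3 := hwtM i' 1
      simp only [Y]
      linarith
  -- the three stages
  obtain ⟨q₁, hq₁, -⟩ := parking (Y2 := 0) Hs Finset.univ
  obtain ⟨q₃, hq₃, -⟩ := parking (Y2 := 0) Ht Finset.univ
  let C : Fin n → Fin 3 → ℚ := slot Z Y 0
  have hlw : ∀ i l, lam i l * ws i l ≤ wt i l := by
    intro i l
    have h1 : lam i l * h i l = k i l := div_mul_cancel₀ _ (hh i l).ne'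
    have h2 := hlamη i l
    simp only [ws, wt, mul_add, h1]
    linarith
  obtain ⟨q₂, hq₂, -⟩ := middle C ws lam R N hRpos hws hlam
    (fun i => by
      have := hvol i
      rwa [Fin.prod_univ_three] at this) hRb
    (fun i l => by
      have h1 := hlw i l
      have h2 := hwtM i l
      linarith)
    (fun i l => by
      have h2 := hwsM i l
      linarith)
    (fun i i' hne => by
      have e1 : C i' 0 = Z i' := rfl
      have e2 : C i 0 = Z i := rfl
      rw [e1, e2]
      rcases hZsep i i' hne with h4 | h4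
      · left
        simp only [Wd] at h4
        linarith
      · right
        simp only [Wd] at h4
        linarith) Finset.univ
  refine ⟨q₁ ++ q₂ ++ rev q₃, η, hη, fun i x hx => ?_⟩
  -- run the three stages on `x`
  obtain ⟨g1, r1⟩ := hq₁ i (Finset.mem_univ i) x hx
  set x₁ : Fin 3 → ℝ := fun k => x k + ((slot Z Y 0 i k : ℝ) - a i k) with hx₁
  have hx₁mem : x₁ ∈ OB (C i) (ws i) := by
    intro l
    have := hx l
    simp only [hx₁, C]
    convert this using 2
    ring
  obtain ⟨g2, r2⟩ := hq₂ i (Finset.mem_univ i) x₁ hx₁mem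
  set x₂ : Fin 3 → ℝ := fun k => (C i k : ℝ) + (lam i k : ℝ) * (x₁ k - C i k) with hx₂
  let z : Fin 3 → ℝ := fun j => (b i j : ℝ) + (lam i j : ℝ) * (x j - (a i j : ℝ))
  have hzmem : z ∈ OB (b i) (wt i) := by
    intro l
    simp only [z, add_sub_cancel_left]
    have h1 : (0 : ℝ) < lam i l := by exact_mod_cast hlam i l
    rw [abs_mul, abs_of_pos h1]
    have h2 : ((lam i l * ws i l : ℚ) : ℝ) ≤ wt i l := by exact_mod_cast hlw i l
    push_cast at h2
    have h3 := hx l
    have h4 : (lam i l : ℝ) * |x l - (a i l : ℝ)| < (lam i l : ℝ) * ((h i l + η : ℚ) : ℝ) :=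
      mul_lt_mul_of_pos_left h3 h1
    have h5 : ((ws i l : ℚ) : ℝ) = ((h i l + η : ℚ) : ℝ) := rfl
    rw [h5] at h2
    linarith
  obtain ⟨g3, r3⟩ := hq₃ i (Finset.mem_univ i) z hzmem
  have hx₂z : run q₃ z = x₂ := by
    rw [r3]
    funext l
    simp only [hx₂, hx₁, z, C]
    ring
  have hrev := rev_spec q₃ z g3
  rw [hx₂z] at hrev
  rw [good_append, good_append, run_append, run_append, run_append, r1, r2]
  exact ⟨⟨⟨g1, g2⟩, hrev.1⟩, hrev.2⟩

end Crest.Agent.H4Main
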