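import Crest.Agent.H4Field

/-! Plans of moves: running lists of moves, reversal, translations of boxes and parking. -/

set_option autoImplicit false

namespace Crest.Agent.H4Plan

open Crest.Agent.H4Field

/-- Open boxes. -/
def OB (c w : Fin 3 → ℚ) : Set (Fin 3 → ℝ) := {x | ∀ l, |x l - (c l : ℝ)| < w l}

lemma isOpen_OB (c w : Fin 3 → ℚ) : IsOpen (OB c w) := by
  have : OB c w = ⋂ l, {x : Fin 3 → ℝ | |x l - (c l : ℝ)| < w l} := by
    ext x; simp [OB]
  rw [this]
  refine isOpen_iInter_of_finite fun l => ?_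
  exact isOpen_lt (by fun_prop) continuous_const

lemma mem_OB_iff {c w : Fin 3 → ℚ} {x : Fin 3 → ℝ} : x ∈ OB c w ↔ ∀ l, |x l - (c l : ℝ)| < w l :=
  Iff.rfl

lemma OB_lt {c w : Fin 3 → ℚ} {x : Fin 3 → ℝ} (hx : x ∈ OB c w) (l : Fin 3) : x l < c l + w l := by
  have := (abs_lt.mp (hx l)).2
  linarith

lemma lt_OB {c w : Fin 3 → ℚ} {x : Fin 3 → ℝ} (hx : x ∈ OB c w) (l : Fin 3) : (c l : ℝ) - w l < x l := by
  have := (abs_lt.mp (hx l)).1
  linarith

/-! ### Lists of moves -/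

@[simp] lemma run_nil (x : Fin 3 → ℝ) : run [] x = x := rfl
@[simp] lemma good_nil (x : Fin 3 → ℝ) : Good [] x := trivial

lemma run_cons (m : Mv) (p : List Mv) (x : Fin 3 → ℝ) : run (m :: p) x = run p (x + m.V x) := rfl

lemma good_cons (m : Mv) (p : List Mv) (x : Fin 3 → ℝ) :
    Good (m :: p) x ↔ m.StepOK x ∧ Good p (x + m.V x) := Iff.rfl

lemma run_append (p q : List Mv) (x : Fin 3 → ℝ) : run (p ++ q) x = run q (run p x) := by
  induction p generalizing x with
  | nil => rfl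
  | cons m p ih => exact ih _

lemma good_append (p q : List Mv) (x : Fin 3 → ℝ) :
    Good (p ++ q) x ↔ Good p x ∧ Good q (run p x) := by
  induction p generalizing x with
  | nil => simp
  | cons m p ih =>
    simp only [List.cons_append, good_cons, run_cons, ih, and_assoc]

lemma add_V_of_out {m : Mv} (hwf : m.WF) {x : Fin 3 → ℝ} (hx : m.Out x) : x + m.V x = x := by
  rw [Mv.V_of_out hwf hx, add_zero]

/-- Passing a move which does not touch the point. -/
lemma good_cons_out {m : Mv} {p : List Mv} {x : Fin 3 → ℝ} (hwf : m.WF) (hx : m.Out x)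
    (h : Good p x ∧ run p x = x) : Good (m :: p) x ∧ run (m :: p) x = x := by
  rw [good_cons, run_cons, add_V_of_out hwf hx]
  exact ⟨⟨Mv.stepOK_of_out hwf hx, h.1⟩, h.2⟩

/-- Passing a move which acts on the point as a shear. -/
lemma good_cons_pl {m : Mv} {p : List Mv} {x y : Fin 3 → ℝ} (hij : m.i ≠ m.j) (hx : m.Pl x)
    (hx' : m.Pl (m.shear x)) (h : Good p (m.shear x) ∧ run p (m.shear x) = y) :
    Good (m :: p) x ∧ run (m :: p) x = y := by
  rw [good_cons, run_cons, Mv.add_V_of_pl hij hx]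
  exact ⟨⟨Mv.stepOK_of_pl hij hx hx', h.1⟩, h.2⟩

/-! ### Reversal -/

/-- The reversed move. -/
def _root_.Crest.Agent.H4Field.Mv.neg (m : Mv) : Mv :=
  ⟨m.i, m.j, -m.c, -m.d, m.lo, m.hi, m.N⟩

lemma _root_.Crest.Agent.H4Field.Mv.neg_χ (m : Mv) : m.neg.χ = m.χ := rfl

lemma _root_.Crest.Agent.H4Field.Mv.neg_f_j (m : Mv) : m.neg.f m.j = fun x => -m.f m.j x := by
  funext x
  have h1 : m.neg.f m.j x = ((-m.c / 2 : ℚ) : ℝ) * (x * (x * m.χ m.j x)) +
      ((-m.d : ℚ) : ℝ) * (x * m.χ m.j x) := by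
    have : m.neg.j = m.j := rfl
    simp only [Mv.f, this, if_true, Mv.neg_χ]
    rfl
  have h2 : m.f m.j x = ((m.c / 2 : ℚ) : ℝ) * (x * (x * m.χ m.j x)) +
      ((m.d : ℚ) : ℝ) * (x * m.χ m.j x) := by
    simp only [Mv.f, if_true]
  rw [h1, h2]
  push_cast
  ring

lemma _root_.Crest.Agent.H4Field.Mv.neg_f_other (m : Mv) {l : Fin 3} (h : l ≠ m.j) : m.neg.f l = m.f l := by
  have e : m.neg.j = m.j := rfl
  simp only [Mv.f, e, if_neg h, Mv.neg_χ]

lemma _root_.Crest.Agent.H4Field.Mv.neg_P (m : Mv) (sel : Fin 3) (x : Fin 3 → ℝ) : m.neg.P sel x = -m.P sel x := by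
  unfold Mv.P
  rw [← Finset.mul_prod_erase Finset.univ _ (Finset.mem_univ m.j),
    ← Finset.mul_prod_erase Finset.univ (fun l => m.pf sel l (x l)) (Finset.mem_univ m.j), ← neg_mul]
  congr 1
  · simp only [Mv.pf]
    split_ifs
    · rw [Mv.neg_f_j]
      have : deriv (fun y => -m.f m.j y) (x m.j) = -deriv (m.f m.j) (x m.j) := deriv.fun_neg
      exact this
    · rw [Mv.neg_f_j]
  · refine Finset.prod_congr rfl fun l hl => ?_
    have hl' : l ≠ m.j := (Finset.mem_erase.mp hl).1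
    simp only [Mv.pf, Mv.neg_f_other m hl']

lemma _root_.Crest.Agent.H4Field.Mv.neg_V (m : Mv) (x : Fin 3 → ℝ) : m.neg.V x = -m.V x := by
  funext k
  have e1 : m.neg.i = m.i := rfl
  have e2 : m.neg.j = m.j := rfl
  simp only [Mv.V, e1, e2, Mv.neg_P, Pi.neg_apply]
  split_ifs <;> ring

/-- The reversed list. -/
def rev (p : List Mv) : List Mv := (p.map Mv.neg).reverse

lemma rev_cons (m : Mv) (p : List Mv) : rev (m :: p) = rev p ++ [m.neg] := by
  simp [rev]

/-- Reversal undoes a good run. -/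
theorem rev_spec (p : List Mv) (x : Fin 3 → ℝ) (h : Good p x) :
    Good (rev p) (run p x) ∧ run (rev p) (run p x) = x := by
  induction p generalizing x with
  | nil => exact ⟨trivial, rfl⟩
  | cons m p ih =>
    obtain ⟨hs, hg⟩ := h
    obtain ⟨ih1, ih2⟩ := ih _ hg
    rw [run_cons, rev_cons, good_append, run_append, ih2]
    set y := x + m.V x with hy
    have hv1 : m.V y = m.V x := by
      have := hs 1 ⟨by norm_num, le_rfl⟩
      rwa [one_smul] at this
    have hvy : m.neg.V y = -m.V x := by rw [Mv.neg_V, hv1]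
    refine ⟨⟨ih1, ?_, trivial⟩, ?_⟩
    · intro s hs'
      rw [hvy, Mv.neg_V]
      have e : y + s • (-m.V x) = x + (1 - s) • m.V x := by
        rw [hy]
        funext k
        simp only [Pi.add_apply, Pi.smul_apply, Pi.neg_apply, smul_eq_mul]
        ring
      rw [e, hs (1 - s) ⟨by linarith [hs'.2], by linarith [hs'.1]⟩]
    · rw [run_cons, run_nil, hvy, hy]
      funext k
      simp

/-! ### Out-of-plateau criteria -/

lemma out_left {m : Mv} {c' w' : Fin 3 → ℚ} {l : Fin 3} (h : c' l + w' l + m.e ≤ m.lo l)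
    {x : Fin 3 → ℝ} (hx : x ∈ OB c' w') : m.Out x := by
  refine ⟨l, Or.inl ?_⟩
  have h1 : ((c' l + w' l + m.e : ℚ) : ℝ) ≤ (m.lo l : ℝ) := by exact_mod_cast h
  push_cast at h1
  have h2 := OB_lt hx l
  linarith

lemma out_right {m : Mv} {c' w' : Fin 3 → ℚ} {l : Fin 3} (h : m.hi l + m.e ≤ c' l - w' l)
    {x : Fin 3 → ℝ} (hx : x ∈ OB c' w') : m.Out x := by
  refine ⟨l, Or.inr ?_⟩
  have h1 : ((m.hi l + m.e : ℚ) : ℝ) ≤ ((c' l - w' l : ℚ) : ℝ) := by exact_mod_cast h
  push_cast at h1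
  have h2 := lt_OB hx l
  linarith

/-! ### Translations -/

/-- A translation of the box `(c, w)` along `i` by `D`. -/
def trans (c w : Fin 3 → ℚ) (i j : Fin 3) (D : ℚ) (N : ℕ) : Mv :=
  ⟨i, j, 0, D,
    fun l => if l = i then c l - w l + min D 0 else c l - w l,
    fun l => if l = i then c l + w l + max D 0 else c l + w l, N⟩

/-- The translated point. -/
noncomputable def tr (i : Fin 3) (D : ℚ) (x : Fin 3 → ℝ) : Fin 3 → ℝ :=
  fun k => if k = i then x k + D else x k

lemma trans_wf {c w : Fin 3 → ℚ} (hw : ∀ l, 0 < w l) (i j : Fin 3) (D : ℚ) (N : ℕ) :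
    (trans c w i j D N).WF := by
  intro l
  have := hw l
  simp only [trans]
  split_ifs
  · have h1 := min_le_right D 0
    have h2 := le_max_right D 0
    linarith
  · linarith

lemma trans_shear (c w : Fin 3 → ℚ) (i j : Fin 3) (D : ℚ) (N : ℕ) (x : Fin 3 → ℝ) :
    (trans c w i j D N).shear x = tr i D x := by
  funext k
  simp [Mv.shear, trans, tr]

lemma trans_pl {c w : Fin 3 → ℚ} {x : Fin 3 → ℝ} (hx : x ∈ OB c w) (i j : Fin 3) (D : ℚ) (N : ℕ) :
    (trans c w i j D N).Pl x := by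
  intro l
  have h1 := lt_OB hx l
  have h2 := OB_lt hx l
  have h3 : ((min D 0 : ℚ) : ℝ) ≤ 0 := by exact_mod_cast min_le_right D 0
  have h4 : (0 : ℝ) ≤ ((max D 0 : ℚ) : ℝ) := by exact_mod_cast le_max_right D 0
  simp only [trans]
  split_ifs
  · push_cast
    constructor
    · have : ((min D 0 : ℚ) : ℝ) = min (D : ℝ) 0 := by push_cast; rfl
      linarith
    · have : ((max D 0 : ℚ) : ℝ) = max (D : ℝ) 0 := by push_cast; rfl
      linarith
  · push_cast
    exact ⟨h1, h2⟩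

lemma trans_pl' {c w : Fin 3 → ℚ} {x : Fin 3 → ℝ} (hx : x ∈ OB c w) (i j : Fin 3) (D : ℚ) (N : ℕ) :
    (trans c w i j D N).Pl (tr i D x) := by
  intro l
  have h1 := lt_OB hx l
  have h2 := OB_lt hx l
  have h3 : ((min D 0 : ℚ) : ℝ) ≤ D := by exact_mod_cast min_le_left D 0
  have h4 : (D : ℝ) ≤ ((max D 0 : ℚ) : ℝ) := by exact_mod_cast le_max_left D 0
  simp only [trans, tr]
  split_ifs
  · push_cast
    constructor
    · have : ((min D 0 : ℚ) : ℝ) = min (D : ℝ) 0 := by push_cast; rfl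
      linarith
    · have : ((max D 0 : ℚ) : ℝ) = max (D : ℝ) 0 := by push_cast; rfl
      linarith
  · push_cast
    exact ⟨h1, h2⟩

lemma tr_mem {c c' w : Fin 3 → ℚ} {x : Fin 3 → ℝ} (hx : x ∈ OB c w) (i : Fin 3) (D : ℚ)
    (hc : ∀ k, c' k = if k = i then c k + D else c k) : tr i D x ∈ OB c' w := by
  intro l
  have := hx l
  simp only [tr, hc]
  split_ifs
  · push_cast
    convert this using 2
    ring
  · exact this

/-- Passing a translation. -/
lemma good_cons_trans {c w : Fin 3 → ℚ} {x y : Fin 3 → ℝ} {p : List Mv} (hx : x ∈ OB c w)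
    {i j : Fin 3} (hij : i ≠ j) (D : ℚ) (N : ℕ) (h : Good p (tr i D x) ∧ run p (tr i D x) = y) :
    Good (trans c w i j D N :: p) x ∧ run (trans c w i j D N :: p) x = y := by
  refine good_cons_pl (m := trans c w i j D N) hij (trans_pl hx i j D N) ?_ ?_
  · rw [trans_shear]
    exact trans_pl' hx i j D N
  · rw [trans_shear]
    exact h

/-! ### Parking -/

section Parking

variable {n : ℕ}

/-- The parking slot. -/
def slot (Z : Fin n → ℚ) (Y Y2 : ℚ) (b : Fin n) : Fin 3 → ℚ :=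
  fun k => if k = 0 then Z b else if k = 1 then Y else Y2

/-- Position after the first translation. -/
def c1 (c : Fin n → Fin 3 → ℚ) (Z : Fin n → ℚ) (b : Fin n) : Fin 3 → ℚ :=
  fun k => if k = 0 then Z b else c b k

/-- Position after the second translation. -/
def c2 (c : Fin n → Fin 3 → ℚ) (Z : Fin n → ℚ) (Y : ℚ) (b : Fin n) : Fin 3 → ℚ :=
  fun k => if k = 0 then Z b else if k = 1 then Y else c b k

/-- The three moves. -/
def park3 (c w : Fin n → Fin 3 → ℚ) (Z : Fin n → ℚ) (Y Y2 : ℚ) (N : ℕ) (b : Fin n) : List Mv :=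
  [trans (c b) (w b) 0 1 (Z b - c b 0) N,
   trans (c1 c Z b) (w b) 1 0 (Y - c b 1) N,
   trans (c2 c Z Y b) (w b) 2 0 (Y2 - c b 2) N]

/-- Hypotheses for parking. -/
structure ParkHyp (c w : Fin n → Fin 3 → ℚ) (Z : Fin n → ℚ) (Y : ℚ) (e : ℚ) : Prop where
  hw : ∀ b l, 0 < w b l
  he : 0 < e
  hsep : ∀ b b', b ≠ b' → ∃ l, w b l + w b' l + e ≤ |c b l - c b' l|
  hP2 : ∀ b b', c b' 0 + w b' 0 + e ≤ Z b - w b 0
  hP3 : ∀ b b', b ≠ b' → Z b' + w b' 0 + e ≤ Z b - w b 0 ∨ Z b + w b 0 + e ≤ Z b' - w b' 0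
  hP4 : ∀ b b', c b 1 + w b 1 + e ≤ Y - w b' 1

variable {c w : Fin n → Fin 3 → ℚ} {Z : Fin n → ℚ} {Y Y2 : ℚ} {N : ℕ}

lemma trans_e (c w : Fin 3 → ℚ) (i j : Fin 3) (D : ℚ) (N : ℕ) :
    (trans c w i j D N).e = 1 / ((N : ℚ) + 1) := rfl

lemma D_pos (H : ParkHyp c w Z Y (1 / ((N : ℚ) + 1))) (b : Fin n) : 0 ≤ Z b - c b 0 := by
  have h1 := H.hP2 b b
  have h2 := H.hw b 0
  have h3 := H.he
  linarith

/-- The first move misses the remaining boxes. -/
lemma m1_out_rem (H : ParkHyp c w Z Y (1 / ((N : ℚ) + 1))) {b b' : Fin n} (hne : b ≠ b')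
    (hmax : c b' 0 - w b' 0 ≤ c b 0 - w b 0) {x : Fin 3 → ℝ} (hx : x ∈ OB (c b') (w b')) :
    (trans (c b) (w b) 0 1 (Z b - c b 0) N).Out x := by
  obtain ⟨l, hl⟩ := H.hsep b b' hne
  have hD := D_pos H b
  rcases le_abs.mp hl with h | h
  · refine out_left (l := l) ?_ hx
    rw [trans_e]
    by_cases hl0 : l = 0
    · subst hl0
      simp only [trans, if_true, min_eq_right hD]
      linarith [H.hw b 0]
    · simp only [trans, if_neg hl0]
      linarith [H.hw b l]
  · by_cases hl0 : l = 0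
    · subst hl0
      exfalso
      have h1 := H.hw b 0
      have h2 := H.he
      linarith
    · refine out_right (l := l) ?_ hx
      rw [trans_e]
      simp only [trans, if_neg hl0]
      linarith [H.hw b' l]

/-- The first move misses the parked boxes. -/
lemma m1_out_parked (H : ParkHyp c w Z Y (1 / ((N : ℚ) + 1))) (b b' : Fin n) {x : Fin 3 → ℝ}
    (hx : x ∈ OB (slot Z Y Y2 b') (w b')) :
    (trans (c b) (w b) 0 1 (Z b - c b 0) N).Out x := by
  refine out_right (l := 1) ?_ hx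
  rw [trans_e]
  have h := H.hP4 b b'
  have e1 : slot Z Y Y2 b' 1 = Y := rfl
  have e2 : (1 : Fin 3) ≠ 0 := by decide
  simp only [trans, if_neg e2, e1]
  linarith

/-- The later moves stay in the own slab. -/
lemma m23_out {c₀ w₀ : Fin 3 → ℚ} {i j : Fin 3} (hi : (0 : Fin 3) ≠ i) {D : ℚ} {c' w' : Fin 3 → ℚ}
    (h : c' 0 + w' 0 + 1 / ((N : ℚ) + 1) ≤ c₀ 0 - w₀ 0 ∨ c₀ 0 + w₀ 0 + 1 / ((N : ℚ) + 1) ≤ c' 0 - w' 0)
    {x : Fin 3 → ℝ} (hx : x ∈ OB c' w') : (trans c₀ w₀ i j D N).Out x := by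
  rcases h with h | h
  · refine out_left (l := 0) ?_ hx
    rw [trans_e]
    simpa only [trans, if_neg hi] using h
  · refine out_right (l := 0) ?_ hx
    rw [trans_e]
    simpa only [trans, if_neg hi] using h

lemma park3_out_of {b : Fin n} {x : Fin 3 → ℝ} {p : List Mv}
    (hw : ∀ l, 0 < w b l)
    (h1 : (trans (c b) (w b) 0 1 (Z b - c b 0) N).Out x)
    (h2 : (trans (c1 c Z b) (w b) 1 0 (Y - c b 1) N).Out x)
    (h3 : (trans (c2 c Z Y b) (w b) 2 0 (Y2 - c b 2) N).Out x)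
    (hp : Good p x ∧ run p x = x) :
    Good (park3 c w Z Y Y2 N b ++ p) x ∧ run (park3 c w Z Y Y2 N b ++ p) x = x := by
  simp only [park3, List.cons_append, List.nil_append]
  exact good_cons_out (trans_wf hw _ _ _ _) h1 (good_cons_out (trans_wf hw _ _ _ _) h2
    (good_cons_out (trans_wf hw _ _ _ _) h3 hp))

/-- The three moves carry the box to its slot. -/
lemma park3_self {b : Fin n} {x y : Fin 3 → ℝ} {p : List Mv} (hx : x ∈ OB (c b) (w b))
    (hy : y = fun k => x k + ((slot Z Y Y2 b k : ℝ) - c b k))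
    (hp : Good p y ∧ run p y = y) :
    Good (park3 c w Z Y Y2 N b ++ p) x ∧ run (park3 c w Z Y Y2 N b ++ p) x = y := by
  simp only [park3, List.cons_append, List.nil_append]
  have h01 : (0 : Fin 3) ≠ 1 := by decide
  have h02 : (2 : Fin 3) ≠ 0 := by decide
  have h12 : (1 : Fin 3) ≠ 0 := by decide
  have h21 : (2 : Fin 3) ≠ 1 := by decide
  have hx1 : tr 0 (Z b - c b 0) x ∈ OB (c1 c Z b) (w b) := by
    refine tr_mem hx 0 _ fun k => ?_
    simp only [c1]
    split_ifs with h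
    · subst h; ring
    · rfl
  have hx2 : tr 1 (Y - c b 1) (tr 0 (Z b - c b 0) x) ∈ OB (c2 c Z Y b) (w b) := by
    refine tr_mem hx1 1 _ fun k => ?_
    fin_cases k
    · simp [c1, c2]
    · simp [c1, c2]
    · simp [c1, c2]
  have hfin : tr 2 (Y2 - c b 2) (tr 1 (Y - c b 1) (tr 0 (Z b - c b 0) x)) = y := by
    rw [hy]
    funext k
    fin_cases k
    · simp [tr, slot]
    · simp [tr, slot]
    · simp [tr, slot]
  refine good_cons_trans hx h01 _ _ (good_cons_trans hx1 h12 _ _ (good_cons_trans hx2 h02 _ _ ?_))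
  rw [hfin]
  exact hp

/-- The parking lemma. -/
theorem parking (H : ParkHyp c w Z Y (1 / ((N : ℚ) + 1))) (S : Finset (Fin n)) :
    ∃ q : List Mv,
      (∀ b ∈ S, ∀ x ∈ OB (c b) (w b), Good q x ∧
        run q x = fun k => x k + ((slot Z Y Y2 b k : ℝ) - c b k)) ∧
      (∀ b, b ∉ S → ∀ x ∈ OB (slot Z Y Y2 b) (w b), Good q x ∧ run q x = x) := by
  induction S using Finset.induction_on_max_value (fun b => c b 0 - w b 0) with
  | empty =>
    exact ⟨[], by simp, fun b _ x _ => ⟨trivial, rfl⟩⟩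
  | insert b S hbS hmax ih =>
    obtain ⟨q, hq1, hq2⟩ := ih
    refine ⟨park3 c w Z Y Y2 N b ++ q, ?_, ?_⟩
    · intro b' hb' x hx
      rcases Finset.mem_insert.mp hb' with rfl | hb''
      · refine park3_self hx rfl ?_
        refine hq2 b' hbS _ ?_
        intro l
        have := hx l
        convert this using 2
        ring
      · have hne : b ≠ b' := fun h => hbS (h ▸ hb'')
        have hout1 := m1_out_rem H hne (hmax b' hb'') hx (N := N)
        have e0 : (1 : Fin 3) ≠ 0 := by decide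
        have e1 : (0 : Fin 3) ≠ 1 := by decide
        have e2 : (0 : Fin 3) ≠ 2 := by decide
        have hZ1 : (c1 c Z b) 0 = Z b := rfl
        have hZ2 : (c2 c Z Y b) 0 = Z b := rfl
        have hout2 : (trans (c1 c Z b) (w b) 1 0 (Y - c b 1) N).Out x :=
          m23_out e1 (Or.inl (by rw [hZ1]; exact H.hP2 b b')) hx
        have hout3 : (trans (c2 c Z Y b) (w b) 2 0 (Y2 - c b 2) N).Out x :=
          m23_out e2 (Or.inl (by rw [hZ2]; exact H.hP2 b b')) hx
        have hgood := hq1 b' hb'' x hx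
        have := park3_out_of (Y2 := Y2) (p := []) (x := x) (c := c) (w := w) (Z := Z) (Y := Y) (N := N) (b := b)
          (H.hw b) hout1 hout2 hout3 ⟨trivial, rfl⟩
        rw [List.append_nil] at this
        rw [good_append, run_append, this.2]
        exact ⟨⟨this.1, hgood.1⟩, hgood.2⟩
    · intro b' hb' x hx
      have hb'S : b' ∉ S := fun h => hb' (Finset.mem_insert_of_mem h)
      have hne : b ≠ b' := fun h => hb' (h ▸ Finset.mem_insert_self _ _)
      have hout1 := m1_out_parked (N := N) H b b' hx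
      have e1 : (0 : Fin 3) ≠ 1 := by decide
      have e2 : (0 : Fin 3) ≠ 2 := by decide
      have hZ1 : (c1 c Z b) 0 = Z b := rfl
      have hZ2 : (c2 c Z Y b) 0 = Z b := rfl
      have hZ3 : (slot Z Y Y2 b') 0 = Z b' := rfl
      have hout2 : (trans (c1 c Z b) (w b) 1 0 (Y - c b 1) N).Out x :=
        m23_out e1 (by rw [hZ1, hZ3]; exact H.hP3 b b' hne) hx
      have hout3 : (trans (c2 c Z Y b) (w b) 2 0 (Y2 - c b 2) N).Out x :=
        m23_out e2 (by rw [hZ2, hZ3]; exact H.hP3 b b' hne) hx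
      exact park3_out_of (H.hw b) hout1 hout2 hout3 (hq2 b' hb'S x hx)

end Parking

end Crest.Agent.H4Plan
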