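import Crest.Agent.H4Plan

/-! Rescaling a box by shears pivoted at its centre. -/

set_option autoImplicit false

namespace Crest.Agent.H4Scale

open Crest.Agent.H4Field Crest.Agent.H4Plan

/-- A shear pivoted at `C`, active in the cube around `C` of half-size `R`. -/
def shr (C : Fin 3 → ℚ) (R : ℚ) (i j : Fin 3) (a : ℚ) (N : ℕ) : Mv :=
  ⟨i, j, a, -a * C j, fun l => C l - R, fun l => C l + R, N⟩

variable {C : Fin 3 → ℚ} {R : ℚ} {i j : Fin 3} {a : ℚ} {N : ℕ}

lemma shr_wf (hR : 0 < R) : (shr C R i j a N).WF := by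
  intro l
  simp only [shr]
  linarith

lemma shr_pl {y : Fin 3 → ℝ} (h : ∀ l, |y l - (C l : ℝ)| < R) : (shr C R i j a N).Pl y := by
  intro l
  have := abs_lt.mp (h l)
  simp only [shr]
  push_cast
  constructor <;> linarith [this.1, this.2]

lemma shr_shear (y : Fin 3 → ℝ) :
    (shr C R i j a N).shear y = fun k => if k = i then y k + (a : ℝ) * (y j - C j) else y k := by
  funext k
  simp only [Mv.shear, shr]
  split_ifs
  · push_cast
    ring
  · rfl

lemma shr_out {C' w' : Fin 3 → ℚ}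
    (h : C' 0 + w' 0 + 1 / ((N : ℚ) + 1) ≤ C 0 - R ∨ C 0 + R + 1 / ((N : ℚ) + 1) ≤ C' 0 - w' 0)
    {x : Fin 3 → ℝ} (hx : x ∈ OB C' w') : (shr C R i j a N).Out x := by
  rcases h with h | h
  · exact out_left (l := 0) h hx
  · exact out_right (l := 0) h hx

/-- States of a motion in the plane `(i, j)`. -/
noncomputable def st (C : Fin 3 → ℚ) (i j : Fin 3) (x : Fin 3 → ℝ) (p q : ℝ) : Fin 3 → ℝ :=
  fun k => if k = i then (C i : ℝ) + p else if k = j then (C j : ℝ) + q else x k

lemma st_i (x : Fin 3 → ℝ) (p q : ℝ) : st C i j x p q i = (C i : ℝ) + p := by simp [st]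

lemma st_j (hij : i ≠ j) (x : Fin 3 → ℝ) (p q : ℝ) : st C i j x p q j = (C j : ℝ) + q := by
  simp [st, hij.symm]

lemma st_other {l : Fin 3} (hi : l ≠ i) (hj : l ≠ j) (x : Fin 3 → ℝ) (p q : ℝ) :
    st C i j x p q l = x l := by
  simp [st, hi, hj]

lemma shear_i (hij : i ≠ j) (x : Fin 3 → ℝ) (p q : ℝ) (a : ℚ) :
    (shr C R i j a N).shear (st C i j x p q) = st C i j x (p + (a : ℝ) * q) q := by
  rw [shr_shear]
  funext k
  by_cases hk : k = i
  · subst hk
    simp only [if_true, st_i, st_j hij]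
    ring
  · simp only [if_neg hk, st, if_neg hk]

lemma shear_j (hij : i ≠ j) (x : Fin 3 → ℝ) (p q : ℝ) (a : ℚ) :
    (shr C R j i a N).shear (st C i j x p q) = st C i j x p (q + (a : ℝ) * p) := by
  rw [shr_shear]
  funext k
  by_cases hk : k = j
  · subst hk
    simp only [if_true, st_i, st_j hij]
    ring
  · by_cases hk' : k = i
    · subst hk'
      simp only [if_neg hk, st_i]
    · simp only [if_neg hk, st, if_neg hk']

lemma st_pl {i' j' : Fin 3} {x : Fin 3 → ℝ} {p q : ℝ}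
    (hx : ∀ l, l ≠ i → l ≠ j → |x l - (C l : ℝ)| < R) (hp : |p| < R) (hq : |q| < R)
    (hij : i ≠ j) : (shr C R i' j' a N).Pl (st C i j x p q) := by
  refine shr_pl fun l => ?_
  by_cases hi : l = i
  · subst hi
    rw [st_i]
    simpa using hp
  · by_cases hj : l = j
    · subst hj
      rw [st_j hij]
      simpa using hq
    · rw [st_other hi hj]
      exact hx l hi hj

/-- The four shears realising a rescaling of the plane `(i, j)`. -/
def scale2 (C : Fin 3 → ℚ) (R : ℚ) (i j : Fin 3) (lam : ℚ) (N : ℕ) : List Mv :=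
  [shr C R j i (lam - 1) N, shr C R i j 1 N, shr C R j i (1 / lam - 1) N, shr C R i j (-lam) N]

theorem scale2_spec (hij : i ≠ j) {lam : ℚ} (hlam : 0 < lam) {x : Fin 3 → ℝ}
    (hx : ∀ l, l ≠ i → l ≠ j → |x l - (C l : ℝ)| < R) {p q A : ℝ} (hp : |p| ≤ A) (hq : |q| ≤ A)
    (hK : (2 + (lam : ℝ) + 1 / (lam : ℝ)) * A < R) :
    Good (scale2 C R i j lam N) (st C i j x p q) ∧
      run (scale2 C R i j lam N) (st C i j x p q) =
        st C i j x ((lam : ℝ) * p) (q / (lam : ℝ)) := by
  have hL : (0 : ℝ) < lam := by exact_mod_cast hlam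
  set L : ℝ := (lam : ℝ) with hLd
  have hA : 0 ≤ A := (abs_nonneg p).trans hp
  have hLA : 0 ≤ L * A := by positivity
  have hLi : 0 ≤ 1 / L * A := by positivity
  have h1 : |p| < R := by nlinarith [hp]
  have h2 : |q| < R := by nlinarith [hq]
  have hL1 : |L - 1| ≤ L + 1 := by
    rw [abs_le]
    constructor <;> linarith
  have h3 : |q + (L - 1) * p| < R := by
    have : |q + (L - 1) * p| ≤ |q| + |L - 1| * |p| := by
      refine (abs_add_le _ _).trans ?_
      rw [abs_mul]
    have h4 : |L - 1| * |p| ≤ (L + 1) * A :=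
      mul_le_mul hL1 hp (abs_nonneg _) (by positivity)
    nlinarith
  have h5 : |L * p + q| < R := by
    have : |L * p + q| ≤ L * |p| + |q| := by
      refine (abs_add_le _ _).trans ?_
      rw [abs_mul, abs_of_pos hL]
    have h4 : L * |p| ≤ L * A := mul_le_mul_of_nonneg_left hp hL.le
    nlinarith
  have h6 : |q / L| < R := by
    rw [abs_div, abs_of_pos hL]
    have h4 : |q| / L ≤ 1 / L * A := by
      rw [div_eq_mul_one_div, mul_comm]
      exact mul_le_mul_of_nonneg_left hq (by positivity)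
    nlinarith
  have h7 : |L * p| < R := by
    rw [abs_mul, abs_of_pos hL]
    have h4 : L * |p| ≤ L * A := mul_le_mul_of_nonneg_left hp hL.le
    nlinarith
  have e1 : ((lam - 1 : ℚ) : ℝ) = L - 1 := by push_cast; rfl
  have e2 : ((1 : ℚ) : ℝ) = 1 := by norm_num
  have e3 : ((1 / lam - 1 : ℚ) : ℝ) = 1 / L - 1 := by push_cast; rfl
  have e4 : ((-lam : ℚ) : ℝ) = -L := by push_cast; rfl
  have a1 : p + 1 * (q + (L - 1) * p) = L * p + q := by ring
  have a2 : q + (L - 1) * p + (1 / L - 1) * (L * p + q) = q / L := by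
    field_simp
    ring
  have a3 : L * p + q + -L * (q / L) = L * p := by
    field_simp
    ring
  have hji : j ≠ i := hij.symm
  unfold scale2
  refine good_cons_pl (m := shr C R j i (lam - 1) N) hji (st_pl hx h1 h2 hij) ?_ ?_
  · rw [shear_j hij, e1]
    exact st_pl hx h1 h3 hij
  rw [shear_j hij, e1]
  refine good_cons_pl (m := shr C R i j 1 N) hij (st_pl hx h1 h3 hij) ?_ ?_
  · rw [shear_i hij, e2, a1]
    exact st_pl hx h5 h3 hij
  rw [shear_i hij, e2, a1]
  refine good_cons_pl (m := shr C R j i (1 / lam - 1) N) hji (st_pl hx h5 h3 hij) ?_ ?_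
  · rw [shear_j hij, e3, a2]
    exact st_pl hx h5 h6 hij
  rw [shear_j hij, e3, a2]
  refine good_cons_pl (m := shr C R i j (-lam) N) hij (st_pl hx h5 h6 hij) ?_ ?_
  · rw [shear_i hij, e4, a3]
    exact st_pl hx h7 h6 hij
  rw [shear_i hij, e4, a3]
  exact ⟨trivial, rfl⟩

lemma st_self (hij : i ≠ j) (x : Fin 3 → ℝ) :
    st C i j x (x i - C i) (x j - C j) = x := by
  funext k
  by_cases hi : k = i
  · subst hi
    rw [st_i]
    ring
  · by_cases hj : k = j
    · subst hj
      rw [st_j hij]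
      ring
    · rw [st_other hi hj]

/-- Two rounds of four shears. -/
def scale3 (C : Fin 3 → ℚ) (R : ℚ) (lam : Fin 3 → ℚ) (N : ℕ) : List Mv :=
  scale2 C R 0 1 (lam 0) N ++ scale2 C R 1 2 (lam 0 * lam 1) N

/-- The size of the cube needed by a rescaling. -/
def Rb (w lam : Fin 3 → ℚ) : ℚ :=
  let W := w 0 + w 1 + w 2
  let l0 := lam 0
  let mu := lam 0 * lam 1
  (2 + l0 + 1 / l0) * W + (2 + mu + 1 / mu) * (W / l0 + W) + l0 * W + W + 1

theorem scale3_spec {w lam : Fin 3 → ℚ} (hw : ∀ l, 0 < w l) (hlam : ∀ l, 0 < lam l)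
    (hprod : lam 0 * lam 1 * lam 2 = 1) (hR : Rb w lam ≤ R) {x : Fin 3 → ℝ} (hx : x ∈ OB C w) :
    Good (scale3 C R lam N) x ∧
      run (scale3 C R lam N) x = fun k => (C k : ℝ) + (lam k : ℝ) * (x k - C k) := by
  have h01 : (0 : Fin 3) ≠ 1 := by decide
  have h12 : (1 : Fin 3) ≠ 2 := by decide
  have h02 : (0 : Fin 3) ≠ 2 := by decide
  have hR' : ((Rb w lam : ℚ) : ℝ) ≤ R := by exact_mod_cast hR
  have hw' : ∀ l, (0 : ℝ) < w l := fun l => by exact_mod_cast hw l
  have hl' : ∀ l, (0 : ℝ) < lam l := fun l => by exact_mod_cast hlam l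
  set W : ℝ := (w 0 : ℝ) + w 1 + w 2 with hW
  have hWpos : 0 < W := by
    have := hw' 0; have := hw' 1; have := hw' 2
    positivity
  have hmu : (0 : ℝ) < (lam 0 : ℝ) * lam 1 := mul_pos (hl' 0) (hl' 1)
  set T1 : ℝ := (2 + (lam 0 : ℝ) + 1 / (lam 0 : ℝ)) * W with hT1
  set T2 : ℝ := (2 + ((lam 0 * lam 1 : ℚ) : ℝ) + 1 / ((lam 0 * lam 1 : ℚ) : ℝ)) * (W / (lam 0 : ℝ) + W) with hT2
  have hl0 := hl' 0
  have hT1pos : 0 ≤ T1 := by positivity
  have hT2pos : 0 ≤ T2 := by
    have : (0 : ℝ) < ((lam 0 * lam 1 : ℚ) : ℝ) := by push_cast; exact hmu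
    positivity
  have hl0W : 0 ≤ (lam 0 : ℝ) * W := by positivity
  have hRb : T1 + T2 + (lam 0 : ℝ) * W + W + 1 ≤ R := by
    have : ((Rb w lam : ℚ) : ℝ) = T1 + T2 + (lam 0 : ℝ) * W + W + 1 := by
      simp only [Rb]
      push_cast
      simp only [hT1, hT2, hW]
      push_cast
      ring
    rw [← this]
    exact hR'
  -- coordinates of the point
  have hc : ∀ l, |x l - (C l : ℝ)| < w l := hx
  have hcW : ∀ l, |x l - (C l : ℝ)| < W := by
    intro l
    have h0 := hw' 0; have h1 := hw' 1; have h2 := hw' 2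
    refine (hc l).trans ?_
    fin_cases l
    · simp only [Fin.zero_eta]; linarith
    · simp only [Fin.mk_one]; linarith
    · simp only [Fin.reduceFinMk]; linarith
  -- first round
  have hfirst := scale2_spec (C := C) (R := R) (N := N) (lam := lam 0) h01 (hlam 0) (x := x)
    (fun l h0 h1 => by
      have : l = 2 := by fin_cases l <;> simp_all
      subst this
      exact (hcW 2).trans (by linarith)) (p := x 0 - C 0) (q := x 1 - C 1) (A := W)
    (hcW 0).le (hcW 1).le (by linarith)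
  rw [st_self h01] at hfirst
  set y := st C 0 1 x ((lam 0 : ℝ) * (x 0 - C 0)) ((x 1 - C 1) / (lam 0 : ℝ)) with hy
  have hy0 : y 0 = (C 0 : ℝ) + (lam 0 : ℝ) * (x 0 - C 0) := st_i _ _ _
  have hy1 : y 1 = (C 1 : ℝ) + (x 1 - C 1) / (lam 0 : ℝ) := st_j h01 _ _ _
  have hy2 : y 2 = x 2 := st_other (by decide) (by decide) _ _ _
  -- second round
  have hbound1 : |y 1 - (C 1 : ℝ)| ≤ W / (lam 0 : ℝ) + W := by
    rw [hy1, add_sub_cancel_left, abs_div, abs_of_pos hl0]
    have : |x 1 - (C 1 : ℝ)| / (lam 0 : ℝ) ≤ W / (lam 0 : ℝ) :=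
      div_le_div_of_nonneg_right (hcW 1).le hl0.le
    have h : 0 < W := hWpos
    linarith
  have hbound2 : |y 2 - (C 2 : ℝ)| ≤ W / (lam 0 : ℝ) + W := by
    rw [hy2]
    have h := (hcW 2).le
    have h' : 0 ≤ W / (lam 0 : ℝ) := by positivity
    linarith
  have hsecond := scale2_spec (C := C) (R := R) (N := N) (lam := lam 0 * lam 1) h12
    (mul_pos (hlam 0) (hlam 1)) (x := y)
    (fun l h0 h1 => by
      have : l = 0 := by fin_cases l <;> simp_all
      subst this
      rw [hy0, add_sub_cancel_left, abs_mul, abs_of_pos hl0]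
      have h2 : (lam 0 : ℝ) * |x 0 - (C 0 : ℝ)| ≤ (lam 0 : ℝ) * W :=
        mul_le_mul_of_nonneg_left (hcW 0).le hl0.le
      linarith) hbound1 hbound2 (A := W / (lam 0 : ℝ) + W) (by linarith)
  rw [st_self h12] at hsecond
  unfold scale3
  rw [good_append, run_append, hfirst.2]
  refine ⟨⟨hfirst.1, hsecond.1⟩, ?_⟩
  rw [hsecond.2]
  have hmu' : ((lam 0 * lam 1 : ℚ) : ℝ) = (lam 0 : ℝ) * lam 1 := by push_cast; rfl
  have hprod' : (lam 0 : ℝ) * lam 1 * lam 2 = 1 := by exact_mod_cast hprod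
  have hl1 := hl' 1
  have hl2 := hl' 2
  funext k
  fin_cases k
  · show st C 1 2 y _ _ 0 = _
    rw [st_other (by decide) (by decide), hy0]
    rfl
  · show st C 1 2 y _ _ 1 = _
    rw [st_i, hy1, hmu']
    simp only [Fin.mk_one, Fin.isValue]
    field_simp
    ring
  · show st C 1 2 y _ _ 2 = _
    rw [st_j h12, hy2, hmu']
    simp only [Fin.reduceFinMk, Fin.isValue]
    have : (lam 2 : ℝ) = 1 / ((lam 0 : ℝ) * lam 1) := by
      field_simp
      linarith
    rw [this]
    ring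

lemma mem_scale3 {C : Fin 3 → ℚ} {R : ℚ} {lam : Fin 3 → ℚ} {N : ℕ} {m : Mv}
    (hm : m ∈ scale3 C R lam N) : ∃ i j a, m = shr C R i j a N := by
  simp only [scale3, scale2, List.cons_append, List.nil_append, List.mem_cons, List.not_mem_nil,
    or_false] at hm
  rcases hm with h | h | h | h | h | h | h | h <;> exact ⟨_, _, _, h⟩

lemma good_of_all_out {q : List Mv} {x : Fin 3 → ℝ} (h : ∀ m ∈ q, m.WF ∧ m.Out x) :
    Good q x ∧ run q x = x := by
  induction q with
  | nil => exact ⟨trivial, rfl⟩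
  | cons m q ih =>
    refine good_cons_out (h m (by simp)).1 (h m (by simp)).2 (ih fun m' hm' => h m' (by simp [hm']))

/-- The constant half-size vector. -/
def cst (R : ℚ) : Fin 3 → ℚ := fun _ => R

/-- The middle stage: every box is rescaled in its own slot. -/
theorem middle {n : ℕ} (C w lam : Fin n → Fin 3 → ℚ) (R : ℚ) (N : ℕ) (hRpos : 0 < R)
    (hw : ∀ b l, 0 < w b l) (hlam : ∀ b l, 0 < lam b l)
    (hprod : ∀ b, lam b 0 * lam b 1 * lam b 2 = 1) (hR : ∀ b, Rb (w b) (lam b) ≤ R)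
    (hlw : ∀ b l, lam b l * w b l ≤ R) (hwR : ∀ b l, w b l ≤ R)
    (hsep : ∀ b b', b ≠ b' → C b' 0 + R + 1 / ((N : ℚ) + 1) ≤ C b 0 - R ∨
      C b 0 + R + 1 / ((N : ℚ) + 1) ≤ C b' 0 - R)
    (S : Finset (Fin n)) :
    ∃ q : List Mv,
      (∀ b ∈ S, ∀ x ∈ OB (C b) (w b), Good q x ∧
        run q x = fun k => (C b k : ℝ) + (lam b k : ℝ) * (x k - C b k)) ∧
      (∀ b, b ∉ S → ∀ x ∈ OB (C b) (cst R), Good q x ∧ run q x = x) := by
  induction S using Finset.induction_on with
  | empty => exact ⟨[], by simp, fun b _ x _ => ⟨trivial, rfl⟩⟩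
  | insert b S hbS ih =>
    obtain ⟨q, hq1, hq2⟩ := ih
    have hallout : ∀ b', b ≠ b' → ∀ x ∈ OB (C b') (cst R),
        Good (scale3 (C b) R (lam b) N) x ∧ run (scale3 (C b) R (lam b) N) x = x := by
      intro b' hne x hx
      refine good_of_all_out fun m hm => ?_
      obtain ⟨i, j, a, rfl⟩ := mem_scale3 hm
      exact ⟨shr_wf hRpos, shr_out (hsep b b' hne) hx⟩
    refine ⟨scale3 (C b) R (lam b) N ++ q, ?_, ?_⟩
    · intro b' hb' x hx
      rcases Finset.mem_insert.mp hb' with rfl | hb''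
      · have h1 := scale3_spec (C := C b') (R := R) (N := N) (hw b') (hlam b') (hprod b') (hR b') hx
        rw [good_append, run_append, h1.2]
        have hmem : (fun k => (C b' k : ℝ) + (lam b' k : ℝ) * (x k - C b' k)) ∈ OB (C b') (cst R) := by
          intro l
          simp only [add_sub_cancel_left, cst]
          rw [abs_mul, abs_of_pos (by exact_mod_cast hlam b' l : (0 : ℝ) < lam b' l)]
          have h2 : (lam b' l : ℝ) * w b' l ≤ R := by exact_mod_cast hlw b' l
          have h3 : (0 : ℝ) < lam b' l := by exact_mod_cast hlam b' l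
          have h4 := hx l
          nlinarith
        have h2 := hq2 b' hbS _ hmem
        exact ⟨⟨h1.1, h2.1⟩, h2.2⟩
      · have hne : b ≠ b' := fun h => hbS (h ▸ hb'')
        have hxR : x ∈ OB (C b') (cst R) := by
          intro l
          have h2 : (w b' l : ℝ) ≤ R := by exact_mod_cast hwR b' l
          exact (hx l).trans_le h2
        have h1 := hallout b' hne x hxR
        have h2 := hq1 b' hb'' x hx
        rw [good_append, run_append, h1.2]
        exact ⟨⟨h1.1, h2.1⟩, h2.2⟩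
    · intro b' hb' x hx
      have hb'S : b' ∉ S := fun h => hb' (Finset.mem_insert_of_mem h)
      have hne : b ≠ b' := fun h => hb' (h ▸ Finset.mem_insert_self _ _)
      have h1 := hallout b' hne x hx
      have h2 := hq2 b' hb'S x hx
      rw [good_append, run_append, h1.2]
      exact ⟨⟨h1.1, h2.1⟩, h2.2⟩

end Crest.Agent.H4Scale
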