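import Crest.Agent.H4EffR

/-! The smooth transition function: rational approximations, the formula for its derivatives,
and bounds. -/

set_option autoImplicit false

namespace Crest.Agent.H4T

open Crest.Agent.H4Comp Crest.Agent.H4Comp.RC Crest.Agent.H4EffR

/-- Local abbreviation of the smooth transition. -/
noncomputable abbrev T : ℝ → ℝ := Real.smoothTransition

lemma T_nonneg (x : ℝ) : 0 ≤ T x := Real.smoothTransition.nonneg x
lemma T_le_one (x : ℝ) : T x ≤ 1 := Real.smoothTransition.le_one x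
lemma T_zero {x : ℝ} (h : x ≤ 0) : T x = 0 := Real.smoothTransition.zero_of_nonpos h
lemma T_one {x : ℝ} (h : 1 ≤ x) : T x = 1 := Real.smoothTransition.one_of_one_le h
lemma T_contDiff : ContDiff ℝ ((⊤ : ENat) : WithTop ENat) T := Real.smoothTransition.contDiff

/-- The two exponentials. -/
lemma T_formula {s : ℝ} (h0 : 0 < s) (h1 : s < 1) :
    T s = Real.exp (-s⁻¹) / (Real.exp (-s⁻¹) + Real.exp (-(1 - s)⁻¹)) := by
  have h2 : 0 < 1 - s := by linarith
  simp only [T, Real.smoothTransition]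
  have e1 : expNegInvGlue s = Real.exp (-s⁻¹) := by
    simp [expNegInvGlue, not_le.mpr h0]
  have e2 : expNegInvGlue (1 - s) = Real.exp (-(1 - s)⁻¹) := by
    simp [expNegInvGlue, not_le.mpr h2]
  rw [e1, e2]

lemma T_eq_of_nonneg {s : ℝ} (h0 : 0 < s) (h1 : s < 1) (hu : (1 - s)⁻¹ ≤ s⁻¹) :
    T s = Real.exp (-(s⁻¹ - (1 - s)⁻¹)) / (1 + Real.exp (-(s⁻¹ - (1 - s)⁻¹))) := by
  rw [T_formula h0 h1]
  have e : Real.exp (-s⁻¹) = Real.exp (-(s⁻¹ - (1 - s)⁻¹)) * Real.exp (-(1 - s)⁻¹) := by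
    rw [← Real.exp_add]; congr 1; ring
  rw [e]
  have h3 := Real.exp_pos (-(1 - s)⁻¹)
  have h4 := Real.exp_pos (-(s⁻¹ - (1 - s)⁻¹))
  field_simp
  ring

lemma T_eq_of_neg {s : ℝ} (h0 : 0 < s) (h1 : s < 1) (hu : s⁻¹ < (1 - s)⁻¹) :
    T s = 1 / (1 + Real.exp (-((1 - s)⁻¹ - s⁻¹))) := by
  rw [T_formula h0 h1]
  have e : Real.exp (-(1 - s)⁻¹) = Real.exp (-((1 - s)⁻¹ - s⁻¹)) * Real.exp (-s⁻¹) := by
    rw [← Real.exp_add]; congr 1; ring
  rw [e]
  have h3 := Real.exp_pos (-s⁻¹)
  have h4 := Real.exp_pos (-((1 - s)⁻¹ - s⁻¹))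
  field_simp

/-! ### Approximating `exp (-x)` -/

/-- The lower bound `(1 - x/N)^N`. -/
lemma exp_neg_bracket {x : ℝ} (hx : 0 ≤ x) {N : ℕ} (hN : x ≤ N) (hN0 : 0 < N) :
    0 ≤ (1 - x / N) ^ N ∧ (1 - x / N) ^ N ≤ Real.exp (-x) ∧
      Real.exp (-x) - (1 - x / N) ^ N ≤ x ^ 2 / N := by
  have hNr : (0 : ℝ) < N := by exact_mod_cast hN0
  set t := x / N with ht
  have ht0 : 0 ≤ t := by positivity
  have ht1 : t ≤ 1 := by rw [ht, div_le_one hNr]; exact hN
  have h0 : 0 ≤ 1 - t := by linarith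
  have hxt : x = N * t := by rw [ht]; field_simp
  have h1 : (1 - t) ≤ Real.exp (-t) := Real.one_sub_le_exp_neg t
  have hexp : Real.exp (-x) = Real.exp (-t) ^ N := by
    rw [← Real.exp_nat_mul, hxt]
    congr 1
    ring
  have hub : (1 + t) ≤ Real.exp t := by
    have := Real.add_one_le_exp t
    linarith
  have h2 : Real.exp (-t) * (1 + t) ≤ 1 := by
    have h3 := Real.exp_pos (-t)
    have h4 : Real.exp (-t) * Real.exp t = 1 := by rw [← Real.exp_add]; simp
    calc Real.exp (-t) * (1 + t) ≤ Real.exp (-t) * Real.exp t :=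
          mul_le_mul_of_nonneg_left hub h3.le
      _ = 1 := h4
  refine ⟨pow_nonneg h0 N, ?_, ?_⟩
  · rw [hexp]
    exact pow_le_pow_left₀ h0 h1 N
  · rw [hexp]
    -- E = exp(-t), E * (1+t) ≤ 1, (1-t)^N ≥ (1 - t^2)^N * E^N
    set E := Real.exp (-t) with hE
    have hE0 : 0 < E := Real.exp_pos _
    have hE1 : E ≤ 1 := Real.exp_le_one_iff.mpr (by linarith)
    have h3 : (1 - t ^ 2) * E ≤ (1 - t) := by
      have : (1 - t ^ 2) = (1 - t) * (1 + t) := by ring
      rw [this]
      have h5 : (1 - t) * (1 + t) * E = (1 - t) * (E * (1 + t)) := by ring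
      rw [h5]
      calc (1 - t) * (E * (1 + t)) ≤ (1 - t) * 1 := mul_le_mul_of_nonneg_left h2 h0
        _ = 1 - t := by ring
    have ht2 : 0 ≤ 1 - t ^ 2 := by nlinarith
    have h4 : ((1 - t ^ 2) * E) ^ N ≤ (1 - t) ^ N :=
      pow_le_pow_left₀ (by positivity) h3 N
    have h5 : 1 - (N : ℝ) * t ^ 2 ≤ (1 - t ^ 2) ^ N := by
      have := one_add_mul_le_pow (a := -t ^ 2) (by nlinarith) N
      have e1 : (1 : ℝ) + (N : ℝ) * (-t ^ 2) = 1 - (N : ℝ) * t ^ 2 := by ring
      have e2 : (1 : ℝ) + -t ^ 2 = 1 - t ^ 2 := by ring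
      rw [e1, e2] at this
      exact this
    have h6 : E ^ N ≤ 1 := pow_le_one₀ hE0.le hE1
    have h7 : (0 : ℝ) < E ^ N := pow_pos hE0 N
    have e3 : x ^ 2 / N = (N : ℝ) * t ^ 2 := by
      rw [hxt]; field_simp
    rw [e3]
    have h8 : E ^ N - (1 - t) ^ N ≤ E ^ N - ((1 - t ^ 2) * E) ^ N := by linarith
    refine h8.trans ?_
    rw [mul_pow]
    have h9 : E ^ N - (1 - t ^ 2) ^ N * E ^ N = (1 - (1 - t ^ 2) ^ N) * E ^ N := by ring
    rw [h9]
    have h10 : 0 ≤ 1 - (1 - t ^ 2) ^ N := by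
      have := pow_le_one₀ ht2 (by nlinarith : 1 - t ^ 2 ≤ 1) (n := N)
      linarith
    calc (1 - (1 - t ^ 2) ^ N) * E ^ N ≤ (1 - (1 - t ^ 2) ^ N) * 1 :=
          mul_le_mul_of_nonneg_left h6 h10
      _ ≤ (N : ℝ) * t ^ 2 := by linarith

/-- The absolute value of a code. -/
def absC (c : RC) : RC := if le (0, 0, 0) c then c else neg c

lemma rv_absC (c : RC) : rv (absC c) = |rv c| := by
  unfold absC
  split_ifs with h
  · rw [rv_le_iff, rv_zero] at h
    rw [abs_of_nonneg h]
  · rw [rv_le_iff, rv_zero, not_le] at h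
    rw [rv_neg, abs_of_neg h]

lemma primrec_absC : Primrec absC :=
  Primrec.ite (primrecRel_le.comp (Primrec.const _) Primrec.id) Primrec.id primrec_neg

/-- The exponent used to approximate `exp(-|c|)` to precision `1/(n+1)`. -/
def expN (c : RC) (n : ℕ) : ℕ :=
  let P := (absC c).1 + (absC c).2.1
  P * P * (n + 1) + P + 1

/-- approximation of `exp(-|c|)`. -/
def expApprox (c : RC) (n : ℕ) : RC :=
  pow (add (1, 0, 0) (neg (mul (absC c) (inv (nat (expN c n)))))) (expN c n)

lemma primrec_expN : Primrec₂ expN := by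
  refine Primrec₂.mk ?_
  have hP : Primrec (fun p : RC × ℕ => (absC p.1).1 + (absC p.1).2.1) :=
    Primrec.nat_add.comp (p1.comp (primrec_absC.comp Primrec.fst))
      (p2.comp (primrec_absC.comp Primrec.fst))
  have h1 : Primrec (fun p : RC × ℕ => p.2 + 1) :=
    Primrec.nat_add.comp Primrec.snd (Primrec.const 1)
  exact Primrec.nat_add.comp (Primrec.nat_add.comp
    (Primrec.nat_mul.comp (Primrec.nat_mul.comp hP hP) h1) hP) (Primrec.const 1)

lemma primrec_expApprox : Primrec₂ expApprox := by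
  refine Primrec₂.mk ?_
  have hN : Primrec (fun p : RC × ℕ => expN p.1 p.2) := primrec_expN
  have h1 : Primrec (fun p : RC × ℕ => inv (nat (expN p.1 p.2))) :=
    primrec_inv.comp (primrec_nat.comp hN)
  have h2 : Primrec (fun p : RC × ℕ => mul (absC p.1) (inv (nat (expN p.1 p.2)))) :=
    primrec_mul.comp (primrec_absC.comp Primrec.fst) h1
  have h3 : Primrec (fun p : RC × ℕ => add (1, 0, 0) (neg (mul (absC p.1) (inv (nat (expN p.1 p.2)))))) :=
    primrec_add.comp (Primrec.const _) (primrec_neg.comp h2)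
  exact primrec_pow.comp h3 hN

lemma expApprox_spec (c : RC) (n : ℕ) :
    0 ≤ rv (expApprox c n) ∧ rv (expApprox c n) ≤ Real.exp (-|rv c|) ∧
      Real.exp (-|rv c|) - rv (expApprox c n) ≤ 1 / ((n : ℝ) + 1) := by
  set x := |rv c| with hx
  set P := (absC c).1 + (absC c).2.1 with hP
  have hxP : x ≤ P := by
    have := abs_rv_le (absC c)
    rw [rv_absC, abs_of_nonneg (abs_nonneg _)] at this
    exact this
  have hx0 : 0 ≤ x := abs_nonneg _
  have hNdef : expN c n = P * P * (n + 1) + P + 1 := rfl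
  set N := expN c n with hN
  have hNr : (N : ℝ) = (P : ℝ) * P * (n + 1) + P + 1 := by
    rw [hNdef]; push_cast; ring
  have hPr : (0 : ℝ) ≤ (P : ℝ) := by positivity
  have hnr : (0 : ℝ) ≤ (n : ℝ) := by positivity
  have hxN : x ≤ N := by
    rw [hNr]
    nlinarith [mul_nonneg (mul_nonneg hPr hPr) (by linarith : (0 : ℝ) ≤ (n : ℝ) + 1)]
  have hN0 : 0 < N := by rw [hNdef]; omega
  have hval : rv (expApprox c n) = (1 - x / N) ^ N := by
    unfold expApprox
    rw [← hN]
    simp only [rv_pow, rv_add, rv_neg, rv_mul, rv_inv, rv_nat, rv_one, rv_absC]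
    congr 1
  obtain ⟨h1, h2, h3⟩ := exp_neg_bracket hx0 hxN hN0
  rw [hval]
  refine ⟨h1, h2, h3.trans ?_⟩
  have hNpos : (0 : ℝ) < N := by exact_mod_cast hN0
  rw [div_le_div_iff₀ hNpos (by positivity), one_mul]
  have hx2 : x ^ 2 ≤ (P : ℝ) * P := by nlinarith
  rw [hNr]
  have hn1 : (0 : ℝ) < (n : ℝ) + 1 := by positivity
  nlinarith [mul_le_mul_of_nonneg_right hx2 hn1.le]

/-! ### Approximating the transition function at a rational point -/

/-- `a = 1/r` -/
def codeA (r : RC) : RC := inv r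
/-- `b = 1/(1-r)` -/
def codeB (r : RC) : RC := inv (add (1, 0, 0) (neg r))
/-- `u = a - b` -/
def codeU (r : RC) : RC := add (codeA r) (neg (codeB r))

lemma rv_codeA (r : RC) : rv (codeA r) = (rv r)⁻¹ := by simp [codeA]
lemma rv_codeB (r : RC) : rv (codeB r) = (1 - rv r)⁻¹ := by
  simp [codeB, sub_eq_add_neg]
lemma rv_codeU (r : RC) : rv (codeU r) = (rv r)⁻¹ - (1 - rv r)⁻¹ := by
  simp only [codeU, rv_add, rv_neg, rv_codeA, rv_codeB]; ring

lemma primrec_codeA : Primrec codeA := primrec_inv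
lemma primrec_codeB : Primrec codeB :=
  primrec_inv.comp (primrec_add.comp (Primrec.const _) primrec_neg)
lemma primrec_codeU : Primrec codeU :=
  primrec_add.comp primrec_codeA (primrec_neg.comp primrec_codeB)

/-- Approximate value of `T r` for `0 < r < 1`. -/
def approxT₀ (r : RC) (n : ℕ) : RC :=
  if le (0, 0, 0) (codeU r) then
    mul (expApprox (codeU r) n) (inv (add (1, 0, 0) (expApprox (codeU r) n)))
  else inv (add (1, 0, 0) (expApprox (codeU r) n))

/-- Approximate value of `T r`. -/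
def approxT (r : RC) (n : ℕ) : RC :=
  if le r (0, 0, 0) then (0, 0, 0) else if le (1, 0, 0) r then (1, 0, 0) else approxT₀ r n

lemma primrec_approxT : Primrec₂ approxT := by
  refine Primrec₂.mk ?_
  have hU : Primrec (fun p : RC × ℕ => codeU p.1) := primrec_codeU.comp Primrec.fst
  have hE : Primrec (fun p : RC × ℕ => expApprox (codeU p.1) p.2) :=
    primrec_expApprox.comp hU Primrec.snd
  have hD : Primrec (fun p : RC × ℕ => inv (add (1, 0, 0) (expApprox (codeU p.1) p.2))) :=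
    primrec_inv.comp (primrec_add.comp (Primrec.const _) hE)
  have h0 : Primrec (fun p : RC × ℕ => approxT₀ p.1 p.2) :=
    Primrec.ite (primrecRel_le.comp (Primrec.const _) hU) (primrec_mul.comp hE hD) hD
  exact Primrec.ite (primrecRel_le.comp Primrec.fst (Primrec.const _)) (Primrec.const _)
    (Primrec.ite (primrecRel_le.comp (Primrec.const _) Primrec.fst) (Primrec.const _) h0)

lemma approxT_spec (r : RC) (n : ℕ) : |T (rv r) - rv (approxT r n)| ≤ 1 / ((n : ℝ) + 1) := by
  have hn : (0 : ℝ) ≤ 1 / ((n : ℝ) + 1) := by positivity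
  unfold approxT
  split_ifs with h1 h2
  · rw [rv_le_iff, rv_zero] at h1
    simpa [T_zero h1] using hn
  · rw [rv_le_iff, rv_one] at h2
    simpa [T_one h2] using hn
  · rw [rv_le_iff, rv_zero, not_le] at h1
    rw [rv_le_iff, rv_one, not_le] at h2
    set s := rv r
    obtain ⟨ha, hb, hc⟩ := expApprox_spec (codeU r) n
    rw [rv_codeU] at hb hc
    set L := rv (expApprox (codeU r) n) with hL
    set u := s⁻¹ - (1 - s)⁻¹ with hu
    have hrvU : rv (codeU r) = u := by rw [rv_codeU]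
    unfold approxT₀
    split_ifs with h3
    · rw [rv_le_iff, rv_zero, hrvU] at h3
      rw [abs_of_nonneg h3] at hb hc
      rw [T_eq_of_nonneg h1 h2 (by rw [hu] at h3; linarith)]
      simp only [rv_mul, rv_inv, rv_add, rv_one]
      set v := Real.exp (-u) with hv
      have hv0 : 0 < v := Real.exp_pos _
      have e : v / (1 + v) - (rv (expApprox (codeU r) n)) * (1 + rv (expApprox (codeU r) n))⁻¹
          = (v - L) / ((1 + v) * (1 + L)) := by
        rw [← hL]
        field_simp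
        ring
      rw [e, abs_div, abs_of_nonneg (by linarith : 0 ≤ v - L),
        abs_of_pos (mul_pos (by linarith) (by linarith) : 0 < (1 + v) * (1 + L))]
      refine (div_le_self (by linarith) ?_).trans hc
      nlinarith
    · rw [rv_le_iff, rv_zero, hrvU, not_le] at h3
      rw [abs_of_neg h3] at hb hc
      rw [neg_neg] at hb hc
      rw [T_eq_of_neg h1 h2 (by rw [hu] at h3; linarith)]
      have e1 : -((1 - s)⁻¹ - s⁻¹) = u := by rw [hu]; ring
      rw [e1]
      simp only [rv_inv, rv_add, rv_one]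
      set v := Real.exp u with hv
      have hv0 : 0 < v := Real.exp_pos _
      have e : 1 / (1 + v) - (1 + rv (expApprox (codeU r) n))⁻¹
          = -((v - L) / ((1 + v) * (1 + L))) := by
        rw [← hL]
        field_simp
        ring
      rw [e, abs_neg, abs_div, abs_of_nonneg (by linarith : 0 ≤ v - L),
        abs_of_pos (mul_pos (by linarith) (by linarith) : 0 < (1 + v) * (1 + L))]
      refine (div_le_self (by linarith) ?_).trans hc
      nlinarith


/-- `T` at rational points is computably approximable. -/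
lemma effR_T : EffR (fun r : RC => T (rv r)) := by
  refine ⟨approxT, primrec_approxT.to_comp, approxT_spec⟩

/-! ### Derivatives on `(0,1)` -/

/-- Monomials `c τ^e a^j b^l`. -/
abbrev Mon : Type := RC × ℕ × ℕ × ℕ

noncomputable def monVal (m : Mon) (τ a b : ℝ) : ℝ :=
  rv m.1 * τ ^ m.2.1 * a ^ m.2.2.1 * b ^ m.2.2.2

noncomputable def polyVal (R : List Mon) (τ a b : ℝ) : ℝ := (R.map fun m => monVal m τ a b).sum

/-- Derivative of a monomial, in the sense explained in the lemma `hasDerivAt_G`. -/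
def Dmon (m : Mon) : List Mon :=
  let c := m.1
  let e := m.2.1
  let j := m.2.2.1
  let l := m.2.2.2
  [(mul c (nat (e + 1)), e, j + 2, l), (mul c (nat (e + 1)), e, j, l + 2),
   (neg (mul c (nat (e + 2))), e + 1, j + 2, l), (neg (mul c (nat (e + 2))), e + 1, j, l + 2),
   (neg (mul c (nat j)), e, j + 1, l), (mul c (nat l), e, j, l + 1)]

/-- The polynomials giving the derivatives. -/
def polyR : ℕ → List Mon
  | 0 => [((1, 0, 0), 0, 2, 0), ((1, 0, 0), 0, 0, 2)]
  | m + 1 => (polyR m).flatMap Dmon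

/-- `W = T (1 - T)`. -/
noncomputable def W (s : ℝ) : ℝ := T s * (1 - T s)

/-- `W` times the value of a polynomial at `T s, 1/s, 1/(1-s)`. -/
noncomputable def G (R : List Mon) (s : ℝ) : ℝ := W s * polyVal R (T s) s⁻¹ (1 - s)⁻¹

lemma hasDerivAt_a {s : ℝ} (h0 : 0 < s) : HasDerivAt (fun s : ℝ => s⁻¹) (-(s⁻¹) ^ 2) s := by
  have := hasDerivAt_inv h0.ne'
  simpa [inv_pow] using this

lemma hasDerivAt_b {s : ℝ} (h1 : s < 1) :
    HasDerivAt (fun s : ℝ => (1 - s)⁻¹) (((1 - s)⁻¹) ^ 2) s := by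
  have h2 : (1 - s) ≠ 0 := by linarith
  have h3 : HasDerivAt (fun s : ℝ => 1 - s) (-1) s := by
    simpa using (hasDerivAt_id s).const_sub 1
  have := h3.fun_inv h2
  refine this.congr_deriv ?_
  field_simp

lemma hasDerivAt_T {s : ℝ} (h0 : 0 < s) (h1 : s < 1) :
    HasDerivAt T (W s * ((s⁻¹) ^ 2 + ((1 - s)⁻¹) ^ 2)) s := by
  have h2 : 0 < 1 - s := by linarith
  have hE1 : HasDerivAt (fun s : ℝ => Real.exp (-s⁻¹)) (Real.exp (-s⁻¹) * (s⁻¹) ^ 2) s := by
    have h := (hasDerivAt_a h0).fun_neg.exp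
    refine h.congr_deriv ?_
    ring
  have hE2 : HasDerivAt (fun s : ℝ => Real.exp (-(1 - s)⁻¹))
      (Real.exp (-(1 - s)⁻¹) * (-((1 - s)⁻¹) ^ 2)) s := by
    have h := (hasDerivAt_b h1).fun_neg.exp
    exact h
  have hp1 : 0 < Real.exp (-s⁻¹) := Real.exp_pos _
  have hp2 : 0 < Real.exp (-(1 - s)⁻¹) := Real.exp_pos _
  have hq := hE1.fun_div (hE1.fun_add hE2) (by positivity : Real.exp (-s⁻¹) + Real.exp (-(1 - s)⁻¹) ≠ 0)
  have hev : T =ᶠ[nhds s] fun s => Real.exp (-s⁻¹) / (Real.exp (-s⁻¹) + Real.exp (-(1 - s)⁻¹)) := by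
    filter_upwards [Ioo_mem_nhds h0 h1] with y hy
    exact T_formula hy.1 hy.2
  refine HasDerivAt.congr_deriv (hq.congr_of_eventuallyEq hev) ?_
  have hT := T_formula h0 h1
  unfold W
  rw [hT]
  generalize Real.exp (-s⁻¹) = E1 at *
  generalize Real.exp (-(1 - s)⁻¹) = E2 at *
  generalize s⁻¹ = a at *
  generalize (1 - s)⁻¹ = b at *
  field_simp
  ring

lemma hasDerivAt_W {s : ℝ} (h0 : 0 < s) (h1 : s < 1) :
    HasDerivAt W ((1 - 2 * T s) * W s * ((s⁻¹) ^ 2 + ((1 - s)⁻¹) ^ 2)) s := by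
  have h := hasDerivAt_T h0 h1
  have := h.fun_mul ((hasDerivAt_const s (1 : ℝ)).fun_sub h)
  refine HasDerivAt.congr_deriv this ?_
  ring

lemma hasDerivAt_mon (m : Mon) {s : ℝ} (h0 : 0 < s) (h1 : s < 1) :
    HasDerivAt (fun s => W s * monVal m (T s) s⁻¹ (1 - s)⁻¹)
      (W s * polyVal (Dmon m) (T s) s⁻¹ (1 - s)⁻¹) s := by
  rcases m with ⟨c, e, j, l⟩
  have hT := hasDerivAt_T h0 h1
  have hW := hasDerivAt_W h0 h1
  have ha := hasDerivAt_a h0
  have hb := hasDerivAt_b h1
  have hM : HasDerivAt (fun s => monVal (c, e, j, l) (T s) s⁻¹ (1 - s)⁻¹)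
      (rv c * ((e : ℝ) * T s ^ (e - 1) * (W s * ((s⁻¹) ^ 2 + ((1 - s)⁻¹) ^ 2))) *
          (s⁻¹) ^ j * ((1 - s)⁻¹) ^ l +
        rv c * T s ^ e * ((j : ℝ) * (s⁻¹) ^ (j - 1) * (-(s⁻¹) ^ 2)) * ((1 - s)⁻¹) ^ l +
        rv c * T s ^ e * (s⁻¹) ^ j * ((l : ℝ) * ((1 - s)⁻¹) ^ (l - 1) * ((1 - s)⁻¹) ^ 2)) s := by
    have h := (((hT.fun_pow e).const_mul (rv c)).fun_mul (ha.fun_pow j)).fun_mul (hb.fun_pow l)
    unfold monVal
    refine h.congr_deriv ?_
    ring
  have hfin := hW.fun_mul hM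
  have e1 : (e : ℝ) * T s ^ (e - 1) * T s = (e : ℝ) * T s ^ e := by
    cases e with
    | zero => simp
    | succ k => simp only [Nat.add_sub_cancel]; ring
  have e2 : (j : ℝ) * (s⁻¹) ^ (j - 1) * (s⁻¹) ^ 2 = (j : ℝ) * (s⁻¹) ^ (j + 1) := by
    cases j with
    | zero => simp
    | succ k => simp only [Nat.add_sub_cancel]; ring
  have e3 : (l : ℝ) * ((1 - s)⁻¹) ^ (l - 1) * ((1 - s)⁻¹) ^ 2 = (l : ℝ) * ((1 - s)⁻¹) ^ (l + 1) := by
    cases l with
    | zero => simp
    | succ k => simp only [Nat.add_sub_cancel]; ring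
  refine HasDerivAt.congr_deriv hfin ?_
  simp only [polyVal, Dmon, List.map_cons, List.map_nil, List.sum_cons, List.sum_nil, monVal,
    rv_add, rv_mul, rv_neg, rv_nat]
  push_cast
  set τ := T s
  set a := s⁻¹
  set b := (1 - s)⁻¹
  have hWd : W s = τ * (1 - τ) := rfl
  have e1' : (e : ℝ) * τ ^ (e - 1) * (W s * (a ^ 2 + b ^ 2)) =
      (e : ℝ) * τ ^ e * ((1 - τ) * (a ^ 2 + b ^ 2)) := by
    rw [hWd]
    calc (e : ℝ) * τ ^ (e - 1) * (τ * (1 - τ) * (a ^ 2 + b ^ 2))
        = ((e : ℝ) * τ ^ (e - 1) * τ) * ((1 - τ) * (a ^ 2 + b ^ 2)) := by ring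
      _ = _ := by rw [e1]
  have e2' : (j : ℝ) * a ^ (j - 1) * (-a ^ 2) = -((j : ℝ) * a ^ (j + 1)) := by
    calc (j : ℝ) * a ^ (j - 1) * (-a ^ 2) = -((j : ℝ) * a ^ (j - 1) * a ^ 2) := by ring
      _ = _ := by rw [e2]
  rw [e1', e2', e3]
  rw [hWd]
  ring

lemma G_nil (s : ℝ) : G [] s = 0 := by simp [G, polyVal]

lemma G_cons (m : Mon) (R : List Mon) (s : ℝ) :
    G (m :: R) s = W s * monVal m (T s) s⁻¹ (1 - s)⁻¹ + G R s := by
  simp only [G, polyVal, List.map_cons, List.sum_cons]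
  ring

lemma G_append (R R' : List Mon) (s : ℝ) : G (R ++ R') s = G R s + G R' s := by
  induction R with
  | nil => simp [G_nil]
  | cons m R ih => simp only [List.cons_append, G_cons, ih]; ring

lemma hasDerivAt_G (R : List Mon) {s : ℝ} (h0 : 0 < s) (h1 : s < 1) :
    HasDerivAt (G R) (G (R.flatMap Dmon) s) s := by
  induction R with
  | nil =>
    have : G [] = fun _ => 0 := by funext y; exact G_nil y
    rw [this]
    simpa [G_nil] using hasDerivAt_const s (0 : ℝ)
  | cons m R ih =>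
    have e : G (m :: R) = fun s => W s * monVal m (T s) s⁻¹ (1 - s)⁻¹ + G R s := by
      funext y; exact G_cons m R y
    rw [e, List.flatMap_cons, G_append]
    exact (hasDerivAt_mon m h0 h1).add ih

lemma iteratedDeriv_T {m : ℕ} {s : ℝ} (h0 : 0 < s) (h1 : s < 1) :
    iteratedDeriv (m + 1) T s = G (polyR m) s := by
  induction m generalizing s with
  | zero =>
    rw [iteratedDeriv_one, (hasDerivAt_T h0 h1).deriv]
    simp [G, polyR, polyVal, monVal]
  | succ m ih =>
    rw [iteratedDeriv_succ]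
    have hev : iteratedDeriv (m + 1) T =ᶠ[nhds s] G (polyR m) := by
      filter_upwards [Ioo_mem_nhds h0 h1] with y hy
      exact ih hy.1 hy.2
    rw [hev.deriv_eq, (hasDerivAt_G _ h0 h1).deriv]
    rfl

/-! ### Vanishing outside `(0,1)` -/

lemma iteratedDeriv_T_of_neg {m : ℕ} {s : ℝ} (h : s < 0) : iteratedDeriv (m + 1) T s = 0 := by
  have hev : T =ᶠ[nhds s] fun _ => (0 : ℝ) := by
    filter_upwards [Iio_mem_nhds h] with y hy
    exact T_zero (le_of_lt hy)
  rw [hev.iteratedDeriv_eq]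
  simp

lemma iteratedDeriv_T_of_gt {m : ℕ} {s : ℝ} (h : 1 < s) : iteratedDeriv (m + 1) T s = 0 := by
  have hev : T =ᶠ[nhds s] fun _ => (1 : ℝ) := by
    filter_upwards [Ioi_mem_nhds h] with y hy
    exact T_one (le_of_lt hy)
  rw [hev.iteratedDeriv_eq]
  simp [iteratedDeriv_const]

lemma continuous_iteratedDeriv_T (m : ℕ) : Continuous (iteratedDeriv m T) :=
  T_contDiff.continuous_iteratedDeriv m (by exact_mod_cast le_top)

lemma iteratedDeriv_T_of_nonpos {m : ℕ} {s : ℝ} (h : s ≤ 0) : iteratedDeriv (m + 1) T s = 0 := by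
  rcases h.lt_or_eq with h | h
  · exact iteratedDeriv_T_of_neg h
  · subst h
    have hc := (continuous_iteratedDeriv_T (m + 1)).continuousAt (x := (0 : ℝ))
    have ht : Filter.Tendsto (iteratedDeriv (m + 1) T) (nhdsWithin 0 (Set.Iio 0)) (nhds (iteratedDeriv (m + 1) T 0)) :=
      hc.tendsto.mono_left nhdsWithin_le_nhds
    have hz : Filter.Tendsto (iteratedDeriv (m + 1) T) (nhdsWithin 0 (Set.Iio 0)) (nhds 0) := by
      refine tendsto_const_nhds.congr' ?_
      filter_upwards [self_mem_nhdsWithin] with y hy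
      exact (iteratedDeriv_T_of_neg hy).symm
    exact tendsto_nhds_unique ht hz

lemma iteratedDeriv_T_of_one_le {m : ℕ} {s : ℝ} (h : 1 ≤ s) : iteratedDeriv (m + 1) T s = 0 := by
  rcases h.lt_or_eq with h | h
  · exact iteratedDeriv_T_of_gt h
  · subst h
    have hc := (continuous_iteratedDeriv_T (m + 1)).continuousAt (x := (1 : ℝ))
    have ht : Filter.Tendsto (iteratedDeriv (m + 1) T) (nhdsWithin 1 (Set.Ioi 1)) (nhds (iteratedDeriv (m + 1) T 1)) :=
      hc.tendsto.mono_left nhdsWithin_le_nhds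
    have hz : Filter.Tendsto (iteratedDeriv (m + 1) T) (nhdsWithin 1 (Set.Ioi 1)) (nhds 0) := by
      refine tendsto_const_nhds.congr' ?_
      filter_upwards [self_mem_nhdsWithin] with y hy
      exact (iteratedDeriv_T_of_gt hy).symm
    exact tendsto_nhds_unique ht hz

/-! ### Global bounds -/

lemma two_pow_le_factorial (l : ℕ) : 2 ^ l ≤ (l + 1).factorial := by
  induction l with
  | zero => simp
  | succ l ih =>
    rw [Nat.factorial_succ, pow_succ, mul_comm]
    exact Nat.mul_le_mul (by omega) ih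

lemma exp_two_le : Real.exp 2 ≤ 8 := by
  have h : Real.exp 1 < 2.7182818286 := Real.exp_one_lt_d9
  have e : Real.exp 2 = Real.exp 1 * Real.exp 1 := by rw [← Real.exp_add]; norm_num
  have hp := Real.exp_pos 1
  rw [e]
  nlinarith

lemma pow_mul_exp_neg_le {x : ℝ} (hx : 0 ≤ x) (j : ℕ) :
    x ^ j * Real.exp (-x) ≤ (j.factorial : ℝ) := by
  have h := Real.pow_div_factorial_le_exp x hx j
  have hf : (0 : ℝ) < j.factorial := by exact_mod_cast Nat.factorial_pos j
  rw [div_le_iff₀ hf] at h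
  rw [Real.exp_neg, ← div_eq_mul_inv, div_le_iff₀ (Real.exp_pos x)]
  linarith

lemma W_nonneg (s : ℝ) : 0 ≤ W s :=
  mul_nonneg (T_nonneg s) (by linarith [T_le_one s])

lemma W_mon_bound {s : ℝ} (h0 : 0 < s) (h1 : s < 1) (j l : ℕ) :
    W s * ((s⁻¹) ^ j * ((1 - s)⁻¹) ^ l) ≤ 8 * ((j + 1).factorial * (l + 1).factorial : ℕ) := by
  have h2 : 0 < 1 - s := by linarith
  have hT := T_formula h0 h1
  have hE1 := Real.exp_pos (-s⁻¹)
  have hE2 := Real.exp_pos (-(1 - s)⁻¹)
  have ha : 0 < s⁻¹ := inv_pos.mpr h0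
  have hb : 0 < (1 - s)⁻¹ := inv_pos.mpr h2
  have hfj : (j.factorial : ℝ) ≤ (j + 1).factorial := by
    exact_mod_cast Nat.factorial_le (Nat.le_succ j)
  have hfl : (l.factorial : ℝ) ≤ (l + 1).factorial := by
    exact_mod_cast Nat.factorial_le (Nat.le_succ l)
  have h2j : ((2 : ℝ) ^ j) ≤ (j + 1).factorial := by exact_mod_cast two_pow_le_factorial j
  have h2l : ((2 : ℝ) ^ l) ≤ (l + 1).factorial := by exact_mod_cast two_pow_le_factorial l
  have hfj0 : (0 : ℝ) < j.factorial := by exact_mod_cast Nat.factorial_pos j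
  have hfl0 : (0 : ℝ) < l.factorial := by exact_mod_cast Nat.factorial_pos l
  push_cast
  rcases le_total s (1 / 2) with hs | hs
  · -- `a ≥ 2`, `b ≤ 2`
    have hb2 : (1 - s)⁻¹ ≤ 2 := by
      rw [inv_le_comm₀ h2 (by norm_num)]
      linarith
    have hW : W s ≤ Real.exp 2 * Real.exp (-s⁻¹) := by
      have h3 : W s ≤ T s := by
        have := T_nonneg s
        have h4 : T s * (1 - T s) ≤ T s * 1 :=
          mul_le_mul_of_nonneg_left (by linarith) this
        simpa [W] using h4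
      refine h3.trans ?_
      rw [hT, div_le_iff₀ (by positivity)]
      have h5 : Real.exp 2 * Real.exp (-(1 - s)⁻¹) ≥ 1 := by
        rw [← Real.exp_add]
        exact Real.one_le_exp (by linarith)
      have h6 : 0 < Real.exp 2 * Real.exp (-s⁻¹) := by positivity
      nlinarith
    have hbl : ((1 - s)⁻¹) ^ l ≤ 2 ^ l := pow_le_pow_left₀ hb.le hb2 l
    calc W s * ((s⁻¹) ^ j * ((1 - s)⁻¹) ^ l)
        ≤ (Real.exp 2 * Real.exp (-s⁻¹)) * ((s⁻¹) ^ j * 2 ^ l) :=
          mul_le_mul hW (mul_le_mul_of_nonneg_left hbl (by positivity)) (by positivity)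
            (by positivity)
      _ = Real.exp 2 * ((s⁻¹) ^ j * Real.exp (-s⁻¹)) * 2 ^ l := by ring
      _ ≤ 8 * (j.factorial : ℝ) * (l + 1).factorial := by
          have := pow_mul_exp_neg_le ha.le j
          have h7 := exp_two_le
          have h8 : 0 ≤ (s⁻¹) ^ j * Real.exp (-s⁻¹) := by positivity
          gcongr
      _ ≤ 8 * (((j + 1).factorial : ℝ) * (l + 1).factorial) := by
          have : (0 : ℝ) < (l + 1).factorial := by exact_mod_cast Nat.factorial_pos _
          nlinarith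
  · have ha2 : s⁻¹ ≤ 2 := by
      rw [inv_le_comm₀ h0 (by norm_num)]
      linarith
    have hW : W s ≤ Real.exp 2 * Real.exp (-(1 - s)⁻¹) := by
      have h3 : W s ≤ 1 - T s := by
        have := T_le_one s
        have h4 : T s * (1 - T s) ≤ 1 * (1 - T s) :=
          mul_le_mul_of_nonneg_right this (by linarith)
        simpa [W] using h4
      refine h3.trans ?_
      have h4 : 1 - T s = Real.exp (-(1 - s)⁻¹) / (Real.exp (-s⁻¹) + Real.exp (-(1 - s)⁻¹)) := by
        rw [hT]
        field_simp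
        ring
      rw [h4, div_le_iff₀ (by positivity)]
      have h5 : Real.exp 2 * Real.exp (-s⁻¹) ≥ 1 := by
        rw [← Real.exp_add]
        exact Real.one_le_exp (by linarith)
      have h6 : 0 < Real.exp 2 * Real.exp (-(1 - s)⁻¹) := by positivity
      nlinarith
    have haj : (s⁻¹) ^ j ≤ 2 ^ j := pow_le_pow_left₀ ha.le ha2 j
    calc W s * ((s⁻¹) ^ j * ((1 - s)⁻¹) ^ l)
        ≤ (Real.exp 2 * Real.exp (-(1 - s)⁻¹)) * (2 ^ j * ((1 - s)⁻¹) ^ l) :=
          mul_le_mul hW (mul_le_mul_of_nonneg_right haj (by positivity)) (by positivity)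
            (by positivity)
      _ = Real.exp 2 * (((1 - s)⁻¹) ^ l * Real.exp (-(1 - s)⁻¹)) * 2 ^ j := by ring
      _ ≤ 8 * (l.factorial : ℝ) * (j + 1).factorial := by
          have := pow_mul_exp_neg_le hb.le l
          have h7 := exp_two_le
          have h8 : 0 ≤ ((1 - s)⁻¹) ^ l * Real.exp (-(1 - s)⁻¹) := by positivity
          gcongr
      _ ≤ 8 * (((j + 1).factorial : ℝ) * (l + 1).factorial) := by
          have : (0 : ℝ) < (j + 1).factorial := by exact_mod_cast Nat.factorial_pos _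
          nlinarith

/-- The bound attached to a monomial. -/
def mbound (m : Mon) : ℕ :=
  (m.1.1 + m.1.2.1) * (8 * ((m.2.2.1 + 1).factorial * (m.2.2.2 + 1).factorial))

/-- The bound attached to a polynomial. -/
def Rbound (R : List Mon) : ℕ := R.foldr (fun m acc => mbound m + acc) 0

/-- The bound for the derivatives of `T`. -/
def Tbound : ℕ → ℕ
  | 0 => 1
  | m + 1 => Rbound (polyR m)

lemma abs_G_le (R : List Mon) {s : ℝ} (h0 : 0 < s) (h1 : s < 1) : |G R s| ≤ Rbound R := by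
  induction R with
  | nil => simp [G_nil, Rbound]
  | cons m R ih =>
    rw [G_cons]
    have hR : ((Rbound (m :: R) : ℕ) : ℝ) = mbound m + Rbound R := by
      simp [Rbound]
    rw [hR]
    refine (abs_add_le _ _).trans (add_le_add ?_ ih)
    rcases m with ⟨c, e, j, l⟩
    have h2 : 0 < 1 - s := by linarith
    have ha : 0 < s⁻¹ := inv_pos.mpr h0
    have hb : 0 < (1 - s)⁻¹ := inv_pos.mpr h2
    have hW := W_nonneg s
    have e1 : W s * monVal (c, e, j, l) (T s) s⁻¹ (1 - s)⁻¹
        = rv c * T s ^ e * (W s * ((s⁻¹) ^ j * ((1 - s)⁻¹) ^ l)) := by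
      simp only [monVal]; ring
    rw [e1, abs_mul, abs_mul, abs_of_nonneg (pow_nonneg (T_nonneg s) e),
      abs_of_nonneg (by positivity : 0 ≤ W s * ((s⁻¹) ^ j * ((1 - s)⁻¹) ^ l))]
    have h3 := abs_rv_le c
    have h4 := W_mon_bound h0 h1 j l
    have h5 : T s ^ e ≤ 1 := pow_le_one₀ (T_nonneg s) (T_le_one s)
    have h5' : 0 ≤ T s ^ e := pow_nonneg (T_nonneg s) e
    have h6 : (0 : ℝ) ≤ ((c.1 + c.2.1 : ℕ) : ℝ) := by positivity
    have h7 : 0 ≤ W s * ((s⁻¹) ^ j * ((1 - s)⁻¹) ^ l) := by positivity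
    simp only [mbound]
    push_cast at h3 h4 h6 ⊢
    calc |rv c| * T s ^ e * (W s * ((s⁻¹) ^ j * ((1 - s)⁻¹) ^ l))
        ≤ ((c.1 : ℝ) + c.2.1) * 1 * (8 * (((j + 1).factorial : ℝ) * (l + 1).factorial)) := by
          gcongr
      _ = _ := by ring

lemma abs_iteratedDeriv_T_le (m : ℕ) (s : ℝ) : |iteratedDeriv m T s| ≤ Tbound m := by
  cases m with
  | zero =>
    simp only [iteratedDeriv_zero, Tbound, Nat.cast_one]
    rw [abs_of_nonneg (T_nonneg s)]
    exact T_le_one s
  | succ m =>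
    by_cases h0 : s ≤ 0
    · rw [iteratedDeriv_T_of_nonpos h0]; simp
    by_cases h1 : 1 ≤ s
    · rw [iteratedDeriv_T_of_one_le h1]; simp
    rw [iteratedDeriv_T (not_le.mp h0) (not_le.mp h1)]
    exact abs_G_le _ (not_le.mp h0) (not_le.mp h1)

/-! ### Computability -/

lemma primrec_factorial : Primrec Nat.factorial := by
  have h : Primrec (fun n : ℕ => Nat.rec (motive := fun _ => ℕ) 1 (fun k ih => (k + 1) * ih) n) :=
    Primrec.nat_rec₁ 1 (Primrec.nat_mul.comp (Primrec.succ.comp Primrec.fst) Primrec.snd)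
  refine h.of_eq fun n => ?_
  induction n with
  | zero => rfl
  | succ n ih => simp [Nat.factorial_succ, ih]

lemma primrec_mbound : Primrec mbound := by
  have hc1 : Primrec (fun m : Mon => m.1.1) := Primrec.fst.comp Primrec.fst
  have hc2 : Primrec (fun m : Mon => m.1.2.1) := p2.comp Primrec.fst
  have hj : Primrec (fun m : Mon => m.2.2.1) := Primrec.fst.comp (Primrec.snd.comp Primrec.snd)
  have hl : Primrec (fun m : Mon => m.2.2.2) := Primrec.snd.comp (Primrec.snd.comp Primrec.snd)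
  have hfj : Primrec (fun m : Mon => (m.2.2.1 + 1).factorial) :=
    primrec_factorial.comp (Primrec.succ.comp hj)
  have hfl : Primrec (fun m : Mon => (m.2.2.2 + 1).factorial) :=
    primrec_factorial.comp (Primrec.succ.comp hl)
  exact Primrec.nat_mul.comp (Primrec.nat_add.comp hc1 hc2)
    (Primrec.nat_mul.comp (Primrec.const 8) (Primrec.nat_mul.comp hfj hfl))

lemma primrec_Rbound : Primrec Rbound := by
  unfold Rbound
  exact Primrec.list_foldr (h := fun _ (y : Mon × ℕ) => mbound y.1 + y.2) Primrec.id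
    (Primrec.const 0) (Primrec₂.mk (Primrec.nat_add.comp (primrec_mbound.comp
      (Primrec.fst.comp Primrec.snd)) (Primrec.snd.comp Primrec.snd)))

lemma primrec_Dmon : Primrec Dmon := by
  have hc : Primrec (fun m : Mon => m.1) := Primrec.fst
  have he : Primrec (fun m : Mon => m.2.1) := Primrec.fst.comp Primrec.snd
  have hj : Primrec (fun m : Mon => m.2.2.1) := Primrec.fst.comp (Primrec.snd.comp Primrec.snd)
  have hl : Primrec (fun m : Mon => m.2.2.2) := Primrec.snd.comp (Primrec.snd.comp Primrec.snd)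
  have hadd (f : Mon → ℕ) (hf : Primrec f) (k : ℕ) : Primrec (fun m => f m + k) :=
    Primrec.nat_add.comp hf (Primrec.const k)
  have hmc (f : Mon → ℕ) (hf : Primrec f) : Primrec (fun m : Mon => mul m.1 (nat (f m))) :=
    primrec_mul.comp hc (primrec_nat.comp hf)
  have hneg (f : Mon → RC) (hf : Primrec f) : Primrec (fun m => neg (f m)) := primrec_neg.comp hf
  have htuple (c : Mon → RC) (a b d : Mon → ℕ) (h1 : Primrec c) (h2 : Primrec a) (h3 : Primrec b)
      (h4 : Primrec d) : Primrec (fun m => ((c m, a m, b m, d m) : Mon)) :=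
    Primrec.pair h1 (Primrec.pair h2 (Primrec.pair h3 h4))
  have hcons (f : Mon → Mon) (g : Mon → List Mon) (hf : Primrec f) (hg : Primrec g) :
      Primrec (fun m => f m :: g m) := Primrec.list_cons.comp hf hg
  unfold Dmon
  exact hcons _ _ (htuple _ _ _ _ (hmc _ (hadd _ he 1)) he (hadd _ hj 2) hl)
    (hcons _ _ (htuple _ _ _ _ (hmc _ (hadd _ he 1)) he hj (hadd _ hl 2))
    (hcons _ _ (htuple _ _ _ _ (hneg _ (hmc _ (hadd _ he 2))) (hadd _ he 1) (hadd _ hj 2) hl)
    (hcons _ _ (htuple _ _ _ _ (hneg _ (hmc _ (hadd _ he 2))) (hadd _ he 1) hj (hadd _ hl 2))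
    (hcons _ _ (htuple _ _ _ _ (hneg _ (hmc _ hj)) he (hadd _ hj 1) hl)
    (hcons _ _ (htuple _ _ _ _ (hmc _ hl) he hj (hadd _ hl 1)) (Primrec.const []))))))

lemma primrec_polyR : Primrec polyR := by
  have h : Primrec (fun n : ℕ => Nat.rec (motive := fun _ => List Mon)
      [((1, 0, 0), 0, 2, 0), ((1, 0, 0), 0, 0, 2)] (fun _ ih => ih.flatMap Dmon) n) :=
    Primrec.nat_rec₁ _ (Primrec₂.mk (Primrec.list_flatMap (f := fun p : ℕ × List Mon => p.2)
      (g := fun _ m => Dmon m) Primrec.snd (Primrec₂.mk (primrec_Dmon.comp Primrec.snd))))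
  refine h.of_eq fun n => ?_
  induction n with
  | zero => rfl
  | succ n ih => simp [polyR, ih]

lemma primrec_Tbound : Primrec Tbound := by
  have h : Primrec (fun n : ℕ => Nat.casesOn (motive := fun _ => ℕ) n 1 (fun k => Rbound (polyR k))) :=
    Primrec.nat_casesOn (f := fun n : ℕ => n) (g := fun _ => 1)
      (h := fun _ k => Rbound (polyR k)) Primrec.id (Primrec.const 1)
      (Primrec₂.mk (primrec_Rbound.comp (primrec_polyR.comp Primrec.snd)))
  refine h.of_eq fun n => ?_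
  cases n <;> rfl

/-! ### Effective values -/

/-- Default monomial. -/
def dm : Mon := ((0, 0, 0), 0, 0, 0)

lemma polyVal_eq_sum (R : List Mon) (τ a b : ℝ) :
    polyVal R τ a b = ∑ i ∈ Finset.range R.length, monVal (R.getD i dm) τ a b := by
  induction R with
  | nil => simp [polyVal]
  | cons m R ih =>
    have e : polyVal (m :: R) τ a b = monVal m τ a b + polyVal R τ a b := by
      simp [polyVal]
    rw [e, ih, List.length_cons, Finset.sum_range_succ']
    simp [add_comm]

/-- The code of `1 - r`. -/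
def oneSub (r : RC) : RC := add (1, 0, 0) (neg r)

lemma rv_oneSub (r : RC) : rv (oneSub r) = 1 - rv r := by
  simp [oneSub, sub_eq_add_neg]

lemma primrec_oneSub : Primrec oneSub :=
  primrec_add.comp (Primrec.const _) (primrec_neg.comp Primrec.id)

/-- code of the coefficient of the monomial at a rational point. -/
def monCode (m : Mon) (r : RC) : RC :=
  mul m.1 (mul (pow (inv r) m.2.2.1) (pow (inv (oneSub r)) m.2.2.2))

lemma monVal_eq (m : Mon) (r : RC) :
    monVal m (T (rv r)) (rv r)⁻¹ (1 - rv r)⁻¹ = rv (monCode m r) * (T (rv r)) ^ m.2.1 := by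
  simp only [monVal, monCode, rv_mul, rv_pow, rv_inv, rv_oneSub]
  ring

lemma primrec_monCode : Primrec₂ monCode := by
  refine Primrec₂.mk ?_
  have hc : Primrec (fun p : Mon × RC => p.1.1) := Primrec.fst.comp Primrec.fst
  have hj : Primrec (fun p : Mon × RC => p.1.2.2.1) :=
    Primrec.fst.comp (Primrec.snd.comp (Primrec.snd.comp Primrec.fst))
  have hl : Primrec (fun p : Mon × RC => p.1.2.2.2) :=
    Primrec.snd.comp (Primrec.snd.comp (Primrec.snd.comp Primrec.fst))
  have hr : Primrec (fun p : Mon × RC => p.2) := Primrec.snd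
  exact primrec_mul.comp hc (primrec_mul.comp
    (primrec_pow.comp (primrec_inv.comp hr) hj)
    (primrec_pow.comp (primrec_inv.comp (primrec_oneSub.comp hr)) hl))

lemma effR_T_comp {α : Type*} [Primcodable α] {f : α → RC} (hf : Computable f) :
    EffR (fun a => T (rv (f a))) := effR_T.comp hf

lemma effR_term : EffR (fun x : (ℕ × RC) × ℕ =>
    monVal ((polyR x.1.1).getD x.2 dm) (T (rv x.1.2)) (rv x.1.2)⁻¹ (1 - rv x.1.2)⁻¹) := by
  have hm : Computable (fun x : (ℕ × RC) × ℕ => (polyR x.1.1).getD x.2 dm) :=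
    ((Primrec.list_getD dm).comp (primrec_polyR.comp (Primrec.fst.comp Primrec.fst))
      Primrec.snd).to_comp
  have hr : Computable (fun x : (ℕ × RC) × ℕ => x.1.2) :=
    (Primrec.snd.comp Primrec.fst).to_comp
  have h1 : EffR (fun x : (ℕ × RC) × ℕ => rv (monCode ((polyR x.1.1).getD x.2 dm) x.1.2)) :=
    EffR.of_rc (primrec_monCode.to_comp.comp hm hr)
  have h2 : EffR (fun p : RC × ℕ => T (rv p.1) ^ p.2) :=
    EffR.pow01 (g := fun r : RC => T (rv r)) effR_T (fun r => ⟨T_nonneg _, T_le_one _⟩)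
  have h3 : EffR (fun x : (ℕ × RC) × ℕ => T (rv x.1.2) ^ ((polyR x.1.1).getD x.2 dm).2.1) :=
    h2.comp (c := fun x : (ℕ × RC) × ℕ => (x.1.2, ((polyR x.1.1).getD x.2 dm).2.1))
      (hr.pair ((Primrec.fst.comp Primrec.snd).to_comp.comp hm))
  exact (h1.mul' h3).congr fun x => (monVal_eq _ _).symm

lemma effR_poly : EffR (fun x : ℕ × RC =>
    polyVal (polyR x.1) (T (rv x.2)) (rv x.2)⁻¹ (1 - rv x.2)⁻¹) := by
  have hN : Computable (fun x : ℕ × RC => (polyR x.1).length) :=
    (Primrec.list_length.comp (primrec_polyR.comp Primrec.fst)).to_comp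
  have h := EffR.sum' (g := fun x : (ℕ × RC) × ℕ =>
    monVal ((polyR x.1.1).getD x.2 dm) (T (rv x.1.2)) (rv x.1.2)⁻¹ (1 - rv x.1.2)⁻¹) effR_term
    (N := fun x : ℕ × RC => (polyR x.1).length) hN
  refine h.congr ?_
  intro x
  rw [polyVal_eq_sum]

lemma effR_G : EffR (fun x : ℕ × RC => G (polyR x.1) (rv x.2)) := by
  have hr : Computable (fun x : ℕ × RC => x.2) := Computable.snd
  have h1 : EffR (fun x : ℕ × RC => T (rv x.2)) := effR_T.comp hr
  have h2 : EffR (fun x : ℕ × RC => W (rv x.2)) :=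
    (h1.mul' ((EffR.const_rat (1 : ℚ)).sub' h1)).congr fun x => by simp [W]
  exact h2.mul' effR_poly

/-- Membership of a code in the open unit interval. -/
def in01 (r : RC) : Prop := ¬ le r (0, 0, 0) ∧ ¬ le (1, 0, 0) r

instance (r : RC) : Decidable (in01 r) := by unfold in01; infer_instance

lemma primrecPred_in01 : PrimrecPred in01 := by
  have h1 : PrimrecPred (fun c : RC => le c (0, 0, 0)) :=
    primrecRel_le.comp Primrec.id (Primrec.const _)
  have h2 : PrimrecPred (fun c : RC => le (1, 0, 0) c) :=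
    primrecRel_le.comp (Primrec.const _) Primrec.id
  exact h1.not.and h2.not

/-- Iterated derivatives of `T` at rational points are computably approximable. -/
lemma effR_iteratedDeriv_T : EffR (fun x : ℕ × RC => iteratedDeriv x.1 T (rv x.2)) := by
  have hb0 : Computable (fun x : ℕ × RC => decide (x.1 = 0)) := by
    have : PrimrecPred (fun x : ℕ × RC => x.1 = 0) := Primrec.eq.comp Primrec.fst (Primrec.const 0)
    exact this.decide.to_comp
  have hb1 : Computable (fun x : ℕ × RC => decide (in01 x.2)) :=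
    (primrecPred_in01.comp Primrec.snd).decide.to_comp
  have hT : EffR (fun x : ℕ × RC => T (rv x.2)) := effR_T.comp Computable.snd
  have hG : EffR (fun x : ℕ × RC => G (polyR (x.1 - 1)) (rv x.2)) :=
    effR_G.comp (c := fun x : ℕ × RC => (x.1 - 1, x.2))
      ((Primrec.nat_sub.comp Primrec.fst (Primrec.const 1)).to_comp.pair Computable.snd)
  have hall := EffR.cond' hb0 hT (EffR.cond' hb1 hG (EffR.const_rat (α := ℕ × RC) (0 : ℚ)))
  refine hall.congr ?_
  rintro ⟨m, r⟩
  cases m with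
  | zero => simp
  | succ m =>
    simp only [Nat.add_eq_zero_iff, one_ne_zero, and_false, decide_false, Bool.false_eq_true,
      if_false, decide_eq_true_eq, Nat.add_sub_cancel, Rat.cast_zero]
    by_cases h : in01 r
    · rw [if_pos h]
      have h0 : 0 < rv r := by
        have := h.1; rw [rv_le_iff, rv_zero, not_le] at this; exact this
      have h1 : rv r < 1 := by
        have := h.2; rw [rv_le_iff, rv_one, not_le] at this; exact this
      exact (iteratedDeriv_T h0 h1).symm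
    · rw [if_neg h]
      unfold in01 at h
      rw [not_and_or, not_not, not_not, rv_le_iff, rv_le_iff, rv_zero, rv_one] at h
      rcases h with h | h
      · exact (iteratedDeriv_T_of_nonpos h).symm
      · exact (iteratedDeriv_T_of_one_le h).symm

end Crest.Agent.H4T
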