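import Crest.Agent.H4Eff1
import Crest.Prelude.Def_BoxFlow

/-! Fields given by finite sums of tensor products of one-variable functions: their mixed
derivatives, their smoothness and their effectiveness. -/

set_option autoImplicit false

open scoped ContDiff
open Crest.AnalysisR.BoxFlow

namespace Crest.Agent.H4Tensor

open Crest.Agent.H4Comp Crest.Agent.H4Comp.RC Crest.Agent.H4EffR Crest.Agent.H4T Crest.Agent.H4Eff1

/-- The tensor product of four functions of one variable, on space-time. -/
noncomputable def tens (g : Fin 4 → ℝ → ℝ) (p : ℝ × (Fin 3 → ℝ)) : ℝ :=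
  g 0 p.1 * g 1 (p.2 0) * g 2 (p.2 1) * g 3 (p.2 2)

/-- Finite sums of tensors with vector coefficients. -/
noncomputable def tfield {A : Type} [Fintype A] (coef : A → Fin 3 → ℚ) (G : A → Fin 4 → ℝ → ℝ) : Field :=
  fun p k => ∑ a, (coef a k : ℝ) * tens (G a) p

lemma contDiff_tens {g : Fin 4 → ℝ → ℝ} (hg : ∀ d, ContDiff ℝ ∞ (g d)) :
    ContDiff ℝ ∞ (tens g) := by
  unfold tens
  have h0 : ContDiff ℝ ∞ (fun p : ℝ × (Fin 3 → ℝ) => p.1) := contDiff_fst
  have hl (l : Fin 3) : ContDiff ℝ ∞ (fun p : ℝ × (Fin 3 → ℝ) => p.2 l) :=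
    (contDiff_apply ℝ ℝ l).comp contDiff_snd
  exact (((hg 0).comp h0).mul ((hg 1).comp (hl 0))).mul ((hg 2).comp (hl 1)) |>.mul
    ((hg 3).comp (hl 2))

lemma contDiff_tfield {A : Type} [Fintype A] (coef : A → Fin 3 → ℚ) {G : A → Fin 4 → ℝ → ℝ}
    (hG : ∀ a d, ContDiff ℝ ∞ (G a d)) : ContDiff ℝ ∞ (tfield coef G) := by
  unfold tfield
  refine contDiff_pi.mpr fun k => ?_
  exact ContDiff.sum fun a _ => contDiff_const.mul (contDiff_tens (hG a))

/-- One-variable derivative used along lines. -/
lemma hasDerivAt_shift {g : ℝ → ℝ} (hg : ContDiff ℝ ∞ g) (y : ℝ) :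
    HasDerivAt (fun s : ℝ => g (y + s)) (deriv g y) 0 := by
  have h1 : HasDerivAt g (deriv g y) (y + 0) := by
    simpa using (hg.differentiable (by simp) y).hasDerivAt
  exact HasDerivAt.comp_const_add y 0 h1

lemma direction_zero : direction 0 = (1, 0) := by simp [direction]
lemma direction_one : direction 1 = (0, Pi.single 0 1) := by
  have : (1 : Fin 4) ≠ 0 := by decide
  simp only [direction, dif_neg this]
  rfl
lemma direction_two : direction 2 = (0, Pi.single 1 1) := by
  have : (2 : Fin 4) ≠ 0 := by decide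
  simp only [direction, dif_neg this]
  rfl
lemma direction_three : direction 3 = (0, Pi.single 2 1) := by
  have : (3 : Fin 4) ≠ 0 := by decide
  simp only [direction, dif_neg this]
  rfl

lemma fderiv_direction_eq {f : ℝ × (Fin 3 → ℝ) → ℝ} {p : ℝ × (Fin 3 → ℝ)}
    (hf : DifferentiableAt ℝ f p) (v : ℝ × (Fin 3 → ℝ)) {D : ℝ}
    (h : HasDerivAt (fun s : ℝ => f (p + s • v)) D 0) : fderiv ℝ f p v = D := by
  have hline : HasDerivAt (fun s : ℝ => p + s • v) v 0 := by
    simpa using ((hasDerivAt_id (0 : ℝ)).smul_const v).const_add p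
  have hf' : HasFDerivAt f (fderiv ℝ f p) (p + (0 : ℝ) • v) := by
    simpa using hf.hasFDerivAt
  have := hf'.comp_hasDerivAt (0 : ℝ) hline
  exact this.unique h

lemma fderiv_tens {g : Fin 4 → ℝ → ℝ} (hg : ∀ d, ContDiff ℝ ∞ (g d)) (d : Fin 4)
    (p : ℝ × (Fin 3 → ℝ)) :
    fderiv ℝ (tens g) p (direction d) = tens (Function.update g d (deriv (g d))) p := by
  have hdiff : DifferentiableAt ℝ (tens g) p :=
    (contDiff_tens hg).differentiable (by simp) p
  refine fderiv_direction_eq hdiff _ ?_
  rcases p with ⟨t, x⟩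
  have h0 : HasDerivAt (fun s : ℝ => tens g ((t, x) + s • direction 0))
      (tens (Function.update g 0 (deriv (g 0))) (t, x)) 0 := by
    have e : (fun s : ℝ => tens g ((t, x) + s • direction 0)) =
        fun s => g 0 (t + s) * (g 1 (x 0) * g 2 (x 1) * g 3 (x 2)) := by
      funext s
      simp [tens, direction_zero]
      ring
    rw [e]
    have := (hasDerivAt_shift (hg 0) t).mul_const (g 1 (x 0) * g 2 (x 1) * g 3 (x 2))
    refine this.congr_deriv ?_
    simp [tens]
    ring
  have h1 : HasDerivAt (fun s : ℝ => tens g ((t, x) + s • direction 1))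
      (tens (Function.update g 1 (deriv (g 1))) (t, x)) 0 := by
    have e : (fun s : ℝ => tens g ((t, x) + s • direction 1)) =
        fun s => g 1 (x 0 + s) * (g 0 t * g 2 (x 1) * g 3 (x 2)) := by
      funext s
      simp [tens, direction_one]
      ring
    rw [e]
    have := (hasDerivAt_shift (hg 1) (x 0)).mul_const (g 0 t * g 2 (x 1) * g 3 (x 2))
    refine this.congr_deriv ?_
    simp [tens]
    ring
  have h2 : HasDerivAt (fun s : ℝ => tens g ((t, x) + s • direction 2))
      (tens (Function.update g 2 (deriv (g 2))) (t, x)) 0 := by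
    have e : (fun s : ℝ => tens g ((t, x) + s • direction 2)) =
        fun s => g 2 (x 1 + s) * (g 0 t * g 1 (x 0) * g 3 (x 2)) := by
      funext s
      simp [tens, direction_two]
      ring
    rw [e]
    have := (hasDerivAt_shift (hg 2) (x 1)).mul_const (g 0 t * g 1 (x 0) * g 3 (x 2))
    refine this.congr_deriv ?_
    simp [tens]
    ring
  have h3 : HasDerivAt (fun s : ℝ => tens g ((t, x) + s • direction 3))
      (tens (Function.update g 3 (deriv (g 3))) (t, x)) 0 := by
    have e : (fun s : ℝ => tens g ((t, x) + s • direction 3)) =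
        fun s => g 3 (x 2 + s) * (g 0 t * g 1 (x 0) * g 2 (x 1)) := by
      funext s
      simp [tens, direction_three]
      ring
    rw [e]
    have := (hasDerivAt_shift (hg 3) (x 2)).mul_const (g 0 t * g 1 (x 0) * g 2 (x 1))
    refine this.congr_deriv ?_
    simp [tens]
    ring
  fin_cases d
  · exact h0
  · exact h1
  · exact h2
  · exact h3

/-- Iterated derivative along a list of directions, factor by factor. -/
noncomputable def iter (ds : List (Fin 4)) (g : Fin 4 → ℝ → ℝ) : Fin 4 → ℝ → ℝ :=
  fun d => iteratedDeriv (ds.count d) (g d)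

lemma contDiff_iteratedDeriv' {f : ℝ → ℝ} (hf : ContDiff ℝ ∞ f) (m : ℕ) :
    ContDiff ℝ ∞ (iteratedDeriv m f) := by
  rw [iteratedDeriv_eq_iterate]
  exact ContDiff.iterate_deriv m hf

lemma iter_nil (g : Fin 4 → ℝ → ℝ) : iter [] g = g := by
  funext d
  simp [iter]

lemma iter_cons (d : Fin 4) (ds : List (Fin 4)) (g : Fin 4 → ℝ → ℝ) :
    iter (d :: ds) g = Function.update (iter ds g) d (deriv (iter ds g d)) := by
  funext d'
  by_cases h : d' = d
  · subst h
    simp [iter, iteratedDeriv_succ]
  · have h' : d ≠ d' := fun e => h e.symm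
    simp [iter, Function.update_of_ne h, List.count_cons, h']

lemma fderiv_tfield_apply {A : Type} [Fintype A] (coef : A → Fin 3 → ℚ) {G : A → Fin 4 → ℝ → ℝ}
    (hG : ∀ a d, ContDiff ℝ ∞ (G a d)) (p : ℝ × (Fin 3 → ℝ)) (v : ℝ × (Fin 3 → ℝ)) (k : Fin 3) :
    fderiv ℝ (tfield coef G) p v k = ∑ a, (coef a k : ℝ) * fderiv ℝ (tens (G a)) p v := by
  have hd : DifferentiableAt ℝ (tfield coef G) p :=
    (contDiff_tfield coef hG).differentiable (by simp) p
  have h1 := (hasFDerivAt_pi'.mp hd.hasFDerivAt) k
  have hsum : HasFDerivAt (fun q => ∑ a, (coef a k : ℝ) * tens (G a) q)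
      (∑ a, (coef a k : ℝ) • fderiv ℝ (tens (G a)) p) p := by
    refine HasFDerivAt.fun_sum fun a _ => ?_
    have hda : DifferentiableAt ℝ (tens (G a)) p :=
      (contDiff_tens (hG a)).differentiable (by simp) p
    exact hda.hasFDerivAt.const_mul _
  have h2 := h1.unique hsum
  have h3 := congrArg (fun L => L v) h2
  simpa using h3

/-- The mixed derivatives of a tensor field. -/
theorem mixedDeriv_tfield {A : Type} [Fintype A] (coef : A → Fin 3 → ℚ) {G : A → Fin 4 → ℝ → ℝ}
    (hG : ∀ a d, ContDiff ℝ ∞ (G a d)) (ds : List (Fin 4)) :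
    mixedDeriv ds (tfield coef G) = tfield coef (fun a => iter ds (G a)) := by
  induction ds with
  | nil =>
    funext p k
    simp [mixedDeriv, tfield, iter_nil]
  | cons d ds ih =>
    funext p k
    have hG' : ∀ a d, ContDiff ℝ ∞ (iter ds (G a) d) := fun a d =>
      contDiff_iteratedDeriv' (hG a d) _
    simp only [mixedDeriv]
    rw [ih, fderiv_tfield_apply coef hG']
    simp only [tfield]
    refine Finset.sum_congr rfl fun a _ => ?_
    rw [fderiv_tens (hG' a), iter_cons]

/-- A tensor value at a rational point, written with codes. -/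
lemma effR_tens {g : Fin 4 → ℝ → ℝ} (hg : ∀ d, Eff1 (g d)) :
    EffR (fun x : List (Fin 4) × (ℚ × (Fin 3 → ℚ)) =>
      tens (iter x.1 g) ((x.2.1 : ℝ), ratPoint x.2.2)) := by
  have hcount (d : Fin 4) : Computable (fun x : List (Fin 4) × (ℚ × (Fin 3 → ℚ)) => x.1.count d) := by
    have h : Primrec (fun l : List (Fin 4) => l.foldr (fun a n => if a = d then n + 1 else n) 0) :=
      Primrec.list_foldr (h := fun _ (y : Fin 4 × ℕ) => if y.1 = d then y.2 + 1 else y.2)
        Primrec.id (Primrec.const 0) (Primrec₂.mk (Primrec.ite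
          (Primrec.eq.comp (Primrec.fst.comp Primrec.snd) (Primrec.const d))
          (Primrec.succ.comp (Primrec.snd.comp Primrec.snd)) (Primrec.snd.comp Primrec.snd)))
    have h2 : Primrec (fun l : List (Fin 4) => l.count d) := by
      refine h.of_eq fun l => ?_
      induction l with
      | nil => simp
      | cons a l ih =>
        simp only [List.foldr_cons, List.count_cons]
        rw [ih]
        by_cases e : a = d <;> simp [e]
    exact (h2.comp Primrec.fst).to_comp
  have ht : Computable (fun x : List (Fin 4) × (ℚ × (Fin 3 → ℚ)) => toRC x.2.1) :=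
    computable_toRC.comp (Computable.fst.comp Computable.snd)
  have hq (l : Fin 3) : Computable (fun x : List (Fin 4) × (ℚ × (Fin 3 → ℚ)) => toRC (x.2.2 l)) :=
    computable_toRC.comp (Computable.fin_app.comp (Computable.snd.comp Computable.snd)
      (Computable.const l))
  have h0 : EffR (fun x : List (Fin 4) × (ℚ × (Fin 3 → ℚ)) =>
      iteratedDeriv (x.1.count 0) (g 0) (x.2.1 : ℝ)) := by
    refine ((hg 0).eff.comp (c := fun x : List (Fin 4) × (ℚ × (Fin 3 → ℚ)) =>
      (x.1.count 0, toRC x.2.1)) ((hcount 0).pair ht)).congr ?_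
    intro x; simp
  have h1 (d : Fin 4) (l : Fin 3) : EffR (fun x : List (Fin 4) × (ℚ × (Fin 3 → ℚ)) =>
      iteratedDeriv (x.1.count d) (g d) (ratPoint x.2.2 l)) := by
    refine ((hg d).eff.comp (c := fun x : List (Fin 4) × (ℚ × (Fin 3 → ℚ)) =>
      (x.1.count d, toRC (x.2.2 l))) ((hcount d).pair (hq l))).congr ?_
    intro x; simp [ratPoint]
  exact ((h0.mul' (h1 1 0)).mul' (h1 2 1)).mul' (h1 3 2)

lemma abs_tens_iter_le {g : Fin 4 → ℝ → ℝ} {B : Fin 4 → ℕ → ℕ}
    (hB : ∀ d m x, |iteratedDeriv m (g d) x| ≤ B d m) (ds : List (Fin 4))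
    (p : ℝ × (Fin 3 → ℝ)) :
    |tens (iter ds g) p| ≤
      ((B 0 (ds.count 0) * B 1 (ds.count 1) * B 2 (ds.count 2) * B 3 (ds.count 3) : ℕ) : ℝ) := by
  simp only [tens, iter, abs_mul]
  push_cast
  have h (d : Fin 4) (y : ℝ) := hB d (ds.count d) y
  exact mul_le_mul (mul_le_mul (mul_le_mul (h 0 _) (h 1 _) (abs_nonneg _) (by positivity))
    (h 2 _) (abs_nonneg _) (by positivity)) (h 3 _) (abs_nonneg _) (by positivity)

/-- Tensor fields with effective factors and rational coefficients are effective. -/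
theorem effective_tfield {A : Type} [Fintype A] (coef : A → Fin 3 → ℚ) {G : A → Fin 4 → ℝ → ℝ}
    (hG : ∀ a d, Eff1 (G a d)) : Effective (tfield coef G) := by
  classical
  have hG' : ∀ a d, ContDiff ℝ ∞ (G a d) := fun a d => (hG a d).smooth
  -- values
  have hval (k : Fin 3) : EffR (fun x : List (Fin 4) × (ℚ × (Fin 3 → ℚ)) =>
      mixedDeriv x.1 (tfield coef G) ((x.2.1 : ℝ), ratPoint x.2.2) k) := by
    have : EffR (fun x : List (Fin 4) × (ℚ × (Fin 3 → ℚ)) =>
        ∑ a, (coef a k : ℝ) * tens (iter x.1 (G a)) ((x.2.1 : ℝ), ratPoint x.2.2)) :=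
      EffR.finset_sum _ fun a _ => (EffR.const_rat (coef a k)).mul' (effR_tens (hG a))
    refine this.congr fun x => ?_
    rw [mixedDeriv_tfield coef hG']
    rfl
  have hval2 (k : Fin 3) : ∃ Ap : (List (Fin 4) × (ℚ × (Fin 3 → ℚ))) → ℕ → RC, Computable₂ Ap ∧
      ∀ a n, |mixedDeriv a.1 (tfield coef G) ((a.2.1 : ℝ), ratPoint a.2.2) k - rv (Ap a n)| ≤
        1 / ((n : ℝ) + 1) := hval k
  choose Ap hAp hApval using hval2
  -- bounds
  have hbd (a : A) (d : Fin 4) := (hG a d).bdd
  choose B hB hBb using hbd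
  let N : A → Fin 3 → ℕ := fun a k => (toRC (coef a k)).1 + (toRC (coef a k)).2.1
  have hN : ∀ a k, |(coef a k : ℝ)| ≤ N a k := by
    intro a k
    have := abs_rv_le (toRC (coef a k))
    simpa [N] using this
  have hcount (d : Fin 4) : Computable (fun l : List (Fin 4) => l.count d) := by
    have h : Primrec (fun l : List (Fin 4) => l.foldr (fun a n => if a = d then n + 1 else n) 0) :=
      Primrec.list_foldr (h := fun _ (y : Fin 4 × ℕ) => if y.1 = d then y.2 + 1 else y.2)
        Primrec.id (Primrec.const 0) (Primrec₂.mk (Primrec.ite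
          (Primrec.eq.comp (Primrec.fst.comp Primrec.snd) (Primrec.const d))
          (Primrec.succ.comp (Primrec.snd.comp Primrec.snd)) (Primrec.snd.comp Primrec.snd)))
    have h2 : Primrec (fun l : List (Fin 4) => l.count d) := by
      refine h.of_eq fun l => ?_
      induction l with
      | nil => simp
      | cons a l ih =>
        simp only [List.foldr_cons, List.count_cons]
        rw [ih]
        by_cases e : a = d <;> simp [e]
    exact h2.to_comp
  let term : A → List (Fin 4) → ℕ := fun a ds =>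
    B a 0 (ds.count 0) * B a 1 (ds.count 1) * B a 2 (ds.count 2) * B a 3 (ds.count 3)
  have hterm (a : A) : Computable (term a) := by
    have hb (d : Fin 4) : Computable (fun ds : List (Fin 4) => B a d (ds.count d)) :=
      (hB a d).comp (hcount d)
    have hm {f g : List (Fin 4) → ℕ} (hf : Computable f) (hg : Computable g) :
        Computable (fun ds => f ds * g ds) := Primrec.nat_mul.to_comp.comp hf hg
    exact hm (hm (hm (hb 0) (hb 1)) (hb 2)) (hb 3)
  let bound : List (Fin 4) → ℕ := fun ds => ∑ a, ∑ k : Fin 3, N a k * term a ds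
  have hbound : Computable bound := by
    have hsum {ι : Type} (s : Finset ι) (f : ι → List (Fin 4) → ℕ) (hf : ∀ i, Computable (f i)) :
        Computable (fun ds => ∑ i ∈ s, f i ds) := by
      induction s using Finset.induction_on with
      | empty => simpa using Computable.const 0
      | insert i s hi ih =>
        simp only [Finset.sum_insert hi]
        exact Primrec.nat_add.to_comp.comp (hf i) ih
    refine hsum _ _ fun a => hsum _ _ fun k => ?_
    exact Primrec.nat_mul.to_comp.comp (Computable.const _) (hterm a)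
  refine ⟨fun z j => RC.val (Ap j (z.1, z.2.1) z.2.2), bound, ?_, hbound, ?_, ?_⟩
  · have h (j : Fin 3) : Computable (fun z : List (Fin 4) × (ℚ × (Fin 3 → ℚ)) × ℕ =>
        RC.val (Ap j (z.1, z.2.1) z.2.2)) := by
      refine computable_val.comp ((hAp j).comp (Computable.fst.pair
        (Computable.fst.comp Computable.snd)) (Computable.snd.comp Computable.snd))
    have h2 := Primrec.vector_get'.to_comp.comp (Computable.vector_ofFn h)
    refine h2.of_eq fun z => ?_
    funext j
    simp
  · intro ds t q n j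
    have := hApval j (ds, t, q) n
    simpa [rv] using this
  · intro ds p j
    rw [mixedDeriv_tfield coef hG']
    simp only [tfield]
    refine (Finset.abs_sum_le_sum_abs _ _).trans ?_
    simp only [bound]
    push_cast
    refine Finset.sum_le_sum fun a _ => ?_
    rw [abs_mul]
    have h1 := abs_tens_iter_le (hBb a) ds p
    have h2 : (N a j : ℝ) * (term a ds : ℝ) ≤ ∑ k : Fin 3, (N a k : ℝ) * (term a ds : ℝ) :=
      Finset.single_le_sum (f := fun k : Fin 3 => (N a k : ℝ) * (term a ds : ℝ))
        (fun k _ => by positivity) (Finset.mem_univ j)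
    refine le_trans (mul_le_mul (hN a j) h1 (abs_nonneg _) (by positivity)) ?_
    simpa [term] using h2

end Crest.Agent.H4Tensor
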