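/-
Biased gates for S0085: a Boolean function `f` of degree ≤ d with a fixed point `a` of its mean
polynomial `P f` with `√d < |P f' (a)|` gives the statement (decision list bias gadget + orbit).
-/
import Crest.Agent.H1Walsh
import Crest.Agent.H1WalshChk

set_option autoImplicit false

open Finset

namespace Crest.Agent.H5Biased

open Crest.Agent.H1Walsh

section comp

variable {ι κ : Type} [Fintype ι] [DecidableEq ι] [Fintype κ] [DecidableEq κ]

/-- Normalised Fourier coefficient. -/
noncomputable def fh (f : (ι → Bool) → Bool) (S : Finset ι) : ℝ :=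
  cf (fun y => sg (f y)) S / 2 ^ Fintype.card ι

/-- Mean polynomial. -/
noncomputable def P (f : (ι → Bool) → Bool) (t : ℝ) : ℝ := ∑ S : Finset ι, fh f S * t ^ S.card

/-- Its derivative. -/
noncomputable def dP (f : (ι → Bool) → Bool) (t : ℝ) : ℝ :=
  ∑ S : Finset ι, fh f S * ((S.card : ℝ) * t ^ (S.card - 1))

lemma hasDerivAt_P (f : (ι → Bool) → Bool) (t : ℝ) : HasDerivAt (P f) (dP f t) t := by
  unfold dP
  have : P f = fun t => ∑ S : Finset ι, fh f S * t ^ S.card := rfl
  rw [this]
  apply HasDerivAt.fun_sum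
  intro S _
  exact (hasDerivAt_pow S.card t).const_mul _

lemma continuous_dP (f : (ι → Bool) → Bool) : Continuous (dP f) := by
  unfold dP
  fun_prop

lemma continuous_P (f : (ι → Bool) → Bool) : Continuous (P f) := by
  unfold P
  fun_prop

/-- Biased gate. -/
structure BGate (g : (κ → Bool) → Bool) (d : ℕ) (μ L : ℝ) : Prop where
  mean : ∑ x, sg (g x) = μ * 2 ^ Fintype.card κ
  deg : ∀ S : Finset κ, d < S.card → ∑ x, sg (g x) * chi S x = 0
  lvl : ∑ j, (∑ x, sg (g x) * sg (x j)) / 2 ^ Fintype.card κ = L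

lemma prod_ite_const (S : Finset ι) (c b : ℝ) :
    ∏ i, (if i ∈ S then c * b else b) = c ^ S.card * b ^ Fintype.card ι := by
  have : ∀ i, (if i ∈ S then c * b else b) = (if i ∈ S then c else 1) * b := by
    intro i; split_ifs <;> simp
  simp_rw [this]
  rw [Finset.prod_mul_distrib, Finset.prod_ite_mem]
  simp

lemma sum_chi_empty' : ∑ y : κ → Bool, chi (∅ : Finset κ) y = 2 ^ Fintype.card κ :=
  sum_chi_empty

variable {f : (ι → Bool) → Bool} {g : (κ → Bool) → Bool} {d d' : ℕ} {μ L : ℝ}

lemma comp_mean (hg : BGate g d' μ L) :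
    ∑ x : ι × κ → Bool, sg (compF f g x) = P f μ * 2 ^ Fintype.card (ι × κ) := by
  classical
  have h := comp_coeff f g (∅ : Finset (ι × κ))
  simp only [slice_empty] at h
  have h0 : ∀ x : ι × κ → Bool, chi (∅ : Finset (ι × κ)) x = 1 := by intro x; simp [chi]
  simp only [h0, mul_one] at h
  rw [h]
  have h1 : ∀ y : κ → Bool, chi (∅ : Finset κ) y = 1 := by intro x; simp [chi]
  simp only [h1, mul_one]
  have hm := hg.mean
  simp only [Finset.sum_const, Finset.card_univ, Fintype.card_fun, Fintype.card_bool, nsmul_eq_mul,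
    mul_one, hm]
  unfold P
  rw [Finset.sum_mul]
  refine Finset.sum_congr rfl (fun S _ => ?_)
  have e : ∀ i, (if i ∈ S then μ * (2:ℝ) ^ Fintype.card κ else ((2 ^ Fintype.card κ : ℕ) : ℝ))
      = (if i ∈ S then μ * (2:ℝ) ^ Fintype.card κ else (2:ℝ) ^ Fintype.card κ) := by
    intro i; push_cast; rfl
  simp_rw [e]
  rw [prod_ite_const, fh, Fintype.card_prod, pow_mul' (2:ℝ)]
  ring

lemma comp_deg' (hf : ∀ S : Finset ι, d < S.card → ∑ x, sg (f x) * chi S x = 0)
    (hg : ∀ S : Finset κ, d' < S.card → ∑ x, sg (g x) * chi S x = 0)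
    (U : Finset (ι × κ)) (hU : d * d' < U.card) :
    ∑ x : ι × κ → Bool, sg (compF f g x) * chi U x = 0 := by
  classical
  rw [comp_coeff]
  refine Finset.sum_eq_zero (fun S _ => ?_)
  by_cases hS : d < S.card
  · have : cf (fun y => sg (f y)) S = 0 := hf S hS
    simp [this]
  · push Not at hS
    have : ∃ i, (if i ∈ S then ∑ y : κ → Bool, sg (g y) * chi (slice U i) y
                else ∑ y : κ → Bool, chi (slice U i) y) = 0 := by
      by_contra hne
      push Not at hne
      have h1 : ∀ i, i ∉ S → slice U i = ∅ := by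
        intro i hi
        by_contra hc
        have := hne i
        rw [if_neg hi] at this
        exact this (sum_chi_of_nonempty (Finset.nonempty_iff_ne_empty.mpr hc))
      have h2 : ∀ i, i ∈ S → (slice U i).card ≤ d' := by
        intro i hi
        by_contra hc
        push Not at hc
        have := hne i
        rw [if_pos hi] at this
        exact this (hg _ hc)
      have : U.card ≤ d * d' := by
        rw [card_eq_sum_slice]
        calc ∑ i, (slice U i).card = ∑ i ∈ S, (slice U i).card := by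
              symm
              apply Finset.sum_subset (Finset.subset_univ S)
              intro i _ hi
              simp [h1 i hi]
          _ ≤ ∑ i ∈ S, d' := Finset.sum_le_sum h2
          _ = S.card * d' := by simp
          _ ≤ d * d' := Nat.mul_le_mul_right _ hS
      omega
    obtain ⟨i, hi⟩ := this
    rw [Finset.prod_eq_zero (Finset.mem_univ i) hi, mul_zero]

lemma prod_erase_ite (S : Finset ι) (i : ι) (hi : i ∈ S) (c : ℝ) :
    ∏ i' ∈ Finset.univ.erase i, (if i' ∈ S then c else 1) = c ^ (S.card - 1) := by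
  rw [← Finset.prod_filter]
  have : (Finset.univ.erase i).filter (fun i' => i' ∈ S) = S.erase i := by
    ext a; simp [and_comm]
  rw [this, Finset.prod_const, Finset.card_erase_of_mem hi]

lemma comp_single' (hg : BGate g d' μ L) (i : ι) (j : κ) :
    (∑ x : ι × κ → Bool, sg (compF f g x) * sg (x (i, j))) / 2 ^ Fintype.card (ι × κ)
      = (∑ S : Finset ι, if i ∈ S then fh f S * μ ^ (S.card - 1) else 0)
        * ((∑ y, sg (g y) * sg (y j)) / 2 ^ Fintype.card κ) := by
  classical
  have h := comp_coeff f g ({(i, j)} : Finset (ι × κ))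
  simp only [chi_singleton] at h
  rw [h]
  have hK : (2:ℝ) ^ Fintype.card κ ≠ 0 := by positivity
  have hcard : 0 < Fintype.card ι := Fintype.card_pos_iff.mpr ⟨i⟩
  have hterm : ∀ S : Finset ι,
      (cf (fun y => sg (f y)) S / 2 ^ Fintype.card ι) *
          ∏ i', (if i' ∈ S then ∑ y : κ → Bool, sg (g y) * chi (slice {(i, j)} i') y
                else ∑ y : κ → Bool, chi (slice {(i, j)} i') y)
      = (if i ∈ S then fh f S * μ ^ (S.card - 1) else 0) *
          ((∑ y, sg (g y) * sg (y j)) * (2 ^ Fintype.card κ) ^ (Fintype.card ι - 1)) := by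
    intro S
    by_cases hiS : i ∈ S
    · rw [if_pos hiS, ← Finset.mul_prod_erase Finset.univ _ (Finset.mem_univ i), if_pos hiS,
        slice_singleton_self, fh]
      simp only [chi_singleton]
      have : ∀ i' ∈ Finset.univ.erase i, (if i' ∈ S
            then ∑ y : κ → Bool, sg (g y) * chi (slice {(i, j)} i') y
            else ∑ y : κ → Bool, chi (slice {(i, j)} i') y)
          = (if i' ∈ S then μ else 1) * (2:ℝ) ^ Fintype.card κ := by
        intro i' hi'
        have hne : i' ≠ i := Finset.ne_of_mem_erase hi'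
        rw [slice_singleton_ne j hne]
        have h1 : ∀ y : κ → Bool, chi (∅ : Finset κ) y = 1 := by intro x; simp [chi]
        by_cases hi'S : i' ∈ S
        · simp only [if_pos hi'S, h1, mul_one]
          exact hg.mean
        · simp only [if_neg hi'S, one_mul]
          exact sum_chi_empty
      rw [Finset.prod_congr rfl this, Finset.prod_mul_distrib, prod_erase_ite S i hiS μ,
        Finset.prod_const]
      have hc : (Finset.univ.erase i : Finset ι).card = Fintype.card ι - 1 := by
        rw [Finset.card_erase_of_mem (Finset.mem_univ i), Finset.card_univ]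
      rw [hc]
      ring
    · rw [if_neg hiS, zero_mul]
      apply mul_eq_zero_of_right
      apply Finset.prod_eq_zero (Finset.mem_univ i)
      rw [if_neg hiS, slice_singleton_self]
      exact sum_chi_of_nonempty (Finset.singleton_nonempty j)
  simp_rw [hterm]
  rw [← Finset.sum_mul, Fintype.card_prod]
  obtain ⟨n, hn⟩ : ∃ n, Fintype.card ι = n + 1 := ⟨Fintype.card ι - 1, by omega⟩
  rw [hn]
  simp only [Nat.add_sub_cancel]
  have h1 : (2:ℝ) ^ ((n + 1) * Fintype.card κ) = (2 ^ Fintype.card κ) ^ n * 2 ^ Fintype.card κ := by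
    rw [Nat.add_mul, one_mul, pow_add, pow_mul']
  rw [h1]
  have h3 : ((2:ℝ) ^ Fintype.card κ) ^ n ≠ 0 := by positivity
  field_simp

/-- Composition with a biased inner gate. -/
theorem BGate.comp (hf : ∀ S : Finset ι, d < S.card → ∑ x, sg (f x) * chi S x = 0)
    (hg : BGate g d' μ L) : BGate (compF f g) (d * d') (P f μ) (dP f μ * L) where
  mean := comp_mean hg
  deg := fun U hU => comp_deg' hf hg.deg U hU
  lvl := by
    rw [Fintype.sum_prod_type]
    simp_rw [comp_single' hg]
    rw [← hg.lvl]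
    have : dP f μ = ∑ i, ∑ S : Finset ι, if i ∈ S then fh f S * μ ^ (S.card - 1) else 0 := by
      rw [Finset.sum_comm]
      unfold dP
      refine Finset.sum_congr rfl (fun S _ => ?_)
      have : ∑ i, (if i ∈ S then fh f S * μ ^ (S.card - 1) else 0)
          = ∑ i ∈ S, fh f S * μ ^ (S.card - 1) := by
        rw [Finset.sum_ite_mem]; simp
      rw [this, Finset.sum_const, nsmul_eq_mul]
      ring
    rw [this, Finset.sum_mul]
    refine Finset.sum_congr rfl (fun i _ => ?_)
    rw [Finset.mul_sum]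

/-- Transport along an equivalence. -/
theorem BGate.transport (hf : BGate g d μ L) {κ' : Type} [Fintype κ'] [DecidableEq κ'] (e : κ' ≃ κ) :
    BGate (fun x : κ' → Bool => g (x ∘ e.symm)) d μ L where
  mean := by
    rw [Fintype.card_congr e, ← hf.mean]
    exact Fintype.sum_equiv (Equiv.arrowCongr e (Equiv.refl Bool)) _ _ (fun x => by
      simp [Equiv.arrowCongr])
  deg := by
    intro S hS
    have h := hf.deg (S.map e.toEmbedding) (by simpa using hS)
    rw [← h]
    refine Fintype.sum_equiv (Equiv.arrowCongr e (Equiv.refl Bool)) _ _ (fun x => ?_)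
    simp [Equiv.arrowCongr, chi, Finset.prod_map]
  lvl := by
    rw [← hf.lvl, Fintype.card_congr e]
    refine Fintype.sum_equiv e _ _ (fun i => ?_)
    congr 1
    refine Fintype.sum_equiv (Equiv.arrowCongr e (Equiv.refl Bool)) _ _ (fun x => ?_)
    simp [Equiv.arrowCongr]

end comp

section gadget

open Crest.Agent.H1WalshChk

lemma sum_sg_coord {n : ℕ} (j : Fin n) : ∑ y : Fin n → Bool, sg (y j) = 0 := by
  have := sum_chi_of_nonempty (T := ({j} : Finset (Fin n))) (Finset.singleton_nonempty j)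
  simpa [chi_singleton] using this

/-- Decision list bias gadget. -/
theorem gadget (m : ℕ) : ∀ a : ℝ, |a| ≤ 1 → ∃ (g : (Fin m → Bool) → Bool) (μ L : ℝ),
    BGate g m μ L ∧ |μ - a| ≤ 2 / 2 ^ m ∧ |μ| ≤ 1 ∧ 1 - |μ| ≤ L := by
  induction m with
  | zero =>
    intro a ha
    refine ⟨fun _ => decide (0 ≤ a), sg (decide (0 ≤ a)), 0, ⟨?_, ?_, ?_⟩, ?_, ?_, ?_⟩
    · simp
    · intro S hS
      have : S.card ≤ 0 := by simpa using Finset.card_le_univ S
      omega
    · simp
    · have := abs_le.mp ha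
      by_cases h : 0 ≤ a
      · simp only [h, decide_true, sg_true, pow_zero]
        rw [abs_le]; constructor <;> linarith
      · simp only [h, decide_false, sg_false, pow_zero]
        push Not at h
        rw [abs_le]; constructor <;> linarith
    · by_cases h : 0 ≤ a <;> simp [h]
    · by_cases h : 0 ≤ a <;> simp [h]
  | succ m ih =>
    intro a ha
    have ha' := abs_le.mp ha
    by_cases h0 : 0 ≤ a
    · -- s = 1, trigger on true
      obtain ⟨g', μ', L', hg', hμ, hμ1, hL⟩ := ih (2 * a - 1) (by rw [abs_le]; constructor <;> linarith)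
      have hμ1' := abs_le.mp hμ1
      have hμ' := abs_le.mp hμ
      have hL0 : 0 ≤ L' := by linarith [abs_nonneg μ', hμ1]
      have h2m : (2:ℝ) ^ m ≠ 0 := by positivity
      have hsum1 : ∑ y : Fin m → Bool, (1:ℝ) = 2 ^ m := by simp
      refine ⟨fun x => if x 0 = true then true else g' (Fin.tail x), (1 + μ') / 2,
        (1 - μ') / 2 + L' / 2, ⟨?_, ?_, ?_⟩, ?_, ?_, ?_⟩
      · rw [sum_succ, Fintype.card_fin]
        simp only [Fin.cons_zero, Fin.tail_cons, reduceCtorEq, if_false, if_true, sg_true]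
        rw [Finset.sum_add_distrib, hsum1]
        have := hg'.mean
        rw [Fintype.card_fin] at this
        rw [this, pow_succ]; ring
      · intro S hS
        have : S.card ≤ m + 1 := by simpa using Finset.card_le_univ S
        omega
      · rw [Fin.sum_univ_succ, Fintype.card_fin]
        have h1 : ∑ x : Fin (m + 1) → Bool,
            sg (if x 0 = true then true else g' (Fin.tail x)) * sg (x 0) = (1 - μ') * 2 ^ m := by
          rw [sum_succ]
          simp only [Fin.cons_zero, Fin.tail_cons, reduceCtorEq, if_false, if_true, sg_true, sg_false,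
            mul_one]
          rw [Finset.sum_add_distrib, hsum1]
          have := hg'.mean
          rw [Fintype.card_fin] at this
          simp only [mul_neg, mul_one, Finset.sum_neg_distrib, this]
          ring
        have h2 : ∀ j : Fin m, ∑ x : Fin (m + 1) → Bool,
            sg (if x 0 = true then true else g' (Fin.tail x)) * sg (x j.succ)
            = ∑ y, sg (g' y) * sg (y j) := by
          intro j
          rw [sum_succ]
          simp only [Fin.cons_zero, Fin.tail_cons, Fin.cons_succ, reduceCtorEq, if_false, if_true, sg_true,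
            one_mul]
          rw [Finset.sum_add_distrib, sum_sg_coord, add_zero]
        rw [h1]
        simp_rw [h2]
        have h3 := hg'.lvl
        rw [Fintype.card_fin] at h3
        rw [← h3, Finset.sum_div, pow_succ]
        have : ∀ j : Fin m, (∑ y, sg (g' y) * sg (y j)) / ((2:ℝ) ^ m * 2)
            = ((∑ y, sg (g' y) * sg (y j)) / 2 ^ m) / 2 := by
          intro j; field_simp
        simp_rw [this]
        have e : (1 - μ') * (2:ℝ) ^ m / (2 ^ m * 2) = (1 - μ') / 2 := by field_simp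
        rw [e]
      · have e : (1 + μ') / 2 - a = (μ' - (2 * a - 1)) / 2 := by ring
        rw [e, abs_div, abs_two, pow_succ]
        calc |μ' - (2 * a - 1)| / 2 ≤ (2 / 2 ^ m) / 2 := by gcongr
          _ = 2 / (2 ^ m * 2) := by field_simp
      · rw [abs_le]; constructor <;> linarith
      · have : |(1 + μ') / 2| ≤ 1 := by rw [abs_le]; constructor <;> linarith
        have h5 : (1 + μ') / 2 ≤ |(1 + μ') / 2| := le_abs_self _
        linarith
    · -- s = -1, trigger on false
      push Not at h0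
      obtain ⟨g', μ', L', hg', hμ, hμ1, hL⟩ := ih (2 * a + 1) (by rw [abs_le]; constructor <;> linarith)
      have hμ1' := abs_le.mp hμ1
      have hμ' := abs_le.mp hμ
      have hL0 : 0 ≤ L' := by linarith [abs_nonneg μ', hμ1]
      have h2m : (2:ℝ) ^ m ≠ 0 := by positivity
      have hsum1 : ∑ y : Fin m → Bool, (1:ℝ) = 2 ^ m := by simp
      refine ⟨fun x => if x 0 = false then false else g' (Fin.tail x), (-1 + μ') / 2,
        (1 + μ') / 2 + L' / 2, ⟨?_, ?_, ?_⟩, ?_, ?_, ?_⟩
      · rw [sum_succ, Fintype.card_fin]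
        simp only [Fin.cons_zero, Fin.tail_cons, reduceCtorEq, if_false, if_true, sg_false]
        rw [Finset.sum_add_distrib]
        simp only [Finset.sum_neg_distrib, hsum1]
        have := hg'.mean
        rw [Fintype.card_fin] at this
        rw [this, pow_succ]; ring
      · intro S hS
        have : S.card ≤ m + 1 := by simpa using Finset.card_le_univ S
        omega
      · rw [Fin.sum_univ_succ, Fintype.card_fin]
        have h1 : ∑ x : Fin (m + 1) → Bool,
            sg (if x 0 = false then false else g' (Fin.tail x)) * sg (x 0) = (1 + μ') * 2 ^ m := by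
          rw [sum_succ]
          simp only [Fin.cons_zero, Fin.tail_cons, reduceCtorEq, if_false, if_true, sg_true, sg_false,
            mul_one]
          rw [Finset.sum_add_distrib]
          have := hg'.mean
          rw [Fintype.card_fin] at this
          simp only [mul_neg, mul_one, neg_neg, hsum1, this]
          ring
        have h2 : ∀ j : Fin m, ∑ x : Fin (m + 1) → Bool,
            sg (if x 0 = false then false else g' (Fin.tail x)) * sg (x j.succ)
            = ∑ y, sg (g' y) * sg (y j) := by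
          intro j
          rw [sum_succ]
          simp only [Fin.cons_zero, Fin.tail_cons, Fin.cons_succ, reduceCtorEq, if_false, if_true, sg_false,
            neg_mul, one_mul]
          rw [Finset.sum_add_distrib, Finset.sum_neg_distrib, sum_sg_coord, neg_zero, zero_add]
        rw [h1]
        simp_rw [h2]
        have h3 := hg'.lvl
        rw [Fintype.card_fin] at h3
        rw [← h3, Finset.sum_div, pow_succ]
        have : ∀ j : Fin m, (∑ y, sg (g' y) * sg (y j)) / ((2:ℝ) ^ m * 2)
            = ((∑ y, sg (g' y) * sg (y j)) / 2 ^ m) / 2 := by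
          intro j; field_simp
        simp_rw [this]
        have e : (1 + μ') * (2:ℝ) ^ m / (2 ^ m * 2) = (1 + μ') / 2 := by field_simp
        rw [e]
      · have e : (-1 + μ') / 2 - a = (μ' - (2 * a + 1)) / 2 := by ring
        rw [e, abs_div, abs_two, pow_succ]
        calc |μ' - (2 * a + 1)| / 2 ≤ (2 / 2 ^ m) / 2 := by gcongr
          _ = 2 / (2 ^ m * 2) := by field_simp
      · rw [abs_le]; constructor <;> linarith
      · have : |(-1 + μ') / 2| ≤ 1 := by rw [abs_le]; constructor <;> linarith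
        have h5 : -((-1 + μ') / 2) ≤ |(-1 + μ') / 2| := neg_le_abs _
        linarith

end gadget

section final

variable {ι : Type} [Fintype ι] [DecidableEq ι]

/-- The orbit lemma. -/
theorem orbit (f : (ι → Bool) → Bool) (d : ℕ)
    (hdeg : ∀ S : Finset ι, d < S.card → ∑ x, sg (f x) * chi S x = 0)
    {a ε M Lam : ℝ} (hfix : P f a = a) (hM1 : 1 ≤ M) (hLam : 0 ≤ Lam)
    (hLip : ∀ t, |t - a| < ε → |P f t - a| ≤ M * |t - a|)
    (hSl : ∀ t, |t - a| < ε → Lam ≤ |dP f t|)
    {m d0 : ℕ} {g : (Fin m → Bool) → Bool} {μ₀ L₀ : ℝ} (hg : BGate g d0 μ₀ L₀) (k : ℕ)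
    (hk : M ^ k * |μ₀ - a| < ε) :
    ∃ (n : ℕ) (F : (Fin n → Bool) → Bool) (μ L : ℝ), BGate F (d ^ k * d0) μ L ∧
      |μ - a| ≤ M ^ k * |μ₀ - a| ∧ Lam ^ k * |L₀| ≤ |L| := by
  induction k with
  | zero =>
    exact ⟨m, g, μ₀, L₀, by simpa using hg, by simp, by simp⟩
  | succ k ih =>
    have hδ : 0 ≤ |μ₀ - a| := abs_nonneg _
    have hMk : 0 < M ^ k := by positivity
    have hstep : M ^ k * |μ₀ - a| ≤ M ^ (k + 1) * |μ₀ - a| := by
      apply mul_le_mul_of_nonneg_right _ hδ
      rw [pow_succ]; nlinarith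
    obtain ⟨n, F, μ, L, hF, hμ, hL⟩ := ih (lt_of_le_of_lt hstep hk)
    have hμε : |μ - a| < ε := lt_of_le_of_lt (hμ.trans hstep) hk
    have hc := (BGate.comp hdeg hF).transport (Fintype.equivFin (ι × Fin n)).symm
    have e1 : d * (d ^ k * d0) = d ^ (k + 1) * d0 := by ring
    rw [e1] at hc
    refine ⟨_, _, _, _, hc, ?_, ?_⟩
    · calc |P f μ - a| ≤ M * |μ - a| := hLip μ hμε
        _ ≤ M * (M ^ k * |μ₀ - a|) := by gcongr
        _ = M ^ (k + 1) * |μ₀ - a| := by ring
    · rw [abs_mul]
      calc Lam ^ (k + 1) * |L₀| = Lam * (Lam ^ k * |L₀|) := by ring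
        _ ≤ |dP f μ| * |L| := by
            apply mul_le_mul (hSl μ hμε) hL (by positivity) (abs_nonneg _)

/-- Unbounded growth of exponentials over linear functions. -/
lemma exists_pow_gt {r : ℝ} (hr : 1 < r) (K₁ K₂ : ℝ) : ∃ k : ℕ, K₁ + K₂ * k < r ^ k := by
  have h0 := tendsto_pow_const_div_const_pow_of_one_lt 0 hr
  have h1 := tendsto_pow_const_div_const_pow_of_one_lt 1 hr
  have h := (h0.const_mul K₁).add (h1.const_mul K₂)
  simp only [mul_zero, add_zero] at h
  obtain ⟨k, hk⟩ := (h.eventually (gt_mem_nhds zero_lt_one)).exists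
  refine ⟨k, ?_⟩
  have hp : 0 < r ^ k := by positivity
  have e : K₁ * ((k:ℝ) ^ 0 / r ^ k) + K₂ * ((k:ℝ) ^ 1 / r ^ k) = (K₁ + K₂ * k) / r ^ k := by
    field_simp
  rw [e, div_lt_one hp] at hk
  exact hk

lemma arith_pow (A B k : ℕ) : ((2:ℝ) ^ B) ^ k * (2 / (2 ^ A * (2 ^ B) ^ k)) = 2 / 2 ^ A := by
  have h1 : (2:ℝ) ^ A ≠ 0 := by positivity
  have h2 : ((2:ℝ) ^ B) ^ k ≠ 0 := by positivity
  field_simp

/-- **S0085 from a biased gate.** -/
theorem final_of_fixed (f : (ι → Bool) → Bool) (d : ℕ) (hd : 0 < d)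
    (hdeg : ∀ S : Finset ι, d < S.card → ∑ x, sg (f x) * chi S x = 0)
    (a : ℝ) (ha : |a| < 1) (hfix : P f a = a) (hs : Real.sqrt d < |dP f a|) (C : ℝ) (hC : 0 < C) :
    ∃ n : ℕ, ∃ f : (Fin n → Bool) → Bool, ∃ d : ℕ,
      (∃ x y, f x ≠ f y) ∧
      (∀ S : Finset (Fin n), d < S.card →
        ∑ x : Fin n → Bool, ((if f x then (1 : ℝ) else -1) * ∏ i ∈ S, (if x i then (1 : ℝ) else -1)) = 0) ∧
      C * Real.sqrt d <
        ∑ i : Fin n, (∑ x : Fin n → Bool, ((if f x then (1 : ℝ) else -1) * (if x i then (1 : ℝ) else -1))) / 2 ^ n := by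
  classical
  have hsd : 0 < Real.sqrt d := Real.sqrt_pos.mpr (by exact_mod_cast hd)
  obtain ⟨Lam, hLamdef⟩ : ∃ Lam : ℝ, Lam = (Real.sqrt d + |dP f a|) / 2 := ⟨_, rfl⟩
  have hLam1 : Real.sqrt d < Lam := by rw [hLamdef]; linarith
  have hLam2 : Lam < |dP f a| := by rw [hLamdef]; linarith
  have hLam0 : 0 < Lam := by linarith
  -- neighbourhood where the slope stays large
  have hcont : Continuous (fun t => |dP f t|) := (continuous_dP f).abs
  have hnh : ∀ᶠ t in nhds a, Lam < |dP f t| :=
    hcont.continuousAt.eventually (lt_mem_nhds hLam2)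
  obtain ⟨ε₀, hε₀, hball⟩ := Metric.eventually_nhds_iff.mp hnh
  obtain ⟨c, hcdef⟩ : ∃ c : ℝ, c = (1 - |a|) / 2 := ⟨_, rfl⟩
  have hc : 0 < c := by rw [hcdef]; linarith
  obtain ⟨ε, hεdef⟩ : ∃ ε : ℝ, ε = min ε₀ c := ⟨_, rfl⟩
  have hε : 0 < ε := by rw [hεdef]; exact lt_min hε₀ hc
  have hSl : ∀ t, |t - a| < ε → Lam ≤ |dP f t| := by
    intro t ht
    have h1 : dist t a < ε₀ := by
      rw [Real.dist_eq]; rw [hεdef] at ht; exact lt_of_lt_of_le ht (min_le_left _ _)
    exact (hball h1).le
  -- Lipschitz bound on [-1,1]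
  obtain ⟨M, hMdef⟩ : ∃ M : ℝ, M = ∑ S : Finset ι, |fh f S| * (S.card : ℝ) + 1 := ⟨_, rfl⟩
  have hM0 : 0 ≤ ∑ S : Finset ι, |fh f S| * (S.card : ℝ) :=
    Finset.sum_nonneg (fun S _ => by positivity)
  have hM1 : 1 ≤ M := by rw [hMdef]; linarith
  have hdPb : ∀ t, t ∈ Set.Icc (-1:ℝ) 1 → ‖dP f t‖ ≤ M := by
    intro t ht
    have ht' : |t| ≤ 1 := abs_le.mpr ht
    rw [Real.norm_eq_abs]
    unfold dP
    calc |∑ S : Finset ι, fh f S * ((S.card : ℝ) * t ^ (S.card - 1))|
        ≤ ∑ S : Finset ι, |fh f S * ((S.card : ℝ) * t ^ (S.card - 1))| :=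
          Finset.abs_sum_le_sum_abs _ _
      _ ≤ ∑ S : Finset ι, |fh f S| * (S.card : ℝ) := by
          apply Finset.sum_le_sum
          intro S _
          rw [abs_mul, abs_mul, abs_pow, Nat.abs_cast]
          have : |t| ^ (S.card - 1) ≤ 1 := pow_le_one₀ (abs_nonneg _) ht'
          have h3 : (S.card : ℝ) * |t| ^ (S.card - 1) ≤ (S.card : ℝ) * 1 :=
            mul_le_mul_of_nonneg_left this (by positivity)
          rw [mul_one] at h3
          exact mul_le_mul_of_nonneg_left h3 (abs_nonneg _)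
      _ ≤ M := by rw [hMdef]; linarith
  have hLip : ∀ t, |t - a| < ε → |P f t - a| ≤ M * |t - a| := by
    intro t ht
    have hcε : ε ≤ c := by rw [hεdef]; exact min_le_right _ _
    have ha' := abs_lt.mp ha
    have ht' := abs_lt.mp ht
    have hca : c = (1 - |a|) / 2 := hcdef
    have h1 : a ≤ |a| := le_abs_self a
    have h2 : -a ≤ |a| := neg_le_abs a
    have htm : t ∈ Set.Icc (-1:ℝ) 1 := by
      constructor <;> nlinarith [ht'.1, ht'.2]
    have ham : a ∈ Set.Icc (-1:ℝ) 1 := ⟨ha'.1.le, ha'.2.le⟩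
    have := (convex_Icc (-1:ℝ) 1).norm_image_sub_le_of_norm_hasDerivWithin_le
      (f := P f) (f' := dP f) (fun x _ => (hasDerivAt_P f x).hasDerivWithinAt) hdPb ham htm
    rw [hfix] at this
    simpa [Real.norm_eq_abs] using this
  -- parameters
  obtain ⟨A0, hA0⟩ : ∃ A : ℕ, 2 / (2:ℝ) ^ A < min ε c := by
    have h0 := tendsto_pow_atTop_nhds_zero_of_lt_one (r := (1/2:ℝ)) (by norm_num) (by norm_num)
    have h := h0.const_mul (2:ℝ)
    rw [mul_zero] at h
    obtain ⟨A, hA⟩ := (h.eventually (gt_mem_nhds (lt_min hε hc))).exists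
    refine ⟨A, ?_⟩
    have e : (2:ℝ) / 2 ^ A = 2 * (1 / 2) ^ A := by
      rw [one_div, inv_pow]; rfl
    rw [e]; exact hA
  obtain ⟨A, hAdef⟩ : ∃ A : ℕ, A = A0 + 1 := ⟨_, rfl⟩
  have hA : 2 / (2:ℝ) ^ A < min ε c := by
    refine lt_of_le_of_lt ?_ hA0
    apply div_le_div_of_nonneg_left (by norm_num) (by positivity)
    exact pow_le_pow_right₀ (by norm_num) (by omega)
  obtain ⟨B, hB⟩ : ∃ B : ℕ, M ≤ (2:ℝ) ^ B := by
    obtain ⟨B, hB⟩ := pow_unbounded_of_one_lt M (by norm_num : (1:ℝ) < 2)
    exact ⟨B, hB.le⟩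
  have hr : 1 < Lam / Real.sqrt d := (one_lt_div hsd).mpr hLam1
  obtain ⟨k, hk⟩ := exists_pow_gt hr (C / c * (A : ℝ)) (C / c * (B : ℝ))
  obtain ⟨m, hmdef⟩ : ∃ m : ℕ, m = A + B * k := ⟨_, rfl⟩
  have hm1 : 1 ≤ m := by omega
  have hpm : (2:ℝ) ^ m = 2 ^ A * (2 ^ B) ^ k := by rw [hmdef, pow_add, pow_mul]
  have h2m : 2 / (2:ℝ) ^ m ≤ 2 / 2 ^ A := by
    apply div_le_div_of_nonneg_left (by norm_num) (by positivity)
    exact pow_le_pow_right₀ (by norm_num) (by omega)
  -- bias gadget
  obtain ⟨g, μ₀, L₀, hg, hμ₀, hμ₁, hL₀⟩ := gadget m a ha.le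
  have hMk : M ^ k * |μ₀ - a| ≤ 2 / 2 ^ A := by
    calc M ^ k * |μ₀ - a| ≤ (2 ^ B) ^ k * (2 / 2 ^ m) := by gcongr
      _ = 2 / 2 ^ A := by rw [hpm]; exact arith_pow A B k
  have hk1 : M ^ k * |μ₀ - a| < ε :=
    lt_of_le_of_lt hMk (lt_of_lt_of_le hA (min_le_left _ _))
  have h2c : 2 / (2:ℝ) ^ m < c := lt_of_le_of_lt h2m (lt_of_lt_of_le hA (min_le_right _ _))
  have hL₀c : c ≤ |L₀| := by
    have h1 : |μ₀| ≤ |a| + |μ₀ - a| := by
      have := abs_add_le a (μ₀ - a)
      simpa using this
    have h2 : |μ₀ - a| < c := lt_of_le_of_lt hμ₀ h2c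
    have h3 : c = (1 - |a|) / 2 := hcdef
    have h4 : c ≤ L₀ := by linarith
    exact h4.trans (le_abs_self _)
  obtain ⟨n, F, μ, L, hF, -, hL⟩ := orbit f d hdeg hfix hM1 hLam0.le hLip hSl hg k hk1
  have hLlow : Lam ^ k * c ≤ |L| :=
    le_trans (mul_le_mul_of_nonneg_left hL₀c (by positivity)) hL
  -- arithmetic
  have hD : C * Real.sqrt ((d ^ k * m : ℕ) : ℝ) < Lam ^ k * c := by
    have hsq : Real.sqrt ((d ^ k * m : ℕ) : ℝ) = (Real.sqrt d) ^ k * Real.sqrt m := by
      push_cast
      rw [Real.sqrt_mul (by positivity)]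
      congr 1
      rw [Real.sqrt_eq_iff_mul_self_eq (by positivity) (by positivity)]
      rw [← mul_pow, Real.mul_self_sqrt (by positivity)]
    rw [hsq]
    have hsm : Real.sqrt m ≤ m := by
      have hm1' : (1:ℝ) ≤ m := by exact_mod_cast hm1
      rw [Real.sqrt_le_left (by positivity)]
      nlinarith
    have hk2 : C / c * (m : ℝ) < (Lam / Real.sqrt d) ^ k := by
      have e : C / c * (m : ℝ) = C / c * (A : ℝ) + C / c * (B : ℝ) * k := by
        rw [hmdef]; push_cast; ring
      rw [e]; exact hk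
    rw [div_pow, lt_div_iff₀ (by positivity)] at hk2
    have hs0 : 0 < (Real.sqrt d) ^ k := by positivity
    have h5 : C * (Real.sqrt d ^ k * Real.sqrt m) ≤ C * (Real.sqrt d ^ k * m) := by gcongr
    have h6 : C * (Real.sqrt d ^ k * m) = (C / c * m * Real.sqrt d ^ k) * c := by
      field_simp
    have h7 : (C / c * m * Real.sqrt d ^ k) * c < Lam ^ k * c :=
      mul_lt_mul_of_pos_right hk2 hc
    linarith
  -- choose the sign
  have hLval : ∑ i, (∑ x, sg (F x) * sg (x i)) / 2 ^ n = L := by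
    have := hF.lvl
    rwa [Fintype.card_fin] at this
  have hCd : 0 ≤ C * Real.sqrt ((d ^ k * m : ℕ) : ℝ) := by positivity
  have hnc : ∀ G : (Fin n → Bool) → Bool,
      0 < ∑ i, (∑ x, sg (G x) * sg (x i)) / 2 ^ n → ∃ x y, G x ≠ G y := by
    intro G hG
    by_contra hcon
    push Not at hcon
    have : ∀ i : Fin n, ∑ x, sg (G x) * sg (x i) = 0 := by
      intro i
      have e : ∀ x, sg (G x) = sg (G (fun _ => true)) := fun x => by rw [hcon x (fun _ => true)]
      simp_rw [e]
      rw [← Finset.mul_sum, sum_sg_coord, mul_zero]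
    simp [this] at hG
  by_cases hLs : 0 ≤ L
  · refine ⟨n, F, d ^ k * m, ?_, ?_, ?_⟩
    · apply hnc
      rw [hLval]
      have : L = |L| := (abs_of_nonneg hLs).symm
      rw [this]
      linarith
    · intro S hS
      have := hF.deg S hS
      simpa [sg, chi] using this
    · have : C * Real.sqrt ((d ^ k * m : ℕ) : ℝ) < L := by
        rw [abs_of_nonneg hLs] at hLlow
        linarith
      refine lt_of_lt_of_eq this ?_
      rw [← hLval]
      simp [sg]
  · push Not at hLs
    have hneg : ∑ i, (∑ x, sg (!F x) * sg (x i)) / 2 ^ n = -L := by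
      rw [← hLval, ← Finset.sum_neg_distrib]
      refine Finset.sum_congr rfl (fun i _ => ?_)
      rw [← neg_div, ← Finset.sum_neg_distrib]
      congr 1
      refine Finset.sum_congr rfl (fun x _ => ?_)
      cases F x <;> simp
    refine ⟨n, fun x => !F x, d ^ k * m, ?_, ?_, ?_⟩
    · apply hnc
      rw [hneg]
      linarith
    · intro S hS
      have := hF.deg S hS
      have h2 : ∑ x, sg (!F x) * chi S x = 0 := by
        have e : ∀ x, sg (!F x) * chi S x = -(sg (F x) * chi S x) := by
          intro x; cases F x <;> simp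
        simp_rw [e]
        rw [Finset.sum_neg_distrib, this, neg_zero]
      simpa [sg, chi] using h2
    · have : C * Real.sqrt ((d ^ k * m : ℕ) : ℝ) < -L := by
        rw [abs_of_neg hLs] at hLlow
        linarith
      refine lt_of_lt_of_eq this ?_
      rw [← hneg]
      simp [sg]

/-- Bracket version: no need to know the fixed point exactly. -/
theorem final_of_bracket (f : (ι → Bool) → Bool) (d : ℕ) (hd : 0 < d)
    (hdeg : ∀ S : Finset ι, d < S.card → ∑ x, sg (f x) * chi S x = 0)
    (a₁ a₂ : ℝ) (h1 : -1 < a₁) (h12 : a₁ ≤ a₂) (h2 : a₂ < 1)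
    (hsign : (P f a₁ - a₁) * (P f a₂ - a₂) ≤ 0)
    (hs : ∀ t ∈ Set.Icc a₁ a₂, Real.sqrt d < |dP f t|) (C : ℝ) (hC : 0 < C) :
    ∃ n : ℕ, ∃ f : (Fin n → Bool) → Bool, ∃ d : ℕ,
      (∃ x y, f x ≠ f y) ∧
      (∀ S : Finset (Fin n), d < S.card →
        ∑ x : Fin n → Bool, ((if f x then (1 : ℝ) else -1) * ∏ i ∈ S, (if x i then (1 : ℝ) else -1)) = 0) ∧
      C * Real.sqrt d <
        ∑ i : Fin n, (∑ x : Fin n → Bool, ((if f x then (1 : ℝ) else -1) * (if x i then (1 : ℝ) else -1))) / 2 ^ n := by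
  have hcont : Continuous (fun t => P f t - t) := (continuous_P f).sub continuous_id
  have hex : ∃ a ∈ Set.Icc a₁ a₂, P f a - a = 0 := by
    have hcon := hcont.continuousOn (s := Set.Icc a₁ a₂)
    by_cases hs1 : P f a₁ - a₁ ≤ 0
    · by_cases hs2 : 0 ≤ P f a₂ - a₂
      · have := intermediate_value_Icc h12 hcon ⟨hs1, hs2⟩
        obtain ⟨a, ha, hv⟩ := this
        exact ⟨a, ha, hv⟩
      · push Not at hs2
        -- both nonpositive with product ≤ 0: one vanishes
        have : P f a₁ - a₁ = 0 := by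
          by_contra hne
          have h3 : P f a₁ - a₁ < 0 := lt_of_le_of_ne hs1 hne
          have := mul_pos_of_neg_of_neg h3 hs2
          linarith
        exact ⟨a₁, ⟨le_refl _, h12⟩, this⟩
    · push Not at hs1
      by_cases hs2 : P f a₂ - a₂ ≤ 0
      · have := intermediate_value_Icc' h12 hcon ⟨hs2, hs1.le⟩
        obtain ⟨a, ha, hv⟩ := this
        exact ⟨a, ha, hv⟩
      · push Not at hs2
        have := mul_pos hs1 hs2
        linarith
  obtain ⟨a, ha, hfix⟩ := hex
  have ha' : |a| < 1 := abs_lt.mpr ⟨by linarith [ha.1], by linarith [ha.2]⟩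
  exact final_of_fixed f d hd hdeg a ha' (by linarith) (hs a ha) C hC

end final

end Crest.Agent.H5Biased
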