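import Mathlib

set_option autoImplicit false
set_option linter.unusedSectionVars false

namespace Crest.Agent.H9S85Comp

open Finset

/-- sign of a Boolean -/
noncomputable def sg (b : Bool) : ℝ := if b then 1 else -1

lemma sg_mul_self (b : Bool) : sg b * sg b = 1 := by cases b <;> simp [sg]

lemma sum_sg : ∑ b : Bool, sg b = 0 := by simp [sg]

lemma sum_prod_pi {κ α : Type} [Fintype κ] [DecidableEq κ] [Fintype α]
    (φ : κ → α → ℝ) :
    ∑ x : κ → α, ∏ j, φ j (x j) = ∏ j, ∑ a, φ j a := by
  have := (Finset.prod_univ_sum (fun _ : κ => (Finset.univ : Finset α)) φ).symm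
  simpa [Fintype.piFinset_univ] using this

variable {ι κ : Type} [Fintype ι] [DecidableEq ι] [Fintype κ] [DecidableEq κ]

/-- unnormalised Walsh coefficient -/
noncomputable def coef (f : (ι → Bool) → Bool) (S : Finset ι) : ℝ :=
  ∑ x : ι → Bool, sg (f x) * ∏ i ∈ S, sg (x i)

/-- character sum -/
noncomputable def chsum (S : Finset ι) : ℝ := ∑ x : ι → Bool, ∏ i ∈ S, sg (x i)

lemma prod_mem_eq (S : Finset ι) (h : ι → ℝ) :
    ∏ i ∈ S, h i = ∏ i, (if i ∈ S then h i else 1) := by
  rw [Finset.prod_ite_mem]; simp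

lemma chsum_eq_prod (S : Finset ι) :
    chsum S = ∏ i, (if i ∈ S then (0 : ℝ) else 2) := by
  unfold chsum
  have h1 : ∀ x : ι → Bool, ∏ i ∈ S, sg (x i) = ∏ i, (if i ∈ S then sg (x i) else 1) :=
    fun x => prod_mem_eq S _
  simp_rw [h1]
  have := sum_prod_pi (κ := ι) (α := Bool) (fun i b => if i ∈ S then sg b else 1)
  rw [this]
  refine Finset.prod_congr rfl fun i _ => ?_
  by_cases hi : i ∈ S
  · simp [hi, sg]
  · simp [hi]

lemma chsum_empty : chsum (∅ : Finset ι) = 2 ^ Fintype.card ι := by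
  rw [chsum_eq_prod]; simp [Finset.card_univ]

lemma chsum_of_nonempty {S : Finset ι} (h : S.Nonempty) : chsum S = 0 := by
  rw [chsum_eq_prod]
  obtain ⟨i, hi⟩ := h
  exact Finset.prod_eq_zero (Finset.mem_univ i) (by simp [hi])

/-- Fourier inversion -/
lemma inversion (g : (κ → Bool) → Bool) (y : κ → Bool) :
    sg (g y) = ∑ T : Finset κ, (coef g T / 2 ^ Fintype.card κ) * ∏ j ∈ T, sg (y j) := by
  have hpow : (2 : ℝ) ^ Fintype.card κ ≠ 0 := by positivity
  have key : ∀ x : κ → Bool, ∑ T : Finset κ, (∏ j ∈ T, sg (x j)) * ∏ j ∈ T, sg (y j)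
      = if x = y then (2 : ℝ) ^ Fintype.card κ else 0 := by
    intro x
    have h0 : ∀ T : Finset κ, (∏ j ∈ T, sg (x j)) * ∏ j ∈ T, sg (y j)
        = ∏ j ∈ T, (sg (x j) * sg (y j)) := fun T => (Finset.prod_mul_distrib).symm
    simp_rw [h0]
    have h1 := Finset.prod_add_one (s := (Finset.univ : Finset κ)) (f := fun j => sg (x j) * sg (y j))
    rw [Finset.powerset_univ] at h1
    rw [← h1]
    by_cases hxy : x = y
    · subst hxy
      simp [sg_mul_self, Finset.card_univ]
      norm_num
    · rw [if_neg hxy]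
      obtain ⟨j, hj⟩ := Function.ne_iff.mp hxy
      refine Finset.prod_eq_zero (Finset.mem_univ j) ?_
      cases hx : x j <;> cases hy : y j <;> simp_all [sg]
  have : ∑ T : Finset κ, (coef g T / 2 ^ Fintype.card κ) * ∏ j ∈ T, sg (y j)
      = (∑ x : κ → Bool, sg (g x) * ∑ T : Finset κ, (∏ j ∈ T, sg (x j)) * ∏ j ∈ T, sg (y j))
        / 2 ^ Fintype.card κ := by
    unfold coef
    simp_rw [Finset.mul_sum, Finset.sum_div, Finset.sum_mul]
    rw [Finset.sum_comm]
    refine Finset.sum_congr rfl fun x _ => Finset.sum_congr rfl fun T _ => ?_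
    ring
  rw [this]
  simp_rw [key]
  simp [hpow]

/-- block composition -/
def comp (g : (κ → Bool) → Bool) (F : (ι → Bool) → Bool) : ((κ × ι) → Bool) → Bool :=
  fun x => g (fun j => F (fun i => x (j, i)))

/-- fibre of a set of pairs -/
def fib (S : Finset (κ × ι)) (j : κ) : Finset ι := Finset.univ.filter fun i => (j, i) ∈ S

lemma prod_fib (S : Finset (κ × ι)) (z : κ → ι → Bool) :
    ∏ p ∈ S, sg (z p.1 p.2) = ∏ j, ∏ i ∈ fib S j, sg (z j i) := by
  rw [prod_mem_eq S]
  rw [Fintype.prod_prod_type]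
  refine Finset.prod_congr rfl fun j _ => ?_
  unfold fib
  rw [Finset.prod_filter]

lemma coef_comp (g : (κ → Bool) → Bool) (F : (ι → Bool) → Bool) (S : Finset (κ × ι)) :
    coef (comp g F) S = ∑ T : Finset κ, (coef g T / 2 ^ Fintype.card κ) *
      ∏ j, (if j ∈ T then coef F (fib S j) else chsum (fib S j)) := by
  have e1 : coef (comp g F) S
      = ∑ z : κ → ι → Bool, sg (g fun j => F (z j)) * ∏ j, ∏ i ∈ fib S j, sg (z j i) := by
    unfold coef
    rw [← (Equiv.curry κ ι Bool).sum_comp]
    refine Finset.sum_congr rfl fun x _ => ?_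
    have := prod_fib S (Equiv.curry κ ι Bool x)
    simp only [Equiv.curry_apply, Function.curry_apply] at this ⊢
    rw [← this]
    rfl
  rw [e1]
  have e0 : ∀ z : κ → ι → Bool, sg (g fun j => F (z j))
      = ∑ T : Finset κ, (coef g T / 2 ^ Fintype.card κ) * ∏ j ∈ T, sg (F (z j)) :=
    fun z => inversion g _
  simp_rw [e0, Finset.sum_mul]
  rw [Finset.sum_comm]
  refine Finset.sum_congr rfl fun T _ => ?_
  have e2 : ∀ z : κ → ι → Bool,
      (coef g T / 2 ^ Fintype.card κ * ∏ j ∈ T, sg (F (z j))) * ∏ j, ∏ i ∈ fib S j, sg (z j i)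
      = (coef g T / 2 ^ Fintype.card κ) *
        ∏ j, ((if j ∈ T then sg (F (z j)) else 1) * ∏ i ∈ fib S j, sg (z j i)) := by
    intro z
    rw [Finset.prod_mul_distrib, ← prod_mem_eq T (fun j => sg (F (z j)))]
    ring
  simp_rw [e2]
  rw [← Finset.mul_sum]
  rw [sum_prod_pi (κ := κ) (α := ι → Bool)
    (fun j y => (if j ∈ T then sg (F y) else 1) * ∏ i ∈ fib S j, sg (y i))]
  congr 1
  refine Finset.prod_congr rfl fun j _ => ?_
  by_cases hj : j ∈ T
  · simp only [hj, if_true]; rfl
  · simp only [hj, if_false, one_mul]; rfl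

lemma card_eq_sum_fib (S : Finset (κ × ι)) : S.card = ∑ j, (fib S j).card := by
  classical
  have h : S.card = ∑ p : κ × ι, (if p ∈ S then 1 else 0) := by
    simp
  rw [h, Fintype.sum_prod_type]
  refine Finset.sum_congr rfl fun j _ => ?_
  unfold fib
  rw [Finset.card_filter]

lemma degree_comp (g : (κ → Bool) → Bool) (F : (ι → Bool) → Bool) (D d : ℕ)
    (hg : ∀ T : Finset κ, D < T.card → coef g T = 0)
    (hF : ∀ T : Finset ι, d < T.card → coef F T = 0)
    (S : Finset (κ × ι)) (hS : D * d < S.card) : coef (comp g F) S = 0 := by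
  rw [coef_comp]
  refine Finset.sum_eq_zero fun T _ => ?_
  by_cases hT : D < T.card
  · rw [hg T hT]; simp
  · push Not at hT
    have hex : ∃ j, (if j ∈ T then coef F (fib S j) else chsum (fib S j)) = 0 := by
      by_contra hne
      push Not at hne
      have h1 : ∀ j, j ∉ T → fib S j = ∅ := by
        intro j hj
        by_contra hne'
        have := hne j
        rw [if_neg hj, chsum_of_nonempty (Finset.nonempty_iff_ne_empty.mpr hne')] at this
        exact this rfl
      have h2 : ∀ j ∈ T, (fib S j).card ≤ d := by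
        intro j hj
        by_contra hc
        push Not at hc
        have := hne j
        rw [if_pos hj, hF _ hc] at this
        exact this rfl
      have h3 : S.card ≤ D * d := by
        rw [card_eq_sum_fib]
        have : ∑ j, (fib S j).card = ∑ j ∈ T, (fib S j).card := by
          symm
          apply Finset.sum_subset (Finset.subset_univ T)
          intro j _ hj
          rw [h1 j hj]; simp
        rw [this]
        calc ∑ j ∈ T, (fib S j).card ≤ ∑ _j ∈ T, d := Finset.sum_le_sum h2
          _ = T.card * d := by simp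
          _ ≤ D * d := Nat.mul_le_mul_right _ hT
      omega
    obtain ⟨j, hj⟩ := hex
    rw [Finset.prod_eq_zero (Finset.mem_univ j) hj]; simp

lemma fib_empty (j : κ) : fib (∅ : Finset (κ × ι)) j = ∅ := by
  simp [fib]

lemma fib_singleton (j0 j : κ) (i0 : ι) :
    fib ({(j0, i0)} : Finset (κ × ι)) j = if j = j0 then {i0} else ∅ := by
  unfold fib
  by_cases hj : j = j0
  · subst hj
    ext i; simp [eq_comm]
  · rw [if_neg hj]
    ext i; simp [hj]

lemma balance_comp (g : (κ → Bool) → Bool) (F : (ι → Bool) → Bool)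
    (hg : coef g ∅ = 0) (hF : coef F ∅ = 0) : coef (comp g F) ∅ = 0 := by
  rw [coef_comp]
  refine Finset.sum_eq_zero fun T _ => ?_
  by_cases hT : T = ∅
  · subst hT; rw [hg]; simp
  · obtain ⟨j, hj⟩ := Finset.nonempty_iff_ne_empty.mpr hT
    have : (if j ∈ T then coef F (fib (∅ : Finset (κ × ι)) j)
        else chsum (fib (∅ : Finset (κ × ι)) j)) = 0 := by
      rw [if_pos hj, fib_empty, hF]
    rw [Finset.prod_eq_zero (Finset.mem_univ j) this]; simp

lemma single_comp (g : (κ → Bool) → Bool) (F : (ι → Bool) → Bool)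
    (hF : coef F ∅ = 0) (j0 : κ) (i0 : ι) :
    coef (comp g F) {(j0, i0)} / 2 ^ (Fintype.card κ * Fintype.card ι)
      = (coef g {j0} / 2 ^ Fintype.card κ) * (coef F {i0} / 2 ^ Fintype.card ι) := by
  rw [coef_comp]
  have hterm : ∀ T : Finset κ, T ≠ {j0} →
      (coef g T / 2 ^ Fintype.card κ) *
        ∏ j, (if j ∈ T then coef F (fib ({(j0, i0)} : Finset (κ × ι)) j)
          else chsum (fib ({(j0, i0)} : Finset (κ × ι)) j)) = 0 := by
    intro T hT
    by_cases hj0 : j0 ∈ T
    · obtain ⟨j, hj, hjne⟩ : ∃ j ∈ T, j ≠ j0 := by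
        by_contra hcon
        push Not at hcon
        apply hT
        ext a
        simp only [Finset.mem_singleton]
        exact ⟨hcon a, fun h => h ▸ hj0⟩
      have : (if j ∈ T then coef F (fib ({(j0, i0)} : Finset (κ × ι)) j)
          else chsum (fib ({(j0, i0)} : Finset (κ × ι)) j)) = 0 := by
        rw [if_pos hj, fib_singleton, if_neg hjne, hF]
      rw [Finset.prod_eq_zero (Finset.mem_univ j) this]; simp
    · have : (if j0 ∈ T then coef F (fib ({(j0, i0)} : Finset (κ × ι)) j0)
          else chsum (fib ({(j0, i0)} : Finset (κ × ι)) j0)) = 0 := by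
        rw [if_neg hj0, fib_singleton, if_pos rfl]
        exact chsum_of_nonempty (Finset.singleton_nonempty i0)
      rw [Finset.prod_eq_zero (Finset.mem_univ j0) this]; simp
  rw [Finset.sum_eq_single ({j0} : Finset κ) (fun T _ hT => hterm T hT) (by simp)]
  have hprod : ∏ j, (if j ∈ ({j0} : Finset κ) then coef F (fib ({(j0, i0)} : Finset (κ × ι)) j)
      else chsum (fib ({(j0, i0)} : Finset (κ × ι)) j))
      = coef F {i0} * ((2 : ℝ) ^ Fintype.card ι) ^ (Fintype.card κ - 1) := by
    rw [← Finset.mul_prod_erase Finset.univ _ (Finset.mem_univ j0)]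
    congr 1
    · simp [fib_singleton]
    · have : ∀ j ∈ Finset.univ.erase j0,
          (if j ∈ ({j0} : Finset κ) then coef F (fib ({(j0, i0)} : Finset (κ × ι)) j)
            else chsum (fib ({(j0, i0)} : Finset (κ × ι)) j)) = (2 : ℝ) ^ Fintype.card ι := by
        intro j hj
        have hne : j ≠ j0 := Finset.ne_of_mem_erase hj
        rw [if_neg (by simpa using hne), fib_singleton, if_neg hne, chsum_empty]
      rw [Finset.prod_congr rfl this, Finset.prod_const]
      simp [Finset.card_erase_of_mem, Finset.card_univ]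
  rw [hprod]
  have hpos : 0 < Fintype.card κ := Fintype.card_pos_iff.mpr ⟨j0⟩
  have hp : (2 : ℝ) ^ (Fintype.card κ * Fintype.card ι)
      = (2 : ℝ) ^ Fintype.card ι * ((2 : ℝ) ^ Fintype.card ι) ^ (Fintype.card κ - 1) := by
    rw [← pow_succ', ← pow_mul]
    congr 1
    have : Fintype.card κ - 1 + 1 = Fintype.card κ := by omega
    rw [this, Nat.mul_comm]
  rw [hp]
  have h2 : (2 : ℝ) ^ Fintype.card ι ≠ 0 := by positivity
  have h3 : ((2 : ℝ) ^ Fintype.card ι) ^ (Fintype.card κ - 1) ≠ 0 := by positivity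
  field_simp

/-- level one sum -/
noncomputable def lvl (f : (ι → Bool) → Bool) : ℝ :=
  ∑ i, coef f {i} / 2 ^ Fintype.card ι

lemma lvl_comp (g : (κ → Bool) → Bool) (F : (ι → Bool) → Bool) (hF : coef F ∅ = 0) :
    lvl (comp g F) = lvl g * lvl F := by
  unfold lvl
  rw [Fintype.card_prod, Fintype.sum_prod_type, Finset.sum_mul_sum]
  refine Finset.sum_congr rfl fun j _ => Finset.sum_congr rfl fun i _ => ?_
  exact single_comp g F hF j i

/-- one-step data bundled -/
structure Good (D : ℕ) (ℓ : ℝ) (k : ℕ) : Prop where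
  ex : ∃ (ι : Type) (_ : Fintype ι) (_ : DecidableEq ι) (F : (ι → Bool) → Bool),
    coef F ∅ = 0 ∧ (∀ S : Finset ι, D ^ k < S.card → coef F S = 0) ∧ lvl F = ℓ ^ k

lemma good_zero (D : ℕ) (ℓ : ℝ) : Good D ℓ 0 := by
  refine ⟨⟨Unit, inferInstance, inferInstance, fun x => x (), ?_, ?_, ?_⟩⟩
  · unfold coef
    have h : ∀ x : Unit → Bool, sg (x ()) * ∏ i ∈ (∅ : Finset Unit), sg (x i) = ∏ i : Unit, sg (x i) := by
      intro x; simp
    simp_rw [h]
    rw [sum_prod_pi (κ := Unit) (α := Bool) (fun _ b => sg b)]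
    simp [sg]
  · intro S hS
    exfalso
    have : S.card ≤ 1 := by
      calc S.card ≤ Fintype.card Unit := Finset.card_le_univ S
        _ = 1 := by simp
    simp at hS
    omega
  · unfold lvl coef
    have h : ∀ x : Unit → Bool, sg (x ()) * sg (x PUnit.unit) = 1 := fun x => sg_mul_self _
    simp [h]

lemma good_succ {κ' : Type} [Fintype κ'] [DecidableEq κ'] (g : (κ' → Bool) → Bool) (D : ℕ)
    (hg : ∀ T : Finset κ', D < T.card → coef g T = 0) (hb : coef g ∅ = 0) (k : ℕ)
    (h : Good D (lvl g) k) : Good D (lvl g) (k + 1) := by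
  obtain ⟨⟨ι', i1, i2, F, hF0, hFd, hFl⟩⟩ := h
  refine ⟨⟨κ' × ι', inferInstance, inferInstance, comp g F, balance_comp g F hb hF0, ?_, ?_⟩⟩
  · intro S hS
    refine degree_comp g F D (D ^ k) hg hFd S ?_
    rw [pow_succ', ] at hS
    exact hS
  · rw [lvl_comp g F hF0, hFl, pow_succ']

lemma coef_const {ι' : Type} [Fintype ι'] [DecidableEq ι'] (b : Bool) (i : ι') :
    ∑ x : ι' → Bool, sg b * sg (x i) = 0 := by
  rw [← Finset.mul_sum]
  have : ∑ x : ι' → Bool, sg (x i) = chsum {i} := by
    unfold chsum; simp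
  rw [this, chsum_of_nonempty (Finset.singleton_nonempty i)]; simp

/-- main reduction -/
theorem result_of_gate {κ' : Type} [Fintype κ'] [DecidableEq κ'] (g : (κ' → Bool) → Bool) (D : ℕ)
    (hg : ∀ T : Finset κ', D < T.card → coef g T = 0) (hb : coef g ∅ = 0)
    (hL : Real.sqrt D < lvl g) (C : ℝ) (hC : 0 < C) :
    ∃ n : ℕ, ∃ f : (Fin n → Bool) → Bool, ∃ d : ℕ,
      (∃ x y, f x ≠ f y) ∧
      (∀ S : Finset (Fin n), d < S.card →
        ∑ x : Fin n → Bool, ((if f x then (1 : ℝ) else -1) * ∏ i ∈ S, (if x i then (1 : ℝ) else -1)) = 0) ∧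
      C * Real.sqrt d <
        ∑ i : Fin n, (∑ x : Fin n → Bool, ((if f x then (1 : ℝ) else -1) * (if x i then (1 : ℝ) else -1))) / 2 ^ n := by
  -- choose k
  have hD : (0 : ℝ) ≤ Real.sqrt D := Real.sqrt_nonneg _
  have hDpos : 0 < D := by
    by_contra h0
    have hD0 : D = 0 := by omega
    -- degree zero: all nonempty coefficients vanish, so lvl g = 0
    have : lvl g = 0 := by
      unfold lvl
      refine Finset.sum_eq_zero fun j _ => ?_
      rw [hg {j} (by simp [hD0])]; simp
    rw [this] at hL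
    linarith
  have hsq : 0 < Real.sqrt D := Real.sqrt_pos.mpr (by exact_mod_cast hDpos)
  have hratio : 1 < lvl g / Real.sqrt D := by
    rw [one_lt_div hsq]; exact hL
  obtain ⟨k, hk⟩ := pow_unbounded_of_one_lt C hratio
  have hgood : ∀ k, Good D (lvl g) k := by
    intro k
    induction k with
    | zero => exact good_zero D _
    | succ k ih => exact good_succ g D hg hb k ih
  obtain ⟨⟨ι', i1, i2, F, hF0, hFd, hFl⟩⟩ := hgood k
  -- transfer to Fin
  let e : ι' ≃ Fin (Fintype.card ι') := Fintype.equivFin ι'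
  let E : (ι' → Bool) ≃ (Fin (Fintype.card ι') → Bool) := Equiv.arrowCongr e (Equiv.refl Bool)
  let f : (Fin (Fintype.card ι') → Bool) → Bool := fun x => F (E.symm x)
  have hE : ∀ (x : ι' → Bool) (i : ι'), E x (e i) = x i := by
    intro x i; simp [E, Equiv.arrowCongr]
  have hcoef : ∀ S : Finset ι',
      (∑ x : Fin (Fintype.card ι') → Bool,
        ((if f x then (1 : ℝ) else -1) * ∏ i ∈ S.map e.toEmbedding, (if x i then (1 : ℝ) else -1)))
      = coef F S := by
    intro S
    unfold coef
    rw [← E.sum_comp]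
    refine Finset.sum_congr rfl fun x _ => ?_
    have h1 : f (E x) = F x := by simp [f]
    rw [h1, Finset.prod_map]
    congr 1
    refine Finset.prod_congr rfl fun i _ => ?_
    simp only [Equiv.coe_toEmbedding, hE]
    rfl
  have hmap : ∀ S : Finset (Fin (Fintype.card ι')),
      (S.map e.symm.toEmbedding).map e.toEmbedding = S := by
    intro S
    ext a; simp
  have hL' : (∑ i : Fin (Fintype.card ι'), (∑ x : Fin (Fintype.card ι') → Bool,
        ((if f x then (1 : ℝ) else -1) * (if x i then (1 : ℝ) else -1))) / 2 ^ (Fintype.card ι'))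
      = lvl F := by
    unfold lvl
    rw [← e.sum_comp]
    refine Finset.sum_congr rfl fun i _ => ?_
    have := hcoef {i}
    simp only [Finset.map_singleton, Equiv.coe_toEmbedding, Finset.prod_singleton] at this
    rw [this]
  refine ⟨Fintype.card ι', f, D ^ k, ?_, ?_, ?_⟩
  · by_contra hne
    push Not at hne
    -- constant
    have hconst : ∀ x y, f x = f y := hne
    have hz : lvl F = 0 := by
      rw [← hL']
      refine Finset.sum_eq_zero fun i _ => ?_
      have hz0 : ∀ x : Fin (Fintype.card ι') → Bool,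
          ((if f x then (1 : ℝ) else -1) * (if x i then (1 : ℝ) else -1))
          = sg (f (fun _ => true)) * sg (x i) := by
        intro x
        rw [hconst x (fun _ => true)]; rfl
      simp_rw [hz0]
      rw [coef_const]; simp
    rw [hFl] at hz
    have hlvlpos : 0 < lvl g := lt_trans hsq hL
    have : 0 < lvl g ^ k := pow_pos hlvlpos k
    linarith
  · intro S hS
    have h1 := hcoef (S.map e.symm.toEmbedding)
    rw [hmap] at h1
    rw [h1]
    exact hFd _ (by simpa using hS)
  · rw [hL', hFl]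
    have hsqrt : Real.sqrt ((D ^ k : ℕ) : ℝ) = Real.sqrt D ^ k := by
      push_cast
      rw [Real.sqrt_eq_iff_mul_self_eq (by positivity) (by positivity)]
      rw [← mul_pow, Real.mul_self_sqrt (by positivity)]
    rw [hsqrt]
    have hsqk : 0 < Real.sqrt D ^ k := pow_pos hsq k
    rw [div_pow, lt_div_iff₀ hsqk] at hk
    exact hk

end Crest.Agent.H9S85Comp
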