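import Crest.Agent.H9S85Comp

set_option autoImplicit false
set_option linter.unusedSectionVars false

namespace Crest.Agent.H9S85Tab

open Finset Crest.Agent.H9S85Comp

/-- parity of the number of `false` bits of `c` at the listed positions -/
def parN (c : ℕ) : List ℕ → Bool
  | [] => false
  | j :: L => xor (!(c.testBit j)) (parN c L)

/-- evaluate a signed list of monomials at the point coded by `c` -/
def evalN (c : ℕ) : List (List ℕ × ℤ) → ℤ
  | [] => 0
  | p :: ps => (if parN c p.1 then -p.2 else p.2) + evalN c ps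

/-- pointwise check of the expansion -/
def checkAll (m tbl : ℕ) (scale : ℤ) (mons : List (List ℕ × ℤ)) : Bool :=
  (List.range (2 ^ m)).all fun c => evalN c mons == (if tbl.testBit c then scale else -scale)

/-- index check for the monomials -/
def checkIdx (m D : ℕ) (mons : List (List ℕ × ℤ)) : Bool :=
  mons.all fun p => p.1.Nodup ∧ (∀ j ∈ p.1, j < m) ∧ p.1.length ≤ D ∧ p.1 ≠ []

/-- the set of positions of a monomial -/
def tset (m : ℕ) (L : List ℕ) : Finset (Fin m) := Finset.univ.filter fun j => j.val ∈ L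

/-- the gate attached to a table -/
def gate (m tbl : ℕ) : (Fin m → Bool) → Bool := fun y => tbl.testBit (Nat.ofBits y)

lemma ofBits_testBit {m : ℕ} (y : Fin m → Bool) (j : Fin m) :
    (Nat.ofBits y).testBit j.val = y j := by
  simp [Nat.testBit_ofBits_lt y j.val j.isLt]

lemma tset_cons {m j : ℕ} (hj : j < m) (L : List ℕ) :
    tset m (j :: L) = insert ⟨j, hj⟩ (tset m L) := by
  ext a
  simp only [tset, Finset.mem_filter, Finset.mem_univ, true_and, List.mem_cons, Finset.mem_insert]
  constructor
  · rintro (h | h)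
    · left; exact Fin.ext h
    · right; exact h
  · rintro (h | h)
    · left; rw [h]
    · right; exact h

lemma sign_parN {m : ℕ} (y : Fin m → Bool) (L : List ℕ) (hnd : L.Nodup) (hlt : ∀ j ∈ L, j < m) :
    (if parN (Nat.ofBits y) L then (-1 : ℝ) else 1) = ∏ j ∈ tset m L, sg (y j) := by
  induction L with
  | nil =>
    simp [parN, tset]
  | cons j L ih =>
    have hj : j < m := hlt j (by simp)
    have hnd' : L.Nodup := (List.nodup_cons.mp hnd).2
    have hnot : j ∉ L := (List.nodup_cons.mp hnd).1
    have hlt' : ∀ i ∈ L, i < m := fun i hi => hlt i (List.mem_cons_of_mem _ hi)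
    rw [tset_cons hj, Finset.prod_insert, ← ih hnd' hlt']
    · have hb := ofBits_testBit y ⟨j, hj⟩
      simp only at hb
      simp only [parN, hb]
      cases y ⟨j, hj⟩ <;> cases parN (Nat.ofBits y) L <;> simp [sg]
    · simp [tset, hnot]

lemma evalN_cast {m : ℕ} (y : Fin m → Bool) (mons : List (List ℕ × ℤ))
    (h : ∀ p ∈ mons, p.1.Nodup ∧ ∀ j ∈ p.1, j < m) :
    ((evalN (Nat.ofBits y) mons : ℤ) : ℝ)
      = (mons.map fun p => (p.2 : ℝ) * ∏ j ∈ tset m p.1, sg (y j)).sum := by
  induction mons with
  | nil => simp [evalN]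
  | cons p ps ih =>
    have hp := h p (by simp)
    have hps : ∀ q ∈ ps, q.1.Nodup ∧ ∀ j ∈ q.1, j < m := fun q hq => h q (List.mem_cons_of_mem _ hq)
    simp only [evalN, List.map_cons, List.sum_cons, Int.cast_add]
    rw [ih hps, ← sign_parN y p.1 hp.1 hp.2]
    congr 1
    cases parN (Nat.ofBits y) p.1 <;> simp

lemma expansion {m tbl : ℕ} {scale : ℤ} {mons : List (List ℕ × ℤ)}
    (hc : checkAll m tbl scale mons = true)
    (h : ∀ p ∈ mons, p.1.Nodup ∧ ∀ j ∈ p.1, j < m) (y : Fin m → Bool) :
    (scale : ℝ) * sg (gate m tbl y)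
      = (mons.map fun p => (p.2 : ℝ) * ∏ j ∈ tset m p.1, sg (y j)).sum := by
  rw [← evalN_cast y mons h]
  have hlt : Nat.ofBits y < 2 ^ m := Nat.ofBits_lt_two_pow y
  have := List.all_eq_true.mp hc (Nat.ofBits y) (List.mem_range.mpr hlt)
  have h2 := eq_of_beq this
  rw [h2]
  unfold gate
  cases tbl.testBit (Nat.ofBits y) <;> simp [sg]

variable {ι : Type} [Fintype ι] [DecidableEq ι]

lemma chi_mul (A B : Finset ι) (y : ι → Bool) :
    (∏ j ∈ A, sg (y j)) * ∏ j ∈ B, sg (y j) = ∏ j ∈ symmDiff A B, sg (y j) := by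
  rw [prod_mem_eq A, prod_mem_eq B, prod_mem_eq (symmDiff A B), ← Finset.prod_mul_distrib]
  refine Finset.prod_congr rfl fun j _ => ?_
  by_cases ha : j ∈ A <;> by_cases hb : j ∈ B <;> simp [ha, hb, Finset.mem_symmDiff, sg_mul_self]

lemma chi_orth (A B : Finset ι) :
    ∑ y : ι → Bool, (∏ j ∈ A, sg (y j)) * ∏ j ∈ B, sg (y j)
      = if A = B then (2 : ℝ) ^ Fintype.card ι else 0 := by
  simp_rw [chi_mul]
  change chsum (symmDiff A B) = _
  by_cases h : A = B
  · subst h
    simp [chsum_empty]
  · rw [if_neg h]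
    apply chsum_of_nonempty
    rw [Finset.nonempty_iff_ne_empty]
    intro h0
    exact h (symmDiff_eq_bot.mp h0)

lemma sum_list_map_sum {α β : Type} [Fintype β] (L : List α) (F : α → β → ℝ) :
    ∑ b, (L.map fun a => F a b).sum = (L.map fun a => ∑ b, F a b).sum := by
  induction L with
  | nil => simp
  | cons a L ih =>
    simp only [List.map_cons, List.sum_cons, Finset.sum_add_distrib, ih]

lemma coef_gate {m tbl : ℕ} {scale : ℤ} {mons : List (List ℕ × ℤ)}
    (hc : checkAll m tbl scale mons = true)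
    (h : ∀ p ∈ mons, p.1.Nodup ∧ ∀ j ∈ p.1, j < m) (T : Finset (Fin m)) :
    (scale : ℝ) * coef (gate m tbl) T
      = (mons.map fun p => (p.2 : ℝ) * (if tset m p.1 = T then (2 : ℝ) ^ m else 0)).sum := by
  unfold coef
  rw [Finset.mul_sum]
  have h1 : ∀ y : Fin m → Bool, (scale : ℝ) * (sg (gate m tbl y) * ∏ i ∈ T, sg (y i))
      = (mons.map fun p => ((p.2 : ℝ) * ∏ j ∈ tset m p.1, sg (y j)) * ∏ i ∈ T, sg (y i)).sum := by
    intro y
    rw [← mul_assoc, expansion hc h y]
    rw [← List.sum_map_mul_right]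
  simp_rw [h1]
  rw [sum_list_map_sum mons
    (fun p (y : Fin m → Bool) => ((p.2 : ℝ) * ∏ j ∈ tset m p.1, sg (y j)) * ∏ i ∈ T, sg (y i))]
  congr 1
  apply List.map_congr_left
  intro p _
  simp_rw [mul_assoc]
  rw [← Finset.mul_sum, chi_orth (tset m p.1) T]
  simp

lemma tset_card_le {m : ℕ} (L : List ℕ) (hnd : L.Nodup) : (tset m L).card ≤ L.length := by
  have : (tset m L).card ≤ L.toFinset.card := by
    apply Finset.card_le_card_of_injOn (fun j => j.val)
    · intro a ha
      simpa [tset] using ha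
    · intro a _ b _ hab
      exact Fin.ext hab
  rw [List.toFinset_card_of_nodup hnd] at this
  exact this

lemma tset_ne_empty {m : ℕ} (L : List ℕ) (hne : L ≠ []) (hlt : ∀ j ∈ L, j < m) :
    tset m L ≠ ∅ := by
  obtain ⟨j, hj⟩ := List.exists_mem_of_ne_nil L hne
  intro h0
  have : (⟨j, hlt j hj⟩ : Fin m) ∈ tset m L := by simp [tset, hj]
  rw [h0] at this
  simp at this

/-- degree bound from the check -/
theorem gate_deg {m tbl D : ℕ} {scale : ℤ} {mons : List (List ℕ × ℤ)} (hs : scale ≠ 0)
    (hc : checkAll m tbl scale mons = true) (hi : checkIdx m D mons = true)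
    (T : Finset (Fin m)) (hT : D < T.card) : coef (gate m tbl) T = 0 := by
  have hi' := List.all_eq_true.mp hi
  have h : ∀ p ∈ mons, p.1.Nodup ∧ ∀ j ∈ p.1, j < m := by
    intro p hp
    have := hi' p hp
    simp only [decide_eq_true_eq] at this
    exact ⟨this.1, this.2.1⟩
  have e := coef_gate hc h T
  have hz : (mons.map fun p => (p.2 : ℝ) * (if tset m p.1 = T then (2 : ℝ) ^ m else 0)).sum = 0 := by
    apply List.sum_eq_zero
    intro a ha
    obtain ⟨p, hp, rfl⟩ := List.mem_map.mp ha
    have hpi := hi' p hp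
    simp only [decide_eq_true_eq] at hpi
    have hne : tset m p.1 ≠ T := by
      intro heq
      have := tset_card_le (m := m) p.1 hpi.1
      rw [heq] at this
      have := hpi.2.2.1
      omega
    simp [hne]
  rw [hz] at e
  have hs' : (scale : ℝ) ≠ 0 := by exact_mod_cast hs
  exact (mul_eq_zero.mp e).resolve_left hs'

/-- balance from the check -/
theorem gate_bal {m tbl D : ℕ} {scale : ℤ} {mons : List (List ℕ × ℤ)} (hs : scale ≠ 0)
    (hc : checkAll m tbl scale mons = true) (hi : checkIdx m D mons = true) :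
    coef (gate m tbl) ∅ = 0 := by
  have hi' := List.all_eq_true.mp hi
  have h : ∀ p ∈ mons, p.1.Nodup ∧ ∀ j ∈ p.1, j < m := by
    intro p hp
    have := hi' p hp
    simp only [decide_eq_true_eq] at this
    exact ⟨this.1, this.2.1⟩
  have e := coef_gate hc h ∅
  have hz : (mons.map fun p => (p.2 : ℝ) * (if tset m p.1 = ∅ then (2 : ℝ) ^ m else 0)).sum = 0 := by
    apply List.sum_eq_zero
    intro a ha
    obtain ⟨p, hp, rfl⟩ := List.mem_map.mp ha
    have hpi := hi' p hp
    simp only [decide_eq_true_eq] at hpi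
    simp [tset_ne_empty p.1 hpi.2.2.2 hpi.2.1]
  rw [hz] at e
  have hs' : (scale : ℝ) ≠ 0 := by exact_mod_cast hs
  exact (mul_eq_zero.mp e).resolve_left hs'

/-- sum of singleton coefficients of the list -/
def singleSum : List (List ℕ × ℤ) → ℤ
  | [] => 0
  | p :: ps => (if p.1.length = 1 then p.2 else 0) + singleSum ps

lemma count_singleton {m : ℕ} (L : List ℕ) (hnd : L.Nodup) (hlt : ∀ j ∈ L, j < m) :
    (∑ j : Fin m, if tset m L = {j} then (1 : ℝ) else 0) = if L.length = 1 then 1 else 0 := by
  by_cases hl : L.length = 1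
  · obtain ⟨a, rfl⟩ := List.length_eq_one_iff.mp hl
    have ha : a < m := hlt a (by simp)
    have hset : tset m [a] = {⟨a, ha⟩} := by
      ext x
      simp [tset, Fin.ext_iff]
    rw [Finset.sum_eq_single (⟨a, ha⟩ : Fin m)]
    · simp [hset]
    · intro b _ hb
      rw [hset, if_neg]
      intro h
      exact hb (Finset.singleton_injective h).symm
    · simp
  · rw [if_neg hl]
    apply Finset.sum_eq_zero
    intro j _
    rw [if_neg]
    intro h
    -- card considerations
    have hcard : (tset m L).card = 1 := by rw [h]; simp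
    have hL : L.toFinset.card = (tset m L).card := by
      have himg : L.toFinset = (tset m L).image (fun j => j.val) := by
        ext x
        simp only [List.mem_toFinset, Finset.mem_image, tset, Finset.mem_filter, Finset.mem_univ, true_and]
        constructor
        · intro hx
          exact ⟨⟨x, hlt x hx⟩, hx, rfl⟩
        · rintro ⟨a, ha, rfl⟩
          exact ha
      rw [himg, Finset.card_image_of_injective _ Fin.val_injective]
    rw [List.toFinset_card_of_nodup hnd, hcard] at hL
    exact hl hL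

theorem gate_lvl {m tbl D : ℕ} {scale : ℤ} {mons : List (List ℕ × ℤ)} (hs : scale ≠ 0)
    (hc : checkAll m tbl scale mons = true) (hi : checkIdx m D mons = true) :
    lvl (gate m tbl) = (singleSum mons : ℝ) / scale := by
  have hi' := List.all_eq_true.mp hi
  have h : ∀ p ∈ mons, p.1.Nodup ∧ ∀ j ∈ p.1, j < m := by
    intro p hp
    have := hi' p hp
    simp only [decide_eq_true_eq] at this
    exact ⟨this.1, this.2.1⟩
  have hs' : (scale : ℝ) ≠ 0 := by exact_mod_cast hs
  have hp : (2 : ℝ) ^ m ≠ 0 := by positivity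
  unfold lvl
  simp only [Fintype.card_fin]
  have e : ∀ j : Fin m, coef (gate m tbl) {j} / 2 ^ m
      = ((mons.map fun p => (p.2 : ℝ) * (if tset m p.1 = {j} then (1 : ℝ) else 0)).sum) / scale := by
    intro j
    have := coef_gate hc h {j}
    have h2 : (mons.map fun p => (p.2 : ℝ) * (if tset m p.1 = {j} then (2 : ℝ) ^ m else 0)).sum
        = (2 : ℝ) ^ m * (mons.map fun p => (p.2 : ℝ) * (if tset m p.1 = {j} then (1 : ℝ) else 0)).sum := by
      rw [← List.sum_map_mul_left]
      congr 1
      apply List.map_congr_left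
      intro p _
      by_cases hh : tset m p.1 = {j} <;> simp [hh] <;> ring
    rw [h2] at this
    field_simp
    linarith
  simp_rw [e]
  rw [← Finset.sum_div]
  congr 1
  rw [sum_list_map_sum mons (fun p (j : Fin m) => (p.2 : ℝ) * (if tset m p.1 = {j} then (1 : ℝ) else 0))]
  have key : ∀ ps : List (List ℕ × ℤ), (∀ p ∈ ps, p ∈ mons) →
      (ps.map fun p => ∑ j : Fin m, (p.2 : ℝ) * (if tset m p.1 = {j} then (1 : ℝ) else 0)).sum
        = (singleSum ps : ℝ) := by
    intro ps
    induction ps with
    | nil => simp [singleSum]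
    | cons p ps ih =>
      intro hsub
      have hp1 := h p (hsub p (by simp))
      simp only [List.map_cons, List.sum_cons, singleSum, Int.cast_add]
      rw [ih (fun q hq => hsub q (List.mem_cons_of_mem _ hq))]
      congr 1
      rw [← Finset.mul_sum, count_singleton p.1 hp1.1 hp1.2]
      by_cases hl : p.1.length = 1 <;> simp [hl]
  exact key mons (fun _ hp => hp)

end Crest.Agent.H9S85Tab
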