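import Mathlib

set_option autoImplicit false

namespace Crest.Agent.MC

open Finset

variable {V : Type*} [Fintype V]

/-- Jensen's inequality for squares and a probability vector. -/
lemma jensen_sq {μ : V → ℝ} (h0 : ∀ k, 0 ≤ μ k) (h1 : ∑ k, μ k = 1) (z : V → ℝ) :
    (∑ k, μ k * z k) ^ 2 ≤ ∑ k, μ k * z k ^ 2 := by
  set m := ∑ k, μ k * z k with hm
  have h2 : 0 ≤ ∑ k, μ k * (z k - m) ^ 2 :=
    Finset.sum_nonneg fun k _ => mul_nonneg (h0 k) (sq_nonneg _)
  have key : ∀ k, μ k * (z k - m) ^ 2 = μ k * z k ^ 2 - 2 * m * (μ k * z k) + m ^ 2 * μ k := by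
    intro k; ring
  have h3 : ∑ k, μ k * (z k - m) ^ 2 = ∑ k, μ k * z k ^ 2 - 2 * m * (∑ k, μ k * z k) +
      m ^ 2 * ∑ k, μ k := by
    simp only [key, Finset.sum_add_distrib, Finset.sum_sub_distrib, ← Finset.mul_sum]
  rw [h3, h1, ← hm] at h2
  nlinarith

/-- Swapping the two indices in a reversible double sum. -/
lemma swap_rev (w : V → ℝ) (A : V → V → ℝ) (hrev : ∀ i j, w i * A i j = w j * A j i)
    (F : V → V → ℝ) :
    ∑ i, ∑ j, w i * A i j * F i j = ∑ i, ∑ j, w i * A i j * F j i := by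
  rw [Finset.sum_comm]
  refine Finset.sum_congr rfl fun i _ => Finset.sum_congr rfl fun j _ => ?_
  rw [hrev j i]

/-- Row sums. -/
lemma row_sum (w : V → ℝ) (A : V → V → ℝ) (hA1 : ∀ i, ∑ j, A i j = 1) (g : V → ℝ) :
    ∑ i, ∑ j, w i * A i j * g i = ∑ i, w i * g i := by
  refine Finset.sum_congr rfl fun i _ => ?_
  have : ∑ j, w i * A i j * g i = w i * g i * ∑ j, A i j := by
    rw [Finset.mul_sum]
    exact Finset.sum_congr rfl fun j _ => by ring
  rw [this, hA1, mul_one]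

/-- The Dirichlet form identity for a reversible stochastic matrix. -/
lemma dirichlet (w : V → ℝ) (A : V → V → ℝ) (hA1 : ∀ i, ∑ j, A i j = 1)
    (hrev : ∀ i j, w i * A i j = w j * A j i) (f : V → ℝ) :
    ∑ i, w i * f i * (f i - ∑ j, A i j * f j) =
      (1 / 2) * ∑ i, ∑ j, w i * A i j * (f i - f j) ^ 2 := by
  have h1 : ∀ i, w i * f i * (f i - ∑ j, A i j * f j) =
      ∑ j, w i * A i j * (f i * (f i - f j)) := by
    intro i
    have e1 : ∑ j, A i j * (f i - f j) = f i - ∑ j, A i j * f j := by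
      simp only [mul_sub, Finset.sum_sub_distrib, ← Finset.sum_mul, hA1, one_mul]
    rw [← e1, Finset.mul_sum]
    exact Finset.sum_congr rfl fun j _ => by ring
  have h2 := swap_rev w A hrev (fun i j => f i * (f i - f j))
  have h3 : ∑ i, ∑ j, w i * A i j * (f i - f j) ^ 2 =
      ∑ i, ∑ j, w i * A i j * (f i * (f i - f j)) +
      ∑ i, ∑ j, w i * A i j * (f j * (f j - f i)) := by
    rw [← Finset.sum_add_distrib]
    refine Finset.sum_congr rfl fun i _ => ?_
    rw [← Finset.sum_add_distrib]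
    exact Finset.sum_congr rfl fun j _ => by ring
  simp only [h1]
  rw [h3, ← h2]
  ring

/-- The Caccioppoli identity. -/
lemma caccioppoli (w : V → ℝ) (A : V → V → ℝ) (hA1 : ∀ i, ∑ j, A i j = 1)
    (hrev : ∀ i j, w i * A i j = w j * A j i) (ζ u : V → ℝ) :
    ∑ i, ∑ j, w i * A i j * (ζ i * (u i - u j) ^ 2) =
      ∑ i, w i * ((∑ j, A i j * ζ j) - ζ i) * u i ^ 2 -
        2 * ∑ i, w i * ζ i * u i * ((∑ j, A i j * u j) - u i) := by
  have key : ∀ i j, w i * A i j * (ζ i * (u i - u j) ^ 2) =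
      w i * A i j * (ζ i * u j ^ 2) - w i * A i j * (ζ i * u i ^ 2) -
        2 * (w i * A i j * (ζ i * u i * (u j - u i))) := by
    intro i j; ring
  have t1 : ∑ i, ∑ j, w i * A i j * (ζ i * u j ^ 2) =
      ∑ i, w i * (∑ j, A i j * ζ j) * u i ^ 2 := by
    rw [swap_rev w A hrev (fun i j => ζ i * u j ^ 2)]
    refine Finset.sum_congr rfl fun i _ => ?_
    rw [Finset.mul_sum, Finset.sum_mul]
    exact Finset.sum_congr rfl fun j _ => by ring
  have t2 : ∑ i, ∑ j, w i * A i j * (ζ i * u i ^ 2) = ∑ i, w i * ζ i * u i ^ 2 := by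
    rw [row_sum w A hA1 (fun i => ζ i * u i ^ 2)]
    exact Finset.sum_congr rfl fun i _ => by ring
  have t3 : ∑ i, ∑ j, w i * A i j * (ζ i * u i * (u j - u i)) =
      ∑ i, w i * ζ i * u i * ((∑ j, A i j * u j) - u i) := by
    refine Finset.sum_congr rfl fun i _ => ?_
    have e1 : ∑ j, A i j * (u j - u i) = (∑ j, A i j * u j) - u i := by
      simp only [mul_sub, Finset.sum_sub_distrib, ← Finset.sum_mul, hA1, one_mul]
    rw [← e1, Finset.mul_sum]
    exact Finset.sum_congr rfl fun j _ => by ring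
  calc ∑ i, ∑ j, w i * A i j * (ζ i * (u i - u j) ^ 2)
      = ∑ i, ∑ j, w i * A i j * (ζ i * u j ^ 2) - ∑ i, ∑ j, w i * A i j * (ζ i * u i ^ 2) -
        2 * ∑ i, ∑ j, w i * A i j * (ζ i * u i * (u j - u i)) := by
        simp only [key, Finset.sum_sub_distrib, ← Finset.mul_sum]
    _ = _ := by
        rw [t1, t2, t3, sub_left_inj, ← Finset.sum_sub_distrib]
        exact Finset.sum_congr rfl fun i _ => by ring


/-! ### The averaged kernels -/

/-- `u k i = ∑ l, C i l * d l k`. -/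
noncomputable def uu (C d : V → V → ℝ) (k i : V) : ℝ := ∑ l, C i l * d l k
/-- `D i j = ∑ k, C j k * u k i`. -/
noncomputable def DD (C d : V → V → ℝ) (i j : V) : ℝ := ∑ k, C j k * uu C d k i
/-- `G i j = D i j - (D i i + D j j) / 2`. -/
noncomputable def GG (C d : V → V → ℝ) (i j : V) : ℝ :=
  DD C d i j - (DD C d i i + DD C d j j) / 2
/-- `X i = ∑ k, B i k * u k i`. -/
noncomputable def XX (B C d : V → V → ℝ) (i : V) : ℝ := ∑ k, B i k * uu C d k i
/-- Two-kernel average of the squared distance. -/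
noncomputable def W2 (w : V → ℝ) (M1 M2 d : V → V → ℝ) : ℝ :=
  ∑ i, ∑ k, ∑ l, w i * M1 i k * M2 i l * d k l ^ 2
/-- One-kernel average of the squared distance. -/
noncomputable def W1 (w : V → ℝ) (M d : V → V → ℝ) : ℝ :=
  ∑ i, ∑ k, w i * M i k * d i k ^ 2
/-- Auxiliary quadratic form. -/
noncomputable def QQ (w : V → ℝ) (M C d : V → V → ℝ) : ℝ :=
  ∑ i, ∑ k, w i * M i k * uu C d k i ^ 2

section kernels

variable {w : V → ℝ} {A B C d : V → V → ℝ}

lemma uu_nonneg (hC : ∀ i j, 0 ≤ C i j) (hd : ∀ i j, 0 ≤ d i j) (k i : V) : 0 ≤ uu C d k i :=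
  Finset.sum_nonneg fun l _ => mul_nonneg (hC i l) (hd l k)

lemma DD_nonneg (hC : ∀ i j, 0 ≤ C i j) (hd : ∀ i j, 0 ≤ d i j) (i j : V) : 0 ≤ DD C d i j :=
  Finset.sum_nonneg fun k _ => mul_nonneg (hC j k) (uu_nonneg hC hd k i)

lemma XX_nonneg (hB : ∀ i j, 0 ≤ B i j) (hC : ∀ i j, 0 ≤ C i j) (hd : ∀ i j, 0 ≤ d i j) (i : V) :
    0 ≤ XX B C d i :=
  Finset.sum_nonneg fun k _ => mul_nonneg (hB i k) (uu_nonneg hC hd k i)

lemma DD_symm (hds : ∀ i j, d i j = d j i) (i j : V) : DD C d i j = DD C d j i := by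
  unfold DD uu
  simp only [Finset.mul_sum]
  rw [Finset.sum_comm]
  refine Finset.sum_congr rfl fun k _ => Finset.sum_congr rfl fun l _ => ?_
  rw [hds k l]
  ring

lemma GG_symm (hds : ∀ i j, d i j = d j i) (i j : V) : GG C d i j = GG C d j i := by
  unfold GG
  rw [DD_symm hds i j]
  ring

lemma uu_sq_le (hC : ∀ i j, 0 ≤ C i j) (hC1 : ∀ i, ∑ j, C i j = 1) (hds : ∀ i j, d i j = d j i)
    (k i : V) : uu C d k i ^ 2 ≤ ∑ l, C i l * d k l ^ 2 := by
  have := jensen_sq (μ := C i) (hC i) (hC1 i) (fun l => d l k)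
  unfold uu
  refine this.trans (le_of_eq ?_)
  refine Finset.sum_congr rfl fun l _ => ?_
  rw [hds l k]

lemma QQ_le_W2 {M : V → V → ℝ} (hw : ∀ i, 0 ≤ w i) (hM : ∀ i j, 0 ≤ M i j)
    (hC : ∀ i j, 0 ≤ C i j) (hC1 : ∀ i, ∑ j, C i j = 1) (hds : ∀ i j, d i j = d j i) :
    QQ w M C d ≤ W2 w M C d := by
  unfold QQ W2
  refine Finset.sum_le_sum fun i _ => Finset.sum_le_sum fun k _ => ?_
  calc w i * M i k * uu C d k i ^ 2 ≤ w i * M i k * ∑ l, C i l * d k l ^ 2 :=
        mul_le_mul_of_nonneg_left (uu_sq_le hC hC1 hds k i) (mul_nonneg (hw i) (hM i k))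
    _ = ∑ l, w i * M i k * C i l * d k l ^ 2 := by
        rw [Finset.mul_sum]
        exact Finset.sum_congr rfl fun l _ => by ring

lemma DD_sq_le (hC : ∀ i j, 0 ≤ C i j) (hC1 : ∀ i, ∑ j, C i j = 1) (i : V) :
    DD C d i i ^ 2 ≤ ∑ k, C i k * uu C d k i ^ 2 :=
  jensen_sq (μ := C i) (hC i) (hC1 i) (fun k => uu C d k i)

lemma XX_sq_le (hB : ∀ i j, 0 ≤ B i j) (hB1 : ∀ i, ∑ j, B i j = 1) (i : V) :
    XX B C d i ^ 2 ≤ ∑ k, B i k * uu C d k i ^ 2 :=
  jensen_sq (μ := B i) (hB i) (hB1 i) (fun k => uu C d k i)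

/-- `p`, `q` identity. -/
lemma pq_identity (hds : ∀ i j, d i j = d j i) (i j : V) :
    (DD C d i i - DD C d j j) ^ 2 + 4 * GG C d i j ^ 2 =
      2 * (∑ k, C i k * (uu C d k i - uu C d k j)) ^ 2 +
        2 * (∑ k, C j k * (uu C d k i - uu C d k j)) ^ 2 := by
  have hp : ∑ k, C i k * (uu C d k i - uu C d k j) = DD C d i i - DD C d i j := by
    simp only [mul_sub, Finset.sum_sub_distrib]
    rw [DD_symm hds i j]
    rfl
  have hq : ∑ k, C j k * (uu C d k i - uu C d k j) = DD C d i j - DD C d j j := by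
    simp only [mul_sub, Finset.sum_sub_distrib]
    rfl
  rw [hp, hq]
  unfold GG
  ring

/-- The double energy. -/
noncomputable def B1 (w : V → ℝ) (A C d : V → V → ℝ) : ℝ :=
  ∑ i, ∑ j, w i * A i j * ∑ k, C i k * (uu C d k i - uu C d k j) ^ 2

lemma energy_le (hw : ∀ i, 0 ≤ w i) (hA : ∀ i j, 0 ≤ A i j)
    (hrev : ∀ i j, w i * A i j = w j * A j i)
    (hC : ∀ i j, 0 ≤ C i j) (hC1 : ∀ i, ∑ j, C i j = 1) (hds : ∀ i j, d i j = d j i) :
    ∑ i, ∑ j, w i * A i j * ((DD C d i i - DD C d j j) ^ 2 + 4 * GG C d i j ^ 2) ≤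
      4 * B1 w A C d := by
  have h1 : ∀ i j, w i * A i j * ((DD C d i i - DD C d j j) ^ 2 + 4 * GG C d i j ^ 2) ≤
      2 * (w i * A i j * ∑ k, C i k * (uu C d k i - uu C d k j) ^ 2) +
      2 * (w i * A i j * ∑ k, C j k * (uu C d k i - uu C d k j) ^ 2) := by
    intro i j
    rw [pq_identity hds i j]
    have j1 := jensen_sq (μ := C i) (hC i) (hC1 i) (fun k => uu C d k i - uu C d k j)
    have j2 := jensen_sq (μ := C j) (hC j) (hC1 j) (fun k => uu C d k i - uu C d k j)
    have h0 : 0 ≤ w i * A i j := mul_nonneg (hw i) (hA i j)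
    calc _ ≤ w i * A i j * (2 * (∑ k, C i k * (uu C d k i - uu C d k j) ^ 2) +
          2 * (∑ k, C j k * (uu C d k i - uu C d k j) ^ 2)) := by
          apply mul_le_mul_of_nonneg_left _ h0
          linarith
      _ = _ := by ring
  have h2 := swap_rev w A hrev (fun i j => ∑ k, C j k * (uu C d k i - uu C d k j) ^ 2)
  have h3 : ∑ i, ∑ j, w i * A i j * ∑ k, C i k * (uu C d k j - uu C d k i) ^ 2 = B1 w A C d := by
    unfold B1
    refine Finset.sum_congr rfl fun i _ => Finset.sum_congr rfl fun j _ => ?_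
    congr 1
    refine Finset.sum_congr rfl fun k _ => ?_
    rw [sub_sq_comm]
  rw [h3] at h2
  calc _ ≤ ∑ i, ∑ j, (2 * (w i * A i j * ∑ k, C i k * (uu C d k i - uu C d k j) ^ 2) +
      2 * (w i * A i j * ∑ k, C j k * (uu C d k i - uu C d k j) ^ 2)) :=
        Finset.sum_le_sum fun i _ => Finset.sum_le_sum fun j _ => h1 i j
    _ = 2 * B1 w A C d + 2 * ∑ i, ∑ j, w i * A i j * ∑ k, C j k * (uu C d k i - uu C d k j) ^ 2 := by
        simp only [Finset.sum_add_distrib, ← Finset.mul_sum]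
        rfl
    _ = _ := by rw [h2]; ring

/-- Main identity for `∑ w A D G`. -/
lemma sum_DG_eq (hA1 : ∀ i, ∑ j, A i j = 1)
    (hrev : ∀ i j, w i * A i j = w j * A j i) (hds : ∀ i j, d i j = d j i) :
    ∑ i, ∑ j, w i * A i j * (DD C d i j * GG C d i j) =
      ∑ i, ∑ j, w i * A i j * GG C d i j ^ 2 +
      ∑ i, w i * DD C d i i * ∑ j, A i j * GG C d i j := by
  have h1 : ∀ i j, w i * A i j * (DD C d i j * GG C d i j) =
      w i * A i j * GG C d i j ^ 2 + (1 / 2) * (w i * A i j * (DD C d i i * GG C d i j)) +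
        (1 / 2) * (w i * A i j * (DD C d j j * GG C d i j)) := by
    intro i j
    have hD : DD C d i j = GG C d i j + (DD C d i i + DD C d j j) / 2 := by
      unfold GG; ring
    set g := GG C d i j with hg
    rw [hD]
    ring
  have h2 : ∑ i, ∑ j, w i * A i j * (DD C d j j * GG C d i j) =
      ∑ i, ∑ j, w i * A i j * (DD C d i i * GG C d i j) := by
    rw [swap_rev w A hrev (fun i j => DD C d j j * GG C d i j)]
    refine Finset.sum_congr rfl fun i _ => Finset.sum_congr rfl fun j _ => ?_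
    rw [GG_symm hds j i]
  have h3 : ∑ i, ∑ j, w i * A i j * (DD C d i i * GG C d i j) =
      ∑ i, w i * DD C d i i * ∑ j, A i j * GG C d i j := by
    refine Finset.sum_congr rfl fun i _ => ?_
    rw [Finset.mul_sum]
    exact Finset.sum_congr rfl fun j _ => by ring
  simp only [h1, Finset.sum_add_distrib, ← Finset.mul_sum]
  rw [h2, h3]
  ring

section hac

variable [DecidableEq V] {τ : ℝ}

/-- `∑ j, A i j * G i j` computed. -/
lemma hatG (hτ : τ ≠ 0) (hA1 : ∀ i, ∑ j, A i j = 1)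
    (hAC : ∀ i k, ∑ j, A i j * C j k = C i k + (1 / τ) * (B i k - if i = k then 1 else 0))
    (i : V) :
    ∑ j, A i j * GG C d i j =
      (1 / 2) * (DD C d i i - ∑ j, A i j * DD C d j j) +
        (1 / τ) * (XX B C d i - uu C d i i) := by
  have h1 : ∑ j, A i j * DD C d i j = DD C d i i + (1 / τ) * (XX B C d i - uu C d i i) := by
    unfold DD XX
    calc ∑ j, A i j * ∑ k, C j k * uu C d k i
        = ∑ k, (∑ j, A i j * C j k) * uu C d k i := by
          simp only [Finset.mul_sum, Finset.sum_mul]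
          rw [Finset.sum_comm]
          exact Finset.sum_congr rfl fun j _ => Finset.sum_congr rfl fun k _ => by ring
      _ = ∑ k, (C i k * uu C d k i + (1 / τ) * (B i k * uu C d k i) -
            (1 / τ) * ((if i = k then 1 else 0) * uu C d k i)) := by
          refine Finset.sum_congr rfl fun k _ => ?_
          rw [hAC i k]
          ring
      _ = _ := by
          rw [Finset.sum_sub_distrib, Finset.sum_add_distrib, ← Finset.mul_sum, ← Finset.mul_sum]
          simp only [ite_mul, one_mul, zero_mul, Finset.sum_ite_eq, Finset.mem_univ, if_true]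
          ring
  have h2 : ∑ j, A i j * GG C d i j = ∑ j, A i j * DD C d i j -
      (1 / 2) * (DD C d i i * ∑ j, A i j) - (1 / 2) * ∑ j, A i j * DD C d j j := by
    unfold GG
    rw [Finset.mul_sum, Finset.mul_sum, Finset.mul_sum, ← Finset.sum_sub_distrib,
      ← Finset.sum_sub_distrib]
    exact Finset.sum_congr rfl fun j _ => by ring
  rw [h2, h1, hA1]
  ring

/-- The identity for `τ ∑ w A D G`. -/
lemma tau_sum_DG (hτ : τ ≠ 0) (hA1 : ∀ i, ∑ j, A i j = 1)
    (hrev : ∀ i j, w i * A i j = w j * A j i) (hds : ∀ i j, d i j = d j i)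
    (hAC : ∀ i k, ∑ j, A i j * C j k = C i k + (1 / τ) * (B i k - if i = k then 1 else 0)) :
    τ * ∑ i, ∑ j, w i * A i j * (DD C d i j * GG C d i j) =
      (τ / 4) * ∑ i, ∑ j, w i * A i j * ((DD C d i i - DD C d j j) ^ 2 + 4 * GG C d i j ^ 2) +
        ∑ i, w i * DD C d i i * (XX B C d i - uu C d i i) := by
  have h1 := sum_DG_eq (w := w) (C := C) hA1 hrev hds
  have h2 := dirichlet w A hA1 hrev (fun i => DD C d i i)
  have h3 : ∑ i, w i * DD C d i i * ∑ j, A i j * GG C d i j =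
      (1 / 2) * ∑ i, w i * DD C d i i * (DD C d i i - ∑ j, A i j * DD C d j j) +
        (1 / τ) * ∑ i, w i * DD C d i i * (XX B C d i - uu C d i i) := by
    rw [Finset.mul_sum, Finset.mul_sum, ← Finset.sum_add_distrib]
    refine Finset.sum_congr rfl fun i _ => ?_
    rw [hatG (B := B) hτ hA1 hAC i]
    ring
  have h4 : ∑ i, ∑ j, w i * A i j * ((DD C d i i - DD C d j j) ^ 2 + 4 * GG C d i j ^ 2) =
      ∑ i, ∑ j, w i * A i j * (DD C d i i - DD C d j j) ^ 2 +
        4 * ∑ i, ∑ j, w i * A i j * GG C d i j ^ 2 := by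
    simp only [Finset.mul_sum]
    rw [← Finset.sum_add_distrib]
    refine Finset.sum_congr rfl fun i _ => ?_
    rw [← Finset.sum_add_distrib]
    exact Finset.sum_congr rfl fun j _ => by ring
  rw [h1, h3, h2, h4]
  field_simp
  ring

/-- The Caccioppoli bound for one `k`. -/
lemma cacc_k (hτ : 0 < τ) (hw : ∀ i, 0 ≤ w i) (hA1 : ∀ i, ∑ j, A i j = 1)
    (hrev : ∀ i j, w i * A i j = w j * A j i)
    (hB : ∀ i j, 0 ≤ B i j) (hC : ∀ i j, 0 ≤ C i j) (hd : ∀ i j, 0 ≤ d i j)
    (hAC : ∀ i k, ∑ j, A i j * C j k = C i k + (1 / τ) * (B i k - if i = k then 1 else 0))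
    (k : V) :
    τ * ∑ i, ∑ j, w i * A i j * (C i k * (uu C d k i - uu C d k j) ^ 2) ≤
      ∑ i, w i * B i k * uu C d k i ^ 2 + 2 * ∑ i, w i * C i k * uu C d k i * d i k := by
  have hτ' : τ ≠ 0 := hτ.ne'
  rw [caccioppoli w A hA1 hrev (fun i => C i k) (uu C d k)]
  have e1 : ∀ i, (∑ j, A i j * C j k) - C i k = (1 / τ) * (B i k - if i = k then 1 else 0) := by
    intro i; rw [hAC i k]; ring
  have e2 : ∀ i, (∑ j, A i j * uu C d k j) - uu C d k i =
      (1 / τ) * ((∑ l, B i l * d l k) - d i k) := by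
    intro i
    have : ∑ j, A i j * uu C d k j = ∑ l, (∑ j, A i j * C j l) * d l k := by
      unfold uu
      simp only [Finset.mul_sum, Finset.sum_mul]
      rw [Finset.sum_comm]
      exact Finset.sum_congr rfl fun j _ => Finset.sum_congr rfl fun k _ => by ring
    rw [this]
    have e3 : ∑ l, (∑ j, A i j * C j l) * d l k =
        ∑ l, C i l * d l k + (1 / τ) * (∑ l, B i l * d l k -
          ∑ l, (if i = l then 1 else 0) * d l k) := by
      rw [← Finset.sum_sub_distrib, Finset.mul_sum, ← Finset.sum_add_distrib]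
      refine Finset.sum_congr rfl fun l _ => ?_
      rw [hAC i l]
      ring
    rw [e3]
    unfold uu
    simp only [ite_mul, one_mul, zero_mul, Finset.sum_ite_eq, Finset.mem_univ, if_true]
    ring
  simp only [e1, e2]
  have u0 := uu_nonneg (d := d) hC hd k
  have h1 : ∀ i, τ * (w i * ((1 / τ) * (B i k - if i = k then 1 else 0)) * uu C d k i ^ 2) ≤
      w i * B i k * uu C d k i ^ 2 := by
    intro i
    have e : τ * (w i * ((1 / τ) * (B i k - if i = k then 1 else 0)) * uu C d k i ^ 2) =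
        w i * (B i k - if i = k then 1 else 0) * uu C d k i ^ 2 := by
      field_simp
    rw [e]
    apply mul_le_mul_of_nonneg_right _ (sq_nonneg _)
    apply mul_le_mul_of_nonneg_left _ (hw i)
    have : (0 : ℝ) ≤ if i = k then 1 else 0 := by split_ifs <;> norm_num
    linarith
  have h2 : ∀ i, -(τ * (w i * C i k * uu C d k i * ((1 / τ) * ((∑ l, B i l * d l k) - d i k)))) ≤
      w i * C i k * uu C d k i * d i k := by
    intro i
    have e : τ * (w i * C i k * uu C d k i * ((1 / τ) * ((∑ l, B i l * d l k) - d i k))) =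
        w i * C i k * uu C d k i * ((∑ l, B i l * d l k) - d i k) := by
      field_simp
    rw [e]
    have h00 : 0 ≤ w i * C i k * uu C d k i := mul_nonneg (mul_nonneg (hw i) (hC i k)) (u0 i)
    have hS : 0 ≤ ∑ l, B i l * d l k := Finset.sum_nonneg fun l _ => mul_nonneg (hB i l) (hd l k)
    have := mul_nonneg h00 hS
    nlinarith
  have s1 := Finset.sum_le_sum fun i (_ : i ∈ Finset.univ) => h1 i
  have s2 := Finset.sum_le_sum fun i (_ : i ∈ Finset.univ) => h2 i
  rw [← Finset.mul_sum] at s1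
  rw [Finset.sum_neg_distrib, ← Finset.mul_sum] at s2
  linarith

/-- The Caccioppoli bound, summed. -/
lemma tau_B1_le (hτ : 0 < τ) (hw : ∀ i, 0 ≤ w i) (hA1 : ∀ i, ∑ j, A i j = 1)
    (hrev : ∀ i j, w i * A i j = w j * A j i)
    (hB : ∀ i j, 0 ≤ B i j) (hC : ∀ i j, 0 ≤ C i j) (hd : ∀ i j, 0 ≤ d i j)
    (hAC : ∀ i k, ∑ j, A i j * C j k = C i k + (1 / τ) * (B i k - if i = k then 1 else 0)) :
    τ * B1 w A C d ≤ QQ w B C d + QQ w C C d + W1 w C d := by
  have e0 : B1 w A C d = ∑ k, ∑ i, ∑ j, w i * A i j * (C i k * (uu C d k i - uu C d k j) ^ 2) := by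
    unfold B1
    simp only [Finset.mul_sum]
    rw [Finset.sum_comm (γ := V) (s := Finset.univ) (t := Finset.univ)
      (f := fun k i => ∑ j, w i * A i j * (C i k * (uu C d k i - uu C d k j) ^ 2))]
    refine Finset.sum_congr rfl fun i _ => ?_
    rw [Finset.sum_comm]
  have e1 : QQ w B C d = ∑ k, ∑ i, w i * B i k * uu C d k i ^ 2 := by
    unfold QQ
    rw [Finset.sum_comm]
  have e2 : ∑ k, ∑ i, w i * C i k * uu C d k i * d i k =
      ∑ i, ∑ k, w i * C i k * (uu C d k i * d i k) := by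
    rw [Finset.sum_comm]
    exact Finset.sum_congr rfl fun i _ => Finset.sum_congr rfl fun k _ => by ring
  have e3 : 2 * ∑ i, ∑ k, w i * C i k * (uu C d k i * d i k) ≤ QQ w C C d + W1 w C d := by
    unfold QQ W1
    rw [Finset.mul_sum, ← Finset.sum_add_distrib]
    refine Finset.sum_le_sum fun i _ => ?_
    rw [Finset.mul_sum, ← Finset.sum_add_distrib]
    refine Finset.sum_le_sum fun k _ => ?_
    have h0 : 0 ≤ w i * C i k := mul_nonneg (hw i) (hC i k)
    have := mul_nonneg h0 (sq_nonneg (uu C d k i - d i k))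
    nlinarith
  calc τ * B1 w A C d
      = ∑ k, τ * ∑ i, ∑ j, w i * A i j * (C i k * (uu C d k i - uu C d k j) ^ 2) := by
        rw [e0, Finset.mul_sum]
    _ ≤ ∑ k, (∑ i, w i * B i k * uu C d k i ^ 2 + 2 * ∑ i, w i * C i k * uu C d k i * d i k) :=
        Finset.sum_le_sum fun k _ => cacc_k hτ hw hA1 hrev hB hC hd hAC k
    _ = QQ w B C d + 2 * ∑ i, ∑ k, w i * C i k * (uu C d k i * d i k) := by
        rw [Finset.sum_add_distrib, ← Finset.mul_sum, e2, e1]
    _ ≤ _ := by linarith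

/-- The main algebraic estimate. -/
theorem main_algebra (hτ : 0 < τ) (hw : ∀ i, 0 ≤ w i) (hA : ∀ i j, 0 ≤ A i j)
    (hA1 : ∀ i, ∑ j, A i j = 1) (hrev : ∀ i j, w i * A i j = w j * A j i)
    (hB : ∀ i j, 0 ≤ B i j) (hB1 : ∀ i, ∑ j, B i j = 1)
    (hC : ∀ i j, 0 ≤ C i j) (hC1 : ∀ i, ∑ j, C i j = 1)
    (hd : ∀ i j, 0 ≤ d i j) (hds : ∀ i j, d i j = d j i)
    (hAC : ∀ i k, ∑ j, A i j * C j k = C i k + (1 / τ) * (B i k - if i = k then 1 else 0)) :
    τ * ∑ i, ∑ j, w i * A i j * (DD C d i j * GG C d i j) ≤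
      (3 / 2) * W2 w B C d + (3 / 2) * W2 w C C d + W1 w C d := by
  have h1 := tau_sum_DG (w := w) (A := A) (B := B) (C := C) (d := d) hτ.ne' hA1 hrev hds hAC
  have h2 := energy_le (w := w) (A := A) (C := C) (d := d) hw hA hrev hC hC1 hds
  have h3 := tau_B1_le (w := w) (A := A) (B := B) (C := C) (d := d) hτ hw hA1 hrev hB hC hd hAC
  have h4 : ∑ i, w i * DD C d i i * (XX B C d i - uu C d i i) ≤
      (1 / 2) * QQ w C C d + (1 / 2) * QQ w B C d := by
    unfold QQ
    rw [Finset.mul_sum, Finset.mul_sum, ← Finset.sum_add_distrib]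
    refine Finset.sum_le_sum fun i _ => ?_
    have j1 := DD_sq_le (d := d) hC hC1 i
    have j2 := XX_sq_le (C := C) (d := d) hB hB1 i
    have e1 : ∑ k, w i * C i k * uu C d k i ^ 2 = w i * ∑ k, C i k * uu C d k i ^ 2 := by
      rw [Finset.mul_sum]; exact Finset.sum_congr rfl fun k _ => by ring
    have e2 : ∑ k, w i * B i k * uu C d k i ^ 2 = w i * ∑ k, B i k * uu C d k i ^ 2 := by
      rw [Finset.mul_sum]; exact Finset.sum_congr rfl fun k _ => by ring
    rw [e1, e2]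
    have hu := uu_nonneg (d := d) hC hd i i
    have hD := DD_nonneg (d := d) hC hd i i
    have key : DD C d i i * (XX B C d i - uu C d i i) ≤
        (1 / 2) * (∑ k, C i k * uu C d k i ^ 2) + (1 / 2) * ∑ k, B i k * uu C d k i ^ 2 := by
      have := mul_nonneg hD hu
      nlinarith [sq_nonneg (DD C d i i - XX B C d i)]
    calc w i * DD C d i i * (XX B C d i - uu C d i i)
        = w i * (DD C d i i * (XX B C d i - uu C d i i)) := by ring
      _ ≤ w i * ((1 / 2) * (∑ k, C i k * uu C d k i ^ 2) +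
            (1 / 2) * ∑ k, B i k * uu C d k i ^ 2) :=
          mul_le_mul_of_nonneg_left key (hw i)
      _ = _ := by ring
  have h5 := QQ_le_W2 (w := w) (M := B) (C := C) (d := d) hw hB hC hC1 hds
  have h6 := QQ_le_W2 (w := w) (M := C) (C := C) (d := d) hw hC hC hC1 hds
  have h7 : (τ / 4) * ∑ i, ∑ j, w i * A i j * ((DD C d i i - DD C d j j) ^ 2 + 4 * GG C d i j ^ 2) ≤
      (τ / 4) * (4 * B1 w A C d) :=
    mul_le_mul_of_nonneg_left h2 (by positivity)
  rw [h1]
  linarith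

end hac

end kernels

end Crest.Agent.MC
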