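import Mathlib

set_option autoImplicit false

namespace Crest.Agent.MC

open Finset MeasureTheory

/-- Threshold function. -/
noncomputable def cc (x θ : ℝ) : ℝ := if θ ≤ x then 1 else 0

lemma cc_anti (x : ℝ) : Antitone (cc x) := by
  intro s t hst
  unfold cc
  by_cases h : t ≤ x
  · have : s ≤ x := hst.trans h
    simp [h, this]
  · simp only [h, if_false]
    split_ifs <;> norm_num

lemma cc_nonneg (x θ : ℝ) : 0 ≤ cc x θ := by
  unfold cc; split_ifs <;> norm_num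

lemma cc_le_one (x θ : ℝ) : cc x θ ≤ 1 := by
  unfold cc; split_ifs <;> norm_num

lemma cc_mem (x θ : ℝ) : cc x θ = 0 ∨ cc x θ = 1 := by
  unfold cc; split_ifs <;> simp

lemma cc_mul (x y θ : ℝ) : cc x θ * cc y θ = cc (min x y) θ := by
  unfold cc
  by_cases h1 : θ ≤ x <;> by_cases h2 : θ ≤ y <;> simp [h1, h2, le_min_iff]

lemma cc_ii (x a b : ℝ) : IntervalIntegrable (cc x) volume a b :=
  (cc_anti x).intervalIntegrable

lemma cc_integral {a b x : ℝ} (hax : a ≤ x) (hxb : x ≤ b) :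
    ∫ θ in a..b, cc x θ = x - a := by
  have h : ∀ θ, cc x θ = Set.indicator {θ | θ ≤ x} (fun _ => (1 : ℝ)) θ := by
    intro θ
    unfold cc
    simp [Set.indicator_apply]
  simp_rw [h]
  rw [intervalIntegral.integral_indicator ⟨hax, hxb⟩]
  simp

variable {V : Type*} [Fintype V]

/-- The averaged threshold function. -/
noncomputable def pp (μ : V → ℝ) (f : V → ℝ) (θ : ℝ) : ℝ := ∑ k, μ k * cc (f k) θ

lemma pp_nonneg {μ : V → ℝ} (h0 : ∀ k, 0 ≤ μ k) (f : V → ℝ) (θ : ℝ) : 0 ≤ pp μ f θ :=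
  Finset.sum_nonneg fun k _ => mul_nonneg (h0 k) (cc_nonneg _ _)

lemma pp_le_one {μ : V → ℝ} (h0 : ∀ k, 0 ≤ μ k) (h1 : ∑ k, μ k = 1) (f : V → ℝ) (θ : ℝ) :
    pp μ f θ ≤ 1 := by
  calc pp μ f θ ≤ ∑ k, μ k * 1 :=
        Finset.sum_le_sum fun k _ => mul_le_mul_of_nonneg_left (cc_le_one _ _) (h0 k)
    _ = 1 := by simp [h1]

section integrals

variable {a b : ℝ} {f : V → ℝ}

lemma ii_sum {ι : Type*} (s : Finset ι) (F : ι → ℝ → ℝ)
    (h : ∀ i ∈ s, IntervalIntegrable (F i) volume a b) :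
    IntervalIntegrable (fun θ => ∑ i ∈ s, F i θ) volume a b := by
  have : (fun θ => ∑ i ∈ s, F i θ) = ∑ i ∈ s, F i := by
    ext θ; simp
  rw [this]
  exact IntervalIntegrable.sum _ h

lemma pp_ii (μ : V → ℝ) : IntervalIntegrable (pp μ f) volume a b :=
  ii_sum _ _ fun k _ => (cc_ii (f k) a b).const_mul (μ k)

lemma pp_integral (ha : ∀ k, a ≤ f k) (hb : ∀ k, f k ≤ b) (μ : V → ℝ) :
    ∫ θ in a..b, pp μ f θ = ∑ k, μ k * (f k - a) := by
  unfold pp
  rw [intervalIntegral.integral_finsetSum fun k _ => (cc_ii (f k) a b).const_mul (μ k)]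
  refine Finset.sum_congr rfl fun k _ => ?_
  rw [intervalIntegral.integral_const_mul, cc_integral (ha k) (hb k)]

lemma pp_mul_eq (μ ν : V → ℝ) (θ : ℝ) :
    pp μ f θ * pp ν f θ = ∑ k, ∑ l, μ k * ν l * cc (min (f k) (f l)) θ := by
  unfold pp
  rw [Finset.sum_mul]
  refine Finset.sum_congr rfl fun k _ => ?_
  rw [Finset.mul_sum]
  refine Finset.sum_congr rfl fun l _ => ?_
  rw [← cc_mul]
  ring

lemma pp_mul_ii (μ ν : V → ℝ) :
    IntervalIntegrable (fun θ => pp μ f θ * pp ν f θ) volume a b := by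
  simp_rw [pp_mul_eq]
  exact ii_sum _ _ fun k _ => ii_sum _ _ fun l _ => (cc_ii _ a b).const_mul _

lemma pp_mul_integral (ha : ∀ k, a ≤ f k) (hb : ∀ k, f k ≤ b) (μ ν : V → ℝ) :
    ∫ θ in a..b, pp μ f θ * pp ν f θ = ∑ k, ∑ l, μ k * ν l * (min (f k) (f l) - a) := by
  simp_rw [pp_mul_eq]
  rw [intervalIntegral.integral_finsetSum fun k _ =>
    ii_sum _ _ fun l _ => (cc_ii _ a b).const_mul _]
  refine Finset.sum_congr rfl fun k _ => ?_
  rw [intervalIntegral.integral_finsetSum fun l _ => (cc_ii _ a b).const_mul _]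
  refine Finset.sum_congr rfl fun l _ => ?_
  rw [intervalIntegral.integral_const_mul,
    cc_integral (le_min (ha k) (ha l)) ((min_le_left _ _).trans (hb k))]

/-- The linear combination of integrals that we need. -/
lemma int_comb (ha : ∀ k, a ≤ f k) (hb : ∀ k, f k ≤ b) (μ ν : V → ℝ) (α β γ : ℝ) :
    IntervalIntegrable (fun θ => α * pp μ f θ + α * pp ν f θ + β * (pp μ f θ * pp ν f θ) +
      γ * (pp μ f θ * pp μ f θ) + γ * (pp ν f θ * pp ν f θ)) volume a b ∧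
    ∫ θ in a..b, (α * pp μ f θ + α * pp ν f θ + β * (pp μ f θ * pp ν f θ) +
      γ * (pp μ f θ * pp μ f θ) + γ * (pp ν f θ * pp ν f θ)) =
      α * (∑ k, μ k * (f k - a)) + α * (∑ k, ν k * (f k - a)) +
      β * (∑ k, ∑ l, μ k * ν l * (min (f k) (f l) - a)) +
      γ * (∑ k, ∑ l, μ k * μ l * (min (f k) (f l) - a)) +
      γ * (∑ k, ∑ l, ν k * ν l * (min (f k) (f l) - a)) := by
  have i1 := (pp_ii (f := f) (a := a) (b := b) μ).const_mul α
  have i2 := (pp_ii (f := f) (a := a) (b := b) ν).const_mul α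
  have i3 := (pp_mul_ii (f := f) (a := a) (b := b) μ ν).const_mul β
  have i4 := (pp_mul_ii (f := f) (a := a) (b := b) μ μ).const_mul γ
  have i5 := (pp_mul_ii (f := f) (a := a) (b := b) ν ν).const_mul γ
  refine ⟨((((i1.add i2).add i3).add i4).add i5), ?_⟩
  rw [intervalIntegral.integral_add ((((i1.add i2).add i3).add i4)) i5,
    intervalIntegral.integral_add (((i1.add i2).add i3)) i4,
    intervalIntegral.integral_add ((i1.add i2)) i3,
    intervalIntegral.integral_add i1 i2]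
  simp only [intervalIntegral.integral_const_mul, pp_integral ha hb, pp_mul_integral ha hb]

/-- The distance pairing. -/
noncomputable def Df (f μ ν : V → ℝ) : ℝ := ∑ k, ν k * ∑ l, μ l * |f l - f k|

/-- The defect pairing. -/
noncomputable def Gf (f μ ν : V → ℝ) : ℝ := Df f μ ν - (Df f μ μ + Df f ν ν) / 2

lemma abs_sub_eq_min (x y a : ℝ) : |x - y| = (x - a) + (y - a) - 2 * (min x y - a) := by
  rcases le_total x y with h | h
  · rw [min_eq_left h, abs_of_nonpos (by linarith)]; ring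
  · rw [min_eq_right h, abs_of_nonneg (by linarith)]; ring

lemma Df_eq (a : ℝ) {μ ν : V → ℝ} (hμ : ∑ k, μ k = 1) (hν : ∑ k, ν k = 1) :
    Df f μ ν = (∑ k, μ k * (f k - a)) + (∑ k, ν k * (f k - a)) -
      2 * ∑ k, ∑ l, μ k * ν l * (min (f k) (f l) - a) := by
  unfold Df
  have h1 : ∀ k l, ν k * (μ l * |f l - f k|) =
      ν k * (μ l * (f l - a)) + (ν k * (f k - a)) * μ l -
        2 * (μ l * ν k * (min (f l) (f k) - a)) := by
    intro k l
    rw [abs_sub_eq_min (f l) (f k) a]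
    ring
  simp only [Finset.mul_sum, h1, Finset.sum_sub_distrib, Finset.sum_add_distrib]
  have h2 : ∑ k, ∑ l, ν k * (μ l * (f l - a)) = ∑ l, μ l * (f l - a) := by
    simp only [← Finset.mul_sum]
    rw [← Finset.sum_mul, hν, one_mul]
  have h3 : ∑ k, ∑ l, (ν k * (f k - a)) * μ l = ∑ k, ν k * (f k - a) := by
    simp only [← Finset.mul_sum]
    rw [hμ]
    simp
  have h4 : ∑ k, ∑ l, 2 * (μ l * ν k * (min (f l) (f k) - a)) =
      ∑ k, ∑ l, 2 * (μ k * ν l * (min (f k) (f l) - a)) := by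
    rw [Finset.sum_comm]
  rw [h2, h3, h4]

end integrals

/-- The truncation. -/
noncomputable def phi (u : ℝ) : ℝ := max 0 (min 1 (3 * u - 1))

lemma phi_low {p : ℝ} (h : p ≤ 1 / 3) : phi p = 0 := by
  unfold phi
  rw [max_eq_left]
  exact (min_le_right _ _).trans (by linarith)

lemma phi_high {p : ℝ} (h : 2 / 3 ≤ p) : phi p = 1 := by
  unfold phi
  rw [min_eq_left (by linarith)]
  norm_num

lemma phi_mid {p : ℝ} (h : 1 / 3 ≤ p) (h' : p ≤ 2 / 3) : phi p = 3 * p - 1 := by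
  unfold phi
  rw [min_eq_right (by linarith), max_eq_right (by linarith)]

lemma phi_mono : Monotone phi := by
  intro p q h
  unfold phi
  exact max_le_max le_rfl (min_le_min le_rfl (by linarith))

lemma phi_nonneg (p : ℝ) : 0 ≤ phi p := le_max_left _ _

lemma phi_lipschitz (p q : ℝ) : |phi p - phi q| ≤ 3 * |p - q| := by
  rcases le_total p (1 / 3) with h1 | h1 <;> rcases le_total p (2 / 3) with h2 | h2 <;>
  rcases le_total q (1 / 3) with h3 | h3 <;> rcases le_total q (2 / 3) with h4 | h4 <;>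
  first
  | (rw [phi_low h1, phi_low h3]; simp [abs_nonneg])
  | (rw [phi_low h1, phi_mid h3 h4]; rw [abs_le]; constructor <;> cases abs_cases (p - q) <;> linarith)
  | (rw [phi_low h1, phi_high h4]; rw [abs_le]; constructor <;> cases abs_cases (p - q) <;> linarith)
  | (rw [phi_mid h1 h2, phi_low h3]; rw [abs_le]; constructor <;> cases abs_cases (p - q) <;> linarith)
  | (rw [phi_mid h1 h2, phi_mid h3 h4]; rw [abs_le]; constructor <;> cases abs_cases (p - q) <;> linarith)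
  | (rw [phi_mid h1 h2, phi_high h4]; rw [abs_le]; constructor <;> cases abs_cases (p - q) <;> linarith)
  | (rw [phi_high h2, phi_low h3]; rw [abs_le]; constructor <;> cases abs_cases (p - q) <;> linarith)
  | (rw [phi_high h2, phi_mid h3 h4]; rw [abs_le]; constructor <;> cases abs_cases (p - q) <;> linarith)
  | (rw [phi_high h2, phi_high h4]; simp [abs_nonneg])
  | (exfalso; linarith)

lemma s_ge {p q : ℝ} (hp0 : 0 ≤ p) (hp1 : p ≤ 1) (hq0 : 0 ≤ q) (hq1 : q ≤ 1)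
    (h1 : 1 / 3 ≤ p ∨ 1 / 3 ≤ q) (h2 : p ≤ 2 / 3 ∨ q ≤ 2 / 3) :
    1 / 3 ≤ p + q - 2 * p * q := by
  rcases h1 with h1 | h1 <;> rcases h2 with h2 | h2
  · -- p ∈ [1/3, 2/3]
    nlinarith [mul_nonneg (sub_nonneg.2 h1) hq0, mul_nonneg (sub_nonneg.2 h2) (sub_nonneg.2 hq1)]
  · nlinarith [mul_nonneg (sub_nonneg.2 h1) hq0, mul_nonneg (sub_nonneg.2 h2) (sub_nonneg.2 hp1)]
  · nlinarith [mul_nonneg (sub_nonneg.2 h1) hp0, mul_nonneg (sub_nonneg.2 h2) (sub_nonneg.2 hq1)]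
  · nlinarith [mul_nonneg (sub_nonneg.2 h1) hp0, mul_nonneg (sub_nonneg.2 h2) (sub_nonneg.2 hp1)]

lemma phi_diff {p q c : ℝ} (hp0 : 0 ≤ p) (hp1 : p ≤ 1) (hq0 : 0 ≤ q) (hq1 : q ≤ 1) (hc : 0 < c) :
    |phi p - phi q| ≤ (3 / 2) * (3 * c * (p + q - 2 * p * q) + (p - q) ^ 2 / c) := by
  have hs : 0 ≤ p + q - 2 * p * q := by
    nlinarith [mul_nonneg hp0 (sub_nonneg.2 hq1), mul_nonneg hq0 (sub_nonneg.2 hp1)]
  have ht : 0 ≤ (p - q) ^ 2 / c := by positivity
  have h0 : 0 ≤ (3 / 2) * (3 * c * (p + q - 2 * p * q) + (p - q) ^ 2 / c) := by positivity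
  by_cases hb1 : p ≤ 1 / 3 ∧ q ≤ 1 / 3
  · rw [phi_low hb1.1, phi_low hb1.2]; simpa using h0
  by_cases hb2 : 2 / 3 ≤ p ∧ 2 / 3 ≤ q
  · rw [phi_high hb2.1, phi_high hb2.2]; simpa using h0
  have h1 : 1 / 3 ≤ p ∨ 1 / 3 ≤ q := by
    by_contra hcon
    push Not at hcon
    exact hb1 ⟨hcon.1.le, hcon.2.le⟩
  have h2 : p ≤ 2 / 3 ∨ q ≤ 2 / 3 := by
    by_contra hcon
    push Not at hcon
    exact hb2 ⟨hcon.1.le, hcon.2.le⟩
  have h3 := s_ge hp0 hp1 hq0 hq1 h1 h2
  have h4 := phi_lipschitz p q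
  have h5 : 2 * |p - q| ≤ c + (p - q) ^ 2 / c := by
    have e : c + (p - q) ^ 2 / c - 2 * |p - q| = (c - |p - q|) ^ 2 / c := by
      field_simp
      rw [← sq_abs (p - q)]
      ring
    have : 0 ≤ (c - |p - q|) ^ 2 / c := by positivity
    linarith
  have h6 : c ≤ 3 * c * (p + q - 2 * p * q) := by nlinarith
  linarith

lemma phi_vs_c (x θ : ℝ) {p : ℝ} (hp0 : 0 ≤ p) (hp1 : p ≤ 1) :
    |phi p - cc x θ| ≤ (3 / 2) * |p - cc x θ| := by
  rcases le_total p (1 / 3) with h1 | h1 <;> rcases le_total p (2 / 3) with h2 | h2 <;>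
  rcases cc_mem x θ with h | h <;> rw [h] <;>
  first
  | (rw [phi_low h1]; rw [abs_le]; constructor <;> cases abs_cases (p - 0) <;> linarith)
  | (rw [phi_low h1]; rw [abs_le]; constructor <;> cases abs_cases (p - 1) <;> linarith)
  | (rw [phi_mid h1 h2]; rw [abs_le]; constructor <;> cases abs_cases (p - 0) <;> linarith)
  | (rw [phi_mid h1 h2]; rw [abs_le]; constructor <;> cases abs_cases (p - 1) <;> linarith)
  | (rw [phi_high h2]; rw [abs_le]; constructor <;> cases abs_cases (p - 0) <;> linarith)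
  | (rw [phi_high h2]; rw [abs_le]; constructor <;> cases abs_cases (p - 1) <;> linarith)
  | (exfalso; linarith)

/-- The rounded value. -/
noncomputable def YY (a b : ℝ) (f μ : V → ℝ) : ℝ := a + ∫ θ in a..b, phi (pp μ f θ)

lemma phi_pp_ii {a b : ℝ} {f μ : V → ℝ} (h0 : ∀ k, 0 ≤ μ k) :
    IntervalIntegrable (fun θ => phi (pp μ f θ)) volume a b := by
  apply Antitone.intervalIntegrable
  intro s t hst
  apply phi_mono
  exact Finset.sum_le_sum fun k _ => mul_le_mul_of_nonneg_left (cc_anti _ hst) (h0 k)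

theorem round_diff {a b c : ℝ} {f μ ν : V → ℝ} (hab : a ≤ b) (ha : ∀ k, a ≤ f k)
    (hb : ∀ k, f k ≤ b) (hμ0 : ∀ k, 0 ≤ μ k) (hμ1 : ∑ k, μ k = 1) (hν0 : ∀ k, 0 ≤ ν k)
    (hν1 : ∑ k, ν k = 1) (hc : 0 < c) :
    |YY a b f μ - YY a b f ν| ≤ (3 / 2) * (3 * c * Df f μ ν + Gf f μ ν / c) := by
  have hc' : c ≠ 0 := hc.ne'
  obtain ⟨hi, hv⟩ := int_comb (f := f) ha hb μ ν ((9 / 2) * c) (-9 * c - 3 / c) (3 / (2 * c))
  have e1 : YY a b f μ - YY a b f ν = ∫ θ in a..b, (phi (pp μ f θ) - phi (pp ν f θ)) := by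
    unfold YY
    rw [intervalIntegral.integral_sub (phi_pp_ii hμ0) (phi_pp_ii hν0)]
    ring
  rw [e1]
  have e2 : (3 / 2) * (3 * c * Df f μ ν + Gf f μ ν / c) =
      ∫ θ in a..b, ((9 / 2) * c * pp μ f θ + (9 / 2) * c * pp ν f θ +
        (-9 * c - 3 / c) * (pp μ f θ * pp ν f θ) +
        (3 / (2 * c)) * (pp μ f θ * pp μ f θ) + (3 / (2 * c)) * (pp ν f θ * pp ν f θ)) := by
    rw [hv]
    unfold Gf
    rw [Df_eq a (f := f) hμ1 hν1, Df_eq a (f := f) hμ1 hμ1, Df_eq a (f := f) hν1 hν1]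
    field_simp
    ring
  rw [e2, ← Real.norm_eq_abs]
  refine intervalIntegral.norm_integral_le_of_norm_le hab ?_ hi
  refine Filter.Eventually.of_forall fun θ _ => ?_
  rw [Real.norm_eq_abs]
  refine (phi_diff (pp_nonneg hμ0 f θ) (pp_le_one hμ0 hμ1 f θ) (pp_nonneg hν0 f θ)
    (pp_le_one hν0 hν1 f θ) hc).trans (le_of_eq ?_)
  field_simp
  ring

theorem Gf_nonneg {a b : ℝ} {f μ ν : V → ℝ} (hab : a ≤ b) (ha : ∀ k, a ≤ f k)
    (hb : ∀ k, f k ≤ b) (hμ1 : ∑ k, μ k = 1) (hν1 : ∑ k, ν k = 1) :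
    0 ≤ Gf f μ ν := by
  obtain ⟨-, hv⟩ := int_comb (f := f) ha hb μ ν 0 (-2) 1
  have e2 : Gf f μ ν =
      ∫ θ in a..b, (0 * pp μ f θ + 0 * pp ν f θ + (-2) * (pp μ f θ * pp ν f θ) +
        1 * (pp μ f θ * pp μ f θ) + 1 * (pp ν f θ * pp ν f θ)) := by
    rw [hv]
    unfold Gf
    rw [Df_eq a (f := f) hμ1 hν1, Df_eq a (f := f) hμ1 hμ1, Df_eq a (f := f) hν1 hν1]
    ring
  rw [e2]
  refine intervalIntegral.integral_nonneg hab fun θ _ => ?_
  nlinarith [sq_nonneg (pp μ f θ - pp ν f θ)]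

theorem round_point {a b : ℝ} {f μ : V → ℝ} (hab : a ≤ b) (ha : ∀ k, a ≤ f k)
    (hb : ∀ k, f k ≤ b) (hμ0 : ∀ k, 0 ≤ μ k) (hμ1 : ∑ k, μ k = 1) (i : V) :
    |YY a b f μ - f i| ≤ (3 / 2) * ∑ k, μ k * |f k - f i| := by
  have e1 : YY a b f μ - f i = ∫ θ in a..b, (phi (pp μ f θ) - cc (f i) θ) := by
    unfold YY
    rw [intervalIntegral.integral_sub (phi_pp_ii hμ0) (cc_ii _ a b),
      cc_integral (ha i) (hb i)]
    ring
  -- the bounding function
  have hi : IntervalIntegrable (fun θ => (3 / 2) * ∑ k, μ k *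
      (cc (f k) θ + cc (f i) θ - 2 * cc (min (f k) (f i)) θ)) volume a b := by
    refine IntervalIntegrable.const_mul (ii_sum _ _ fun k _ => ?_) _
    exact (((cc_ii _ a b).add (cc_ii _ a b)).sub ((cc_ii _ a b).const_mul 2)).const_mul _
  have e2 : (3 / 2) * ∑ k, μ k * |f k - f i| =
      ∫ θ in a..b, (3 / 2) * ∑ k, μ k *
        (cc (f k) θ + cc (f i) θ - 2 * cc (min (f k) (f i)) θ) := by
    rw [intervalIntegral.integral_const_mul, intervalIntegral.integral_finsetSum fun k _ =>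
      (((cc_ii _ a b).add (cc_ii _ a b)).sub ((cc_ii _ a b).const_mul 2)).const_mul _]
    congr 1
    refine Finset.sum_congr rfl fun k _ => ?_
    rw [intervalIntegral.integral_const_mul,
      intervalIntegral.integral_sub ((cc_ii _ a b).add (cc_ii _ a b)) ((cc_ii _ a b).const_mul 2),
      intervalIntegral.integral_add (cc_ii _ a b) (cc_ii _ a b),
      intervalIntegral.integral_const_mul, cc_integral (ha k) (hb k), cc_integral (ha i) (hb i),
      cc_integral (le_min (ha k) (ha i)) ((min_le_left _ _).trans (hb k)),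
      abs_sub_eq_min (f k) (f i) a]
  rw [e1, e2, ← Real.norm_eq_abs]
  refine intervalIntegral.norm_integral_le_of_norm_le hab ?_ hi
  refine Filter.Eventually.of_forall fun θ _ => ?_
  rw [Real.norm_eq_abs]
  refine (phi_vs_c (f i) θ (pp_nonneg hμ0 f θ) (pp_le_one hμ0 hμ1 f θ)).trans ?_
  apply mul_le_mul_of_nonneg_left _ (by norm_num)
  have e3 : pp μ f θ - cc (f i) θ = ∑ k, μ k * (cc (f k) θ - cc (f i) θ) := by
    unfold pp
    simp only [mul_sub, Finset.sum_sub_distrib, ← Finset.sum_mul, hμ1, one_mul]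
  rw [e3]
  refine (Finset.abs_sum_le_sum_abs _ _).trans (Finset.sum_le_sum fun k _ => ?_)
  rw [abs_mul, abs_of_nonneg (hμ0 k)]
  apply mul_le_mul_of_nonneg_left _ (hμ0 k)
  rw [← cc_mul]
  rcases cc_mem (f k) θ with h | h <;> rcases cc_mem (f i) θ with h' | h' <;> rw [h, h'] <;> norm_num

end Crest.Agent.MC
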