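import Crest.Agent.MC1
import Crest.Agent.MC2

set_option autoImplicit false

namespace Crest.Agent.MC

open Finset

/-- The space `ℓ¹`. -/
abbrev L1 := lp (fun _ : ℕ => ℝ) 1

lemma one_toReal_pos : 0 < (1 : ENNReal).toReal := by simp

lemma summable_abs (f : L1) : Summable fun m => |f m| := by
  have := (lp.memℓp f).summable one_toReal_pos
  simpa using this

lemma hasSum_norm (f : L1) : HasSum (fun m => |f m|) ‖f‖ := by
  have h := lp.norm_eq_tsum_rpow one_toReal_pos f
  simp only [ENNReal.toReal_one, Real.rpow_one, div_one, Real.norm_eq_abs] at h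
  rw [h]
  exact (summable_abs f).hasSum

lemma hasSum_dist (f g : L1) : HasSum (fun m => |f m - g m|) (dist f g) := by
  rw [dist_eq_norm]
  have := hasSum_norm (f - g)
  simpa using this

lemma mk_mem {g : ℕ → ℝ} (hg : Summable fun m => |g m|) : Memℓp g 1 := by
  apply memℓp_gen
  simpa using hg

variable {V : Type*} [Fintype V]

/-- The envelope of the `m`-th coordinates. -/
noncomputable def SS (x : V → L1) (m : ℕ) : ℝ := ∑ k, |x k m|

lemma SS_lower (x : V → L1) (m : ℕ) (k : V) : -SS x m ≤ x k m := by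
  have : |x k m| ≤ SS x m :=
    Finset.single_le_sum (f := fun k => |x k m|) (fun _ _ => abs_nonneg _) (Finset.mem_univ k)
  have := neg_abs_le (x k m)
  linarith

lemma SS_upper (x : V → L1) (m : ℕ) (k : V) : x k m ≤ SS x m := by
  have : |x k m| ≤ SS x m :=
    Finset.single_le_sum (f := fun k => |x k m|) (fun _ _ => abs_nonneg _) (Finset.mem_univ k)
  have := le_abs_self (x k m)
  linarith

lemma SS_nonneg (x : V → L1) (m : ℕ) : 0 ≤ SS x m :=
  Finset.sum_nonneg fun _ _ => abs_nonneg _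

/-- The rounded points, as sequences. -/
noncomputable def yfun (C : V → V → ℝ) (x : V → L1) (i : V) (m : ℕ) : ℝ :=
  YY (-SS x m) (SS x m) (fun k => x k m) (C i)

lemma yfun_point {C : V → V → ℝ} (hC : ∀ i j, 0 ≤ C i j) (hC1 : ∀ i, ∑ j, C i j = 1)
    (x : V → L1) (i : V) (m : ℕ) :
    |yfun C x i m - x i m| ≤ (3 / 2) * ∑ k, C i k * |x k m - x i m| :=
  round_point (by linarith [SS_nonneg x m]) (SS_lower x m) (SS_upper x m) (hC i) (hC1 i) i

lemma hasSum_bound {C : V → V → ℝ} (x : V → L1) (i : V) :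
    HasSum (fun m => (3 / 2) * ∑ k, C i k * |x k m - x i m|)
      ((3 / 2) * ∑ k, C i k * dist (x k) (x i)) := by
  apply HasSum.mul_left
  apply hasSum_sum
  intro k _
  exact (hasSum_dist (x k) (x i)).mul_left _

lemma yfun_mem {C : V → V → ℝ} (hC : ∀ i j, 0 ≤ C i j) (hC1 : ∀ i, ∑ j, C i j = 1)
    (x : V → L1) (i : V) : Memℓp (yfun C x i) 1 := by
  apply mk_mem
  have h1 := (hasSum_bound (C := C) x i).summable
  have h2 := summable_abs (x i)
  refine Summable.of_nonneg_of_le (fun _ => abs_nonneg _) (fun m => ?_) (h2.add h1)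
  have := yfun_point hC hC1 x i m
  have h3 : |yfun C x i m| ≤ |yfun C x i m - x i m| + |x i m| := by
    have := abs_sub_abs_le_abs_sub (yfun C x i m) (x i m)
    linarith
  linarith

/-- The rounded points. -/
noncomputable def yy {C : V → V → ℝ} (hC : ∀ i j, 0 ≤ C i j) (hC1 : ∀ i, ∑ j, C i j = 1)
    (x : V → L1) (i : V) : L1 := ⟨yfun C x i, yfun_mem hC hC1 x i⟩

lemma dist_x_yy {C : V → V → ℝ} (hC : ∀ i j, 0 ≤ C i j) (hC1 : ∀ i, ∑ j, C i j = 1)
    (x : V → L1) (i : V) :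
    dist (x i) (yy hC hC1 x i) ≤ (3 / 2) * ∑ k, C i k * dist (x k) (x i) := by
  refine hasSum_le (fun m => ?_) (hasSum_dist (x i) (yy hC hC1 x i)) (hasSum_bound x i)
  rw [abs_sub_comm]
  exact yfun_point hC hC1 x i m

/-- The distance kernel. -/
noncomputable def dd (x : V → L1) (k l : V) : ℝ := dist (x k) (x l)

lemma hasSum_Df {C : V → V → ℝ} (x : V → L1) (i j : V) :
    HasSum (fun m => Df (fun k => x k m) (C i) (C j)) (DD C (dd x) i j) := by
  unfold Df DD uu
  apply hasSum_sum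
  intro k _
  apply HasSum.mul_left
  apply hasSum_sum
  intro l _
  exact (hasSum_dist (x l) (x k)).mul_left _

lemma hasSum_Gf {C : V → V → ℝ} (x : V → L1) (i j : V) :
    HasSum (fun m => Gf (fun k => x k m) (C i) (C j)) (GG C (dd x) i j) := by
  unfold Gf GG
  exact (hasSum_Df x i j).sub (((hasSum_Df x i i).add (hasSum_Df x j j)).div_const 2)

lemma GG_nonneg {C : V → V → ℝ} (hC1 : ∀ i, ∑ j, C i j = 1) (x : V → L1) (i j : V) :
    0 ≤ GG C (dd x) i j := by
  refine (hasSum_Gf x i j).nonneg fun m => ?_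
  exact Gf_nonneg (a := -SS x m) (b := SS x m) (by linarith [SS_nonneg x m]) (SS_lower x m)
    (SS_upper x m) (hC1 i) (hC1 j)

lemma dist_yy_yy {C : V → V → ℝ} (hC : ∀ i j, 0 ≤ C i j) (hC1 : ∀ i, ∑ j, C i j = 1)
    (x : V → L1) (i j : V) {c : ℝ} (hc : 0 < c) :
    dist (yy hC hC1 x i) (yy hC hC1 x j) ≤
      (3 / 2) * (3 * c * DD C (dd x) i j + GG C (dd x) i j / c) := by
  have h : HasSum (fun m => (3 / 2) * (3 * c * Df (fun k => x k m) (C i) (C j) +
      Gf (fun k => x k m) (C i) (C j) / c))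
      ((3 / 2) * (3 * c * DD C (dd x) i j + GG C (dd x) i j / c)) := by
    apply HasSum.mul_left
    exact ((hasSum_Df x i j).mul_left _).add ((hasSum_Gf x i j).div_const _)
  refine hasSum_le (fun m => ?_) (hasSum_dist (yy hC hC1 x i) (yy hC hC1 x j)) h
  exact round_diff (by linarith [SS_nonneg x m]) (SS_lower x m) (SS_upper x m) (hC i) (hC1 i)
    (hC j) (hC1 j) hc

/-- Optimising over `c`. -/
lemma opt_c {X P Q : ℝ} (hX : 0 ≤ X) (hP : 0 ≤ P) (hQ : 0 ≤ Q)
    (h : ∀ c : ℝ, 0 < c → X ≤ (3 / 2) * (3 * c * P + Q / c)) : X ^ 2 ≤ 27 * (P * Q) := by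
  rcases hX.eq_or_lt with rfl | hX
  · have := mul_nonneg hP hQ
    nlinarith
  rcases hP.eq_or_lt with rfl | hP
  · exfalso
    have hc : 0 < (3 * Q + 1) / X := by positivity
    have := h _ hc
    have e : Q / ((3 * Q + 1) / X) = Q * X / (3 * Q + 1) := by
      field_simp
    rw [e] at this
    have h2 : Q * X / (3 * Q + 1) ≤ X / 3 := by
      rw [div_le_div_iff₀ (by positivity) (by norm_num)]
      nlinarith
    nlinarith
  · have hc : 0 < X / (9 * P) := by positivity
    have := h _ hc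
    have e : Q / (X / (9 * P)) = 9 * P * Q / X := by
      field_simp
    have e2 : 3 * (X / (9 * P)) * P = X / 3 := by
      field_simp
      ring
    rw [e, e2] at this
    have h3 : X * X ≤ X * ((3 / 2) * (X / 3 + 9 * P * Q / X)) :=
      mul_le_mul_of_nonneg_left this hX.le
    have h4 : X * ((3 / 2) * (X / 3 + 9 * P * Q / X)) = X ^ 2 / 2 + (27 / 2) * (P * Q) := by
      field_simp
      ring
    rw [h4] at h3
    nlinarith

lemma dd_nonneg (x : V → L1) (i j : V) : 0 ≤ dd x i j := dist_nonneg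
lemma dd_symm (x : V → L1) (i j : V) : dd x i j = dd x j i := dist_comm _ _
lemma dd_self (x : V → L1) (i : V) : dd x i i = 0 := dist_self _

lemma DD_nonneg' {C : V → V → ℝ} (hC : ∀ i j, 0 ≤ C i j) (x : V → L1) (i j : V) :
    0 ≤ DD C (dd x) i j := DD_nonneg hC (dd_nonneg x) i j

lemma dist_yy_sq {C : V → V → ℝ} (hC : ∀ i j, 0 ≤ C i j) (hC1 : ∀ i, ∑ j, C i j = 1)
    (x : V → L1) (i j : V) :
    dist (yy hC hC1 x i) (yy hC hC1 x j) ^ 2 ≤ 27 * (DD C (dd x) i j * GG C (dd x) i j) :=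
  opt_c dist_nonneg (DD_nonneg' hC x i j) (GG_nonneg hC1 x i j)
    fun _ hc => dist_yy_yy hC hC1 x i j hc

lemma dist_x_yy_sq {C : V → V → ℝ} (hC : ∀ i j, 0 ≤ C i j) (hC1 : ∀ i, ∑ j, C i j = 1)
    (x : V → L1) (i : V) :
    dist (x i) (yy hC hC1 x i) ^ 2 ≤ (9 / 4) * ∑ k, C i k * dd x i k ^ 2 := by
  have h1 := dist_x_yy hC hC1 x i
  have h2 := jensen_sq (μ := C i) (hC i) (hC1 i) (fun k => dd x i k)
  have h3 : ∑ k, C i k * dist (x k) (x i) = ∑ k, C i k * dd x i k :=
    Finset.sum_congr rfl fun k _ => by rw [dd, dist_comm]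
  rw [h3] at h1
  have h4 : 0 ≤ dist (x i) (yy hC hC1 x i) := dist_nonneg
  nlinarith

end Crest.Agent.MC
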