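import Crest.Agent.MC3

set_option autoImplicit false

namespace Crest.Agent.MC

open Finset

variable {V : Type*} [Fintype V] [DecidableEq V]
variable {w : V → ℝ} {A : Matrix V V ℝ}

lemma pow_entry_nonneg (hA : ∀ i j, 0 ≤ A i j) (s : ℕ) (i j : V) : 0 ≤ (A ^ s) i j := by
  induction s generalizing i j with
  | zero =>
    rw [pow_zero, Matrix.one_apply]
    split_ifs <;> norm_num
  | succ s ih =>
    rw [pow_succ, Matrix.mul_apply]
    exact Finset.sum_nonneg fun l _ => mul_nonneg (ih i l) (hA l j)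

lemma pow_row_sum (hA1 : ∀ i, ∑ j, A i j = 1) (s : ℕ) (i : V) : ∑ j, (A ^ s) i j = 1 := by
  induction s with
  | zero =>
    rw [pow_zero]
    simp [Matrix.one_apply]
  | succ s ih =>
    simp only [pow_succ, Matrix.mul_apply]
    rw [Finset.sum_comm]
    simp only [← Finset.mul_sum, hA1, mul_one]
    exact ih

lemma pow_rev (hrev : ∀ i j, w i * A i j = w j * A j i) (s : ℕ) (i j : V) :
    w i * (A ^ s) i j = w j * (A ^ s) j i := by
  induction s generalizing i j with
  | zero =>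
    rw [pow_zero, Matrix.one_apply, Matrix.one_apply]
    by_cases h : i = j
    · subst h; rfl
    · simp [h, Ne.symm h]
  | succ s ih =>
    have e1 : w i * (A ^ (s + 1)) i j = ∑ l, (A ^ s) l i * (w j * A j l) := by
      rw [pow_succ, Matrix.mul_apply, Finset.mul_sum]
      refine Finset.sum_congr rfl fun l _ => ?_
      rw [← mul_assoc, ih i l, hrev j l]
      ring
    rw [e1, pow_succ', Matrix.mul_apply, Finset.mul_sum]
    exact Finset.sum_congr rfl fun l _ => by ring

/-- The time-`s` energy. -/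
noncomputable def aa (w : V → ℝ) (A : Matrix V V ℝ) (d : V → V → ℝ) (s : ℕ) : ℝ :=
  ∑ k, ∑ l, w k * (A ^ s) k l * d k l ^ 2

lemma aa_nonneg (hw : ∀ i, 0 ≤ w i) (hA : ∀ i j, 0 ≤ A i j) (d : V → V → ℝ) (s : ℕ) :
    0 ≤ aa w A d s :=
  Finset.sum_nonneg fun k _ => Finset.sum_nonneg fun l _ =>
    mul_nonneg (mul_nonneg (hw k) (pow_entry_nonneg hA s k l)) (sq_nonneg _)

lemma aa_zero {d : V → V → ℝ} (hd0 : ∀ i, d i i = 0) : aa w A d 0 = 0 := by
  unfold aa
  refine Finset.sum_eq_zero fun k _ => Finset.sum_eq_zero fun l _ => ?_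
  rw [pow_zero, Matrix.one_apply]
  by_cases h : k = l
  · subst h; simp [hd0]
  · simp [h]

lemma W2_pow (hrev : ∀ i j, w i * A i j = w j * A j i) (d : V → V → ℝ) (p q : ℕ) :
    W2 w (fun i k => (A ^ p) i k) (fun i k => (A ^ q) i k) d = aa w A d (p + q) := by
  unfold W2 aa
  rw [Finset.sum_comm]
  refine Finset.sum_congr rfl fun k _ => ?_
  rw [Finset.sum_comm]
  refine Finset.sum_congr rfl fun l _ => ?_
  rw [pow_add, Matrix.mul_apply, Finset.mul_sum, Finset.sum_mul]
  refine Finset.sum_congr rfl fun i _ => ?_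
  rw [pow_rev hrev p i k]
  ring

/-- The averaged kernel. -/
noncomputable def CC (A : Matrix V V ℝ) (τ : ℕ) (i k : V) : ℝ :=
  (1 / (τ : ℝ)) * ∑ s ∈ Finset.range τ, (A ^ s) i k

lemma CC_nonneg (hA : ∀ i j, 0 ≤ A i j) (τ : ℕ) (i k : V) : 0 ≤ CC A τ i k := by
  unfold CC
  apply mul_nonneg (by positivity)
  exact Finset.sum_nonneg fun s _ => pow_entry_nonneg hA s i k

lemma CC_row (hA1 : ∀ i, ∑ j, A i j = 1) {τ : ℕ} (hτ : 1 ≤ τ) (i : V) : ∑ k, CC A τ i k = 1 := by
  unfold CC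
  rw [← Finset.mul_sum, Finset.sum_comm]
  simp only [pow_row_sum hA1, Finset.sum_const, Finset.card_range, nsmul_eq_mul, mul_one]
  have : (τ : ℝ) ≠ 0 := by
    have : 0 < τ := hτ
    positivity
  field_simp

lemma CC_AC {τ : ℕ} (i k : V) :
    ∑ j, A i j * CC A τ j k =
      CC A τ i k + (1 / (τ : ℝ)) * ((A ^ τ) i k - if i = k then 1 else 0) := by
  unfold CC
  have e1 : ∑ j, A i j * ((1 / (τ : ℝ)) * ∑ s ∈ Finset.range τ, (A ^ s) j k) =
      (1 / (τ : ℝ)) * ∑ s ∈ Finset.range τ, (A ^ (s + 1)) i k := by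
    rw [Finset.mul_sum]
    simp only [pow_succ', Matrix.mul_apply, Finset.mul_sum]
    rw [Finset.sum_comm]
    exact Finset.sum_congr rfl fun s _ => Finset.sum_congr rfl fun j _ => by ring
  have e2 : ∑ s ∈ Finset.range τ, (A ^ (s + 1)) i k =
      ∑ s ∈ Finset.range τ, (A ^ s) i k + (A ^ τ) i k - if i = k then 1 else 0 := by
    have h1 := Finset.sum_range_succ (fun s => (A ^ s) i k) τ
    have h2 := Finset.sum_range_succ' (fun s => (A ^ s) i k) τ
    simp only [pow_zero, Matrix.one_apply] at h2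
    linarith
  rw [e1, e2]
  ring

/-- Expansion of `W2` in its left argument. -/
lemma W2_avg_left (d : V → V → ℝ) (M : ℕ → V → V → ℝ) (M2 : V → V → ℝ) (c : ℝ) (S : Finset ℕ) :
    W2 w (fun i k => c * ∑ s ∈ S, M s i k) M2 d = c * ∑ s ∈ S, W2 w (M s) M2 d := by
  unfold W2
  rw [Finset.sum_comm (s := S), Finset.mul_sum]
  refine Finset.sum_congr rfl fun i _ => ?_
  rw [Finset.sum_comm (s := S), Finset.mul_sum]
  refine Finset.sum_congr rfl fun k _ => ?_
  rw [Finset.sum_comm (s := S), Finset.mul_sum]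
  refine Finset.sum_congr rfl fun l _ => ?_
  simp only [Finset.mul_sum, Finset.sum_mul]
  refine Finset.sum_congr rfl fun s _ => by ring

/-- Expansion of `W2` in its right argument. -/
lemma W2_avg_right (d : V → V → ℝ) (M : ℕ → V → V → ℝ) (M1 : V → V → ℝ) (c : ℝ) (S : Finset ℕ) :
    W2 w M1 (fun i k => c * ∑ s ∈ S, M s i k) d = c * ∑ s ∈ S, W2 w M1 (M s) d := by
  unfold W2
  rw [Finset.sum_comm (s := S), Finset.mul_sum]
  refine Finset.sum_congr rfl fun i _ => ?_
  rw [Finset.sum_comm (s := S), Finset.mul_sum]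
  refine Finset.sum_congr rfl fun k _ => ?_
  rw [Finset.sum_comm (s := S), Finset.mul_sum]
  refine Finset.sum_congr rfl fun l _ => ?_
  simp only [Finset.mul_sum, Finset.sum_mul]
  refine Finset.sum_congr rfl fun s _ => by ring

lemma W1_CC (d : V → V → ℝ) (τ : ℕ) :
    W1 w (CC A τ) d = (1 / (τ : ℝ)) * ∑ s ∈ Finset.range τ, aa w A d s := by
  unfold W1 aa CC
  rw [Finset.sum_comm (s := Finset.range τ), Finset.mul_sum]
  refine Finset.sum_congr rfl fun i _ => ?_
  rw [Finset.sum_comm (s := Finset.range τ), Finset.mul_sum]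
  refine Finset.sum_congr rfl fun k _ => ?_
  simp only [Finset.mul_sum, Finset.sum_mul]
  refine Finset.sum_congr rfl fun s _ => by ring

lemma W2_B_CC (hrev : ∀ i j, w i * A i j = w j * A j i) (d : V → V → ℝ) (τ : ℕ) :
    W2 w (fun i k => (A ^ τ) i k) (CC A τ) d =
      (1 / (τ : ℝ)) * ∑ s ∈ Finset.range τ, aa w A d (τ + s) := by
  have := W2_avg_right (w := w) d (fun s i k => (A ^ s) i k) (fun i k => (A ^ τ) i k)
    (1 / (τ : ℝ)) (Finset.range τ)
  refine this.trans ?_
  congr 1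
  exact Finset.sum_congr rfl fun s _ => W2_pow hrev d τ s

lemma W2_CC_CC (hrev : ∀ i j, w i * A i j = w j * A j i) (d : V → V → ℝ) (τ : ℕ) :
    W2 w (CC A τ) (CC A τ) d =
      (1 / (τ : ℝ)) * ∑ p ∈ Finset.range τ,
        ((1 / (τ : ℝ)) * ∑ s ∈ Finset.range τ, aa w A d (p + s)) := by
  have := W2_avg_left (w := w) d (fun s i k => (A ^ s) i k) (CC A τ)
    (1 / (τ : ℝ)) (Finset.range τ)
  refine this.trans ?_
  congr 1
  refine Finset.sum_congr rfl fun p _ => ?_
  have := W2_avg_right (w := w) d (fun s i k => (A ^ s) i k) (fun i k => (A ^ p) i k)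
    (1 / (τ : ℝ)) (Finset.range τ)
  refine this.trans ?_
  congr 1
  exact Finset.sum_congr rfl fun s _ => W2_pow hrev d p s

/-- Sums over an injectively indexed part. -/
lemma sum_shift_le {a : ℕ → ℝ} (ha : ∀ s, 0 ≤ a s) {τ t p : ℕ} (h : p + τ ≤ t + 1) :
    ∑ s ∈ Finset.range τ, a (p + s) ≤ ∑ r ∈ Finset.range (t + 1), a r := by
  have e : ∑ s ∈ Finset.range τ, a (p + s) =
      ∑ r ∈ (Finset.range τ).image (fun s => p + s), a r := by
    rw [Finset.sum_image]
    intro x _ y _ hxy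
    simpa using hxy
  rw [e]
  apply Finset.sum_le_sum_of_subset_of_nonneg
  · intro r hr
    simp only [Finset.mem_image, Finset.mem_range] at hr ⊢
    obtain ⟨s, hs, rfl⟩ := hr
    omega
  · intro r _ _
    exact ha r

lemma sum_range_eq_Icc {a : ℕ → ℝ} (h0 : a 0 = 0) (t : ℕ) :
    ∑ r ∈ Finset.range (t + 1), a r = ∑ s ∈ Finset.Icc 1 t, a s := by
  rw [Finset.sum_range_succ', h0, add_zero]
  have : Finset.Icc 1 t = (Finset.range t).image (fun s => s + 1) := by
    ext r
    simp only [Finset.mem_Icc, Finset.mem_image, Finset.mem_range]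
    constructor
    · rintro ⟨h1, h2⟩
      exact ⟨r - 1, by omega, by omega⟩
    · rintro ⟨s, hs, rfl⟩
      omega
  rw [this, Finset.sum_image]
  intro x _ y _ hxy
  simpa using hxy

/-- Time bookkeeping: the three kernels all stay within time `t`. -/
theorem time_bounds (hw : ∀ i, 0 ≤ w i) (hA : ∀ i j, 0 ≤ A i j)
    (hrev : ∀ i j, w i * A i j = w j * A j i) (d : V → V → ℝ) {τ t : ℕ} (hτ : 1 ≤ τ)
    (ht : 2 * τ ≤ t + 1) :
    (τ : ℝ) * W1 w (CC A τ) d ≤ ∑ r ∈ Finset.range (t + 1), aa w A d r ∧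
    (τ : ℝ) * W2 w (fun i k => (A ^ τ) i k) (CC A τ) d ≤ ∑ r ∈ Finset.range (t + 1), aa w A d r ∧
    (τ : ℝ) * W2 w (CC A τ) (CC A τ) d ≤ ∑ r ∈ Finset.range (t + 1), aa w A d r := by
  have hτ0 : (τ : ℝ) ≠ 0 := by
    have : 0 < τ := hτ
    positivity
  have hτ1 : (τ : ℝ) * (1 / (τ : ℝ)) = 1 := by field_simp
  have ha := aa_nonneg (w := w) (A := A) hw hA d
  refine ⟨?_, ?_, ?_⟩
  · rw [W1_CC, ← mul_assoc, hτ1, one_mul]
    have := sum_shift_le (a := aa w A d) ha (τ := τ) (t := t) (p := 0) (by omega)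
    simpa using this
  · rw [W2_B_CC hrev, ← mul_assoc, hτ1, one_mul]
    exact sum_shift_le ha (by omega)
  · rw [W2_CC_CC hrev, ← mul_assoc, hτ1, one_mul]
    set Rr := ∑ r ∈ Finset.range (t + 1), aa w A d r with hRr
    calc ∑ p ∈ Finset.range τ, ((1 / (τ : ℝ)) * ∑ s ∈ Finset.range τ, aa w A d (p + s))
        ≤ ∑ p ∈ Finset.range τ, ((1 / (τ : ℝ)) * Rr) := by
          refine Finset.sum_le_sum fun p hp => ?_
          apply mul_le_mul_of_nonneg_left _ (by positivity)
          have : p < τ := Finset.mem_range.1 hp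
          exact sum_shift_le ha (by omega)
      _ = Rr := by
          simp only [Finset.sum_const, Finset.card_range, nsmul_eq_mul]
          field_simp

end Crest.Agent.MC
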